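import Vale.Agent.P084.Inf.DirDeriv

/-!
Properties of the one-sided directional derivatives of the extension.
-/

namespace Vale.Agent.P084.Inf

open Filter Topology Set

variable {X Y : Type*} [NormedAddCommGroup X] [NormedSpace ℝ X] [NormedAddCommGroup Y]
  [NormedSpace ℝ Y] {T : X → Y} {T' : Y → X}

lemma abs_dist_map_le (hT : IsTingley T T') (x y : X) :
    |‖T x - T y‖ - ‖x - y‖| ≤ 2 * |‖x‖ - ‖y‖| := by
  rcases eq_or_ne y 0 with rfl | hy
  · rw [hT.map_zero, sub_zero, sub_zero, hT.norm_map, sub_self, abs_zero]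
    positivity
  set s := ‖x‖ / ‖y‖ with hs
  have hy0 : 0 < ‖y‖ := norm_pos_iff.2 hy
  have hn : ‖x‖ = ‖s • y‖ := by
    rw [norm_smul, Real.norm_of_nonneg (by positivity), hs, div_mul_cancel₀ _ hy0.ne']
  have hTs : T (s • y) = s • T y := by
    rcases eq_or_lt_of_le (show 0 ≤ s by positivity) with h | h
    · rw [← h, zero_smul, zero_smul, hT.map_zero]
    · exact hT.homog _ _ h
  have e1 := abs_norm_sub_norm_le (T x - T y) (T x - s • T y)
  rw [show T x - T y - (T x - s • T y) = (s - 1) • T y by module, norm_smul, hT.norm_map, ← hTs,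
    hT.dist_map _ _ hn] at e1
  have e2 := abs_norm_sub_norm_le (x - s • y) (x - y)
  rw [show x - s • y - (x - y) = (1 - s) • y by module, norm_smul, Real.norm_eq_abs,
    abs_sub_comm (1 : ℝ)] at e2
  rw [Real.norm_eq_abs] at e1
  have e3 : |s - 1| * ‖y‖ = |‖x‖ - ‖y‖| := by
    rw [hs, div_sub_one hy0.ne', abs_div, abs_of_pos hy0, div_mul_cancel₀ _ hy0.ne']
  have := abs_sub_le ‖T x - T y‖ ‖x - s • y‖ ‖x - y‖
  linarith

lemma tendsto_const_mul_nhdsGT {c : ℝ} (hc : 0 < c) :
    Tendsto (fun t : ℝ => t * c) (𝓝[>] 0) (𝓝[>] 0) :=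
  tendsto_nhdsWithin_iff.2 ⟨by
    have : Continuous fun t : ℝ => t * c := by fun_prop
    simpa using (this.tendsto 0).mono_left nhdsWithin_le_nhds,
    eventually_nhdsWithin_of_forall fun t (ht : 0 < t) => mul_pos ht hc⟩

lemma tendsto_line (a u : X) : Tendsto (fun t : ℝ => a + t • u) (𝓝[>] 0) (𝓝 a) := by
  have : Continuous fun t : ℝ => a + t • u := by fun_prop
  simpa using (this.tendsto 0).mono_left nhdsWithin_le_nhds

lemma tendsto_norm_line (a u : X) :
    Tendsto (fun t : ℝ => ‖a + t • u‖) (𝓝[>] 0) (𝓝 ‖a‖) := (tendsto_line a u).norm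

variable [CompleteSpace Y] (hT : IsTingley T T') {C : ℝ} (hC : Ctrl T C) {a : X} (ha : a ≠ 0)
include hT hC ha

lemma dT_smul (u : X) {c : ℝ} (hc : 0 ≤ c) : dT T a (c • u) = c • dT T a u := by
  rcases eq_or_lt_of_le hc with rfl | hc'
  · rw [zero_smul, zero_smul]
    exact tendsto_nhds_unique (tendsto_dT hT hC ha 0) (tendsto_const_nhds.congr fun t => by simp)
  refine tendsto_nhds_unique (tendsto_dT hT hC ha (c • u))
    ((((tendsto_dT hT hC ha u).comp (tendsto_const_mul_nhdsGT hc')).const_smul c).congr' ?_)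
  filter_upwards [self_mem_nhdsWithin] with t (ht : 0 < t)
  simp only [Function.comp_apply, smul_smul]
  congr 1
  field_simp

lemma dT_self : dT T a a = T a := by
  refine tendsto_nhds_unique (tendsto_dT hT hC ha a) (tendsto_const_nhds.congr' ?_)
  filter_upwards [self_mem_nhdsWithin] with t (ht : 0 < t)
  rw [show a + t • a = (1 + t) • a by module, hT.homog _ _ (by linarith),
    show (1 + t) • T a - T a = t • T a by module, inv_smul_smul₀ ht.ne']

lemma dT_neg_self : dT T a (-a) = -T a := by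
  refine tendsto_nhds_unique (tendsto_dT hT hC ha (-a)) (tendsto_const_nhds.congr' ?_)
  filter_upwards [Ioo_mem_nhdsGT one_pos] with t ht
  rw [show a + t • -a = (1 - t) • a by module, hT.homog _ _ (by linarith [ht.2]),
    show (1 - t) • T a - T a = t • -T a by module, inv_smul_smul₀ ht.1.ne']

lemma norm_dT_sub_le (u w : X) : ‖dT T a u - dT T a w‖ ≤ 3 * ‖u - w‖ := by
  refine le_of_tendsto ((tendsto_dT hT hC ha u).sub (tendsto_dT hT hC ha w)).norm ?_
  filter_upwards [self_mem_nhdsWithin] with t (ht : 0 < t)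
  rw [← smul_sub, sub_sub_sub_cancel_right, norm_smul, norm_inv, Real.norm_of_nonneg ht.le,
    inv_mul_le_iff₀ ht]
  refine (hT.lipschitz.norm_sub_le _ _).trans (le_of_eq ?_)
  rw [add_sub_add_left_eq_sub, ← smul_sub, norm_smul, Real.norm_of_nonneg ht.le, NNReal.coe_ofNat]
  ring

/-- Superadditivity defects of the derivative are controlled by those of the norm. -/
lemma dT_add_le (u w : X) :
    ‖dT T a u + dT T a w - dT T a (u + w)‖ ≤ C * (Dn a u + Dn a w - Dn a (u + w)) := by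
  have h2 := tendsto_const_mul_nhdsGT (two_pos (α := ℝ))
  have l1 : Tendsto (fun t : ℝ => ‖(2 * t)⁻¹ • (T (a + (t * 2) • u) - T a)
      + (2 * t)⁻¹ • (T (a + (t * 2) • w) - T a) - t⁻¹ • (T (a + t • (u + w)) - T a)‖) (𝓝[>] 0)
      (𝓝 ‖dT T a u + dT T a w - dT T a (u + w)‖) := by
    refine ((((tendsto_dT hT hC ha u).comp h2).add ((tendsto_dT hT hC ha w).comp h2)).sub
      (tendsto_dT hT hC ha (u + w))).norm.congr fun t => ?_
    simp only [Function.comp_apply, mul_comm t 2]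
  have l3 : Tendsto (fun t : ℝ => t * (‖u - w‖ ^ 2 / (2 * ‖a + t • (u + w)‖))) (𝓝[>] 0) (𝓝 0) := by
    have h3 : Tendsto (fun t : ℝ => ‖u - w‖ ^ 2 / (2 * ‖a + t • (u + w)‖)) (𝓝[>] 0)
        (𝓝 (‖u - w‖ ^ 2 / (2 * ‖a‖))) :=
      tendsto_const_nhds.div ((tendsto_norm_line a (u + w)).const_mul 2)
        (mul_ne_zero two_ne_zero (norm_ne_zero_iff.2 ha))
    simpa using ((tendsto_id (α := ℝ)).mono_left nhdsWithin_le_nhds).mul h3
  have l2 := (((((tendsto_Dn a u).comp h2).add ((tendsto_Dn a w).comp h2)).sub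
    (tendsto_Dn a (u + w))).add l3).const_mul C
  rw [add_zero] at l2
  refine le_of_tendsto_of_tendsto l1 l2 ?_
  filter_upwards [self_mem_nhdsWithin, (tendsto_line a (u + w)).eventually_ne ha] with
    t (ht : 0 < t) hne
  have h := hC.2 (a + t • (u + w)) (t • (u - w)) hne
  have e1 : a + t • (u + w) + t • (u - w) = a + (t * 2) • u := by module
  have e2 : a + t • (u + w) - t • (u - w) = a + (t * 2) • w := by module
  simp only [sd, nd, e1, e2] at h
  simp only [Function.comp_apply]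
  rw [norm_smul, Real.norm_of_nonneg ht.le] at h
  rw [show (2 * t)⁻¹ • (T (a + (t * 2) • u) - T a) + (2 * t)⁻¹ • (T (a + (t * 2) • w) - T a)
      - t⁻¹ • (T (a + t • (u + w)) - T a)
      = (2 * t)⁻¹ • (T (a + (t * 2) • u) + T (a + (t * 2) • w) - (2 : ℝ) • T (a + t • (u + w))) by
    match_scalars <;> field_simp <;> ring,
    norm_smul, norm_inv, Real.norm_of_nonneg (by linarith), inv_mul_le_iff₀ (by linarith)]
  refine h.trans (le_of_eq ?_)
  field_simp
  ring

lemma dT_add_of_smooth (hs : Smooth a) (u w : X) :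
    dT T a (u + w) = dT T a u + dT T a w := by
  have h := dT_add_le hT hC ha u w
  rw [hs.map_add, sub_self, mul_zero, norm_le_zero_iff, sub_eq_zero] at h
  exact h.symm

lemma dT_zero : dT T a 0 = 0 := by
  simpa using dT_smul hT hC ha a (le_refl (0 : ℝ))

lemma dT_neg_of_smooth (hs : Smooth a) (u : X) : dT T a (-u) = -dT T a u := by
  have h := dT_add_of_smooth hT hC ha hs u (-u)
  rw [add_neg_cancel, dT_zero hT hC ha] at h
  exact eq_neg_of_add_eq_zero_right h.symm

/-- `T` preserves the derivative of the norm. -/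
lemma Dn_dT (u : X) : Dn (T a) (dT T a u) = Dn a u := by
  refine tendsto_nhds_unique (tendsto_Dn (T a) (dT T a u))
    (tendsto_of_tendsto_of_dist (tendsto_Dn a u) (squeeze_zero' (Eventually.of_forall fun _ =>
      dist_nonneg) ?_ (tendsto_iff_norm_sub_tendsto_zero.1 (tendsto_dT hT hC ha u))))
  filter_upwards [self_mem_nhdsWithin] with t (ht : 0 < t)
  rw [Real.dist_eq, ← mul_sub, abs_mul, abs_inv, abs_of_pos ht, inv_mul_le_iff₀ ht, hT.norm_map,
    sub_sub_sub_cancel_right, ← hT.norm_map (a + t • u)]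
  refine (abs_norm_sub_norm_le _ _).trans (le_of_eq ?_)
  rw [← Real.norm_of_nonneg ht.le, ← norm_smul, Real.norm_of_nonneg ht.le, smul_sub,
    smul_inv_smul₀ ht.ne']
  congr 1
  abel

/-- Directions with equal derivative of the norm keep their distance. -/
lemma norm_dT_sub_of_Dn_eq {u w : X} (h : Dn a u = Dn a w) :
    ‖dT T a u - dT T a w‖ = ‖u - w‖ := by
  have lerr : Tendsto (fun t : ℝ => 2 * |t⁻¹ * (‖a + t • u‖ - ‖a‖) - t⁻¹ * (‖a + t • w‖ - ‖a‖)|)
      (𝓝[>] 0) (𝓝 0) := by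
    simpa [h] using (((tendsto_Dn a u).sub (tendsto_Dn a w)).abs).const_mul 2
  refine tendsto_nhds_unique ((tendsto_dT hT hC ha u).sub (tendsto_dT hT hC ha w)).norm
    (tendsto_of_tendsto_of_dist tendsto_const_nhds (squeeze_zero' (Eventually.of_forall fun _ =>
      dist_nonneg) ?_ lerr))
  filter_upwards [self_mem_nhdsWithin] with t (ht : 0 < t)
  have hd : |‖T (a + t • u) - T (a + t • w)‖ - t * ‖u - w‖|
      ≤ 2 * |‖a + t • u‖ - ‖a + t • w‖| := by
    have := abs_dist_map_le hT (a + t • u) (a + t • w)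
    rwa [add_sub_add_left_eq_sub, ← smul_sub, norm_smul, Real.norm_of_nonneg ht.le] at this
  rw [← smul_sub, sub_sub_sub_cancel_right, norm_smul, norm_inv, Real.norm_of_nonneg ht.le,
    Real.dist_eq, abs_sub_comm, show t⁻¹ * ‖T (a + t • u) - T (a + t • w)‖ - ‖u - w‖
      = t⁻¹ * (‖T (a + t • u) - T (a + t • w)‖ - t * ‖u - w‖) by field_simp,
    ← mul_sub, sub_sub_sub_cancel_right, abs_mul, abs_mul, abs_inv, abs_of_pos ht, mul_left_comm]
  exact mul_le_mul_of_nonneg_left hd (inv_nonneg.2 ht.le)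

/-- The first order approximation, quantitatively. -/
lemma norm_sub_dT_le {u : X} (hu : ‖u‖ ≤ ‖a‖ / 2) :
    ‖T (a + u) - T a - dT T a u‖ ≤ C * (gap a u + ‖u‖ ^ 2 / ‖a‖) := by
  have l2 : Tendsto (fun t : ℝ => C * (‖a + u‖ - ‖a‖ - t⁻¹ * (‖a + t • u‖ - ‖a‖)
      + ‖u‖ ^ 2 / ‖a‖ * (1 - t))) (𝓝[>] 0) (𝓝 (C * (gap a u + ‖u‖ ^ 2 / ‖a‖))) := by
    have h1 : Tendsto (fun t : ℝ => ‖u‖ ^ 2 / ‖a‖ * (1 - t)) (𝓝[>] 0) (𝓝 (‖u‖ ^ 2 / ‖a‖)) := by
      have : Continuous fun t : ℝ => ‖u‖ ^ 2 / ‖a‖ * (1 - t) := by fun_prop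
      simpa using (this.tendsto 0).mono_left nhdsWithin_le_nhds
    exact (((tendsto_Dn a u).const_sub (‖a + u‖ - ‖a‖)).add h1).const_mul C
  refine le_of_tendsto_of_tendsto ((tendsto_dT hT hC ha u).const_sub (T (a + u) - T a)).norm l2 ?_
  filter_upwards [Ioc_mem_nhdsGT one_pos] with t ht
  have h := quot_dist hT hC ha ht.1 ht.2 (by rwa [one_mul])
  rwa [inv_one, one_smul, one_smul, one_mul] at h

/-- The derivative of the inverse inverts the derivative. -/
lemma dT_left {C' : ℝ} [CompleteSpace X] (hC' : Ctrl T' C') (u : X) :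
    dT T' (T a) (dT T a u) = u := by
  refine tendsto_nhds_unique (tendsto_dT hT.symm hC' (hT.map_ne_zero ha) (dT T a u))
    (tendsto_of_tendsto_of_dist (tendsto_const_nhds (x := u)) (squeeze_zero' (Eventually.of_forall
      fun _ => dist_nonneg) ?_ (by simpa using ((tendsto_iff_norm_sub_tendsto_zero.1
        (tendsto_dT hT hC ha u)).const_mul 3))))
  filter_upwards [self_mem_nhdsWithin] with t (ht : 0 < t)
  have h := hT.symm.lipschitz.norm_sub_le (T (a + t • u)) (T a + t • dT T a u)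
  rw [hT.left, NNReal.coe_ofNat] at h
  rw [hT.left, dist_eq_norm, show u - t⁻¹ • (T' (T a + t • dT T a u) - a)
      = t⁻¹ • (a + t • u - T' (T a + t • dT T a u)) by
    rw [smul_sub, smul_sub, smul_add, inv_smul_smul₀ ht.ne']; abel,
    show t⁻¹ • (T (a + t • u) - T a) - dT T a u
      = t⁻¹ • (T (a + t • u) - (T a + t • dT T a u)) by
    rw [smul_sub, smul_sub, smul_add, inv_smul_smul₀ ht.ne']; abel,
    norm_smul, norm_smul, norm_inv, Real.norm_of_nonneg ht.le, mul_left_comm]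
  exact mul_le_mul_of_nonneg_left h (inv_nonneg.2 ht.le)

/-- Smoothness is preserved. -/
lemma smooth_map {C' : ℝ} [CompleteSpace X] (hC' : Ctrl T' C') (hs : Smooth a) : Smooth (T a) := by
  intro v
  set u := dT T' (T a) v with hu
  have hv : dT T a u = v := by
    have := dT_left hT.symm hC' (hT.map_ne_zero ha) (C' := C) hC v
    rwa [hT.left] at this
  have h1 := Dn_dT hT hC ha u
  have h2 := Dn_dT hT hC ha (-u)
  rw [dT_neg_of_smooth hT hC ha hs, hv] at h2
  rw [hv] at h1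
  rw [h1, h2, hs u]

end Vale.Agent.P084.Inf
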