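import Mathlib.Topology.Baire.CompleteMetrizable
import Mathlib.Topology.Baire.Lemmas
import Mathlib.Analysis.Normed.Module.Dual
import Vale.Agent.P084.Inf.Deriv

/-!
Chord directions at a point, generic chords along which both norms are smooth, and the first-order
chord identity.
-/

namespace Vale.Agent.P084.Inf

open Filter Topology Set TopologicalSpace

section Cone

variable {E : Type*} [NormedAddCommGroup E] [NormedSpace ℝ E] {a z : E}

/-- The directions of chords which leave `a` into the interior of the ball. -/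
def cone (a : E) : Set E := {z | Dn a (-z) < 0}

lemma continuous_Dn (a : E) : Continuous (Dn a) :=
  (LipschitzWith.of_dist_le_mul (K := 1) fun u w => by
    rw [Real.dist_eq, NNReal.coe_one, one_mul, dist_eq_norm]
    exact abs_Dn_sub_le a u w).continuous

lemma isOpen_cone (a : E) : IsOpen (cone a) :=
  isOpen_lt ((continuous_Dn a).comp continuous_neg) continuous_const

lemma smul_mem_cone {c : ℝ} (hc : 0 < c) (h : z ∈ cone a) : c • z ∈ cone a := by
  show Dn a (-(c • z)) < 0
  rw [← smul_neg, Dn_smul a _ hc.le]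
  exact mul_neg_of_pos_of_neg hc h

lemma exists_interior (h : z ∈ cone a) : ∃ t : ℝ, 0 < t ∧ ‖a - t • z‖ < ‖a‖ := by
  obtain ⟨t, (ht : 0 < t), hlt⟩ :=
    (eventually_mem_nhdsWithin.and ((tendsto_Dn a (-z)).eventually (eventually_lt_nhds h))).exists
  refine ⟨t, ht, ?_⟩
  rw [inv_mul_lt_iff₀ ht, mul_zero, sub_neg, smul_neg, ← sub_eq_add_neg] at hlt
  exact hlt

lemma mem_cone_of_interior {t : ℝ} (ht : 0 < t) (h : ‖a - t • z‖ < ‖a‖) : z ∈ cone a := by
  refine (Dn_le_quot a (-z) ht).trans_lt (mul_neg_of_pos_of_neg (inv_pos.2 ht) ?_)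
  rw [smul_neg, ← sub_eq_add_neg]
  linarith

lemma sub_mem_cone {y : E} (h : ‖a + y‖ < 2 * ‖a‖) : a - y ∈ cone a := by
  refine mem_cone_of_interior (t := 1 / 2) (by norm_num) ?_
  rw [show a - (1 / 2 : ℝ) • (a - y) = (1 / 2 : ℝ) • (a + y) by module, norm_smul,
    Real.norm_of_nonneg (by norm_num)]
  linarith

lemma line_convex (a z : E) {p q l : ℝ} (h0 : 0 ≤ l) (h1 : l ≤ 1) :
    ‖a - ((1 - l) * p + l * q) • z‖ ≤ (1 - l) * ‖a - p • z‖ + l * ‖a - q • z‖ := by
  rw [show a - ((1 - l) * p + l * q) • z = (1 - l) • (a - p • z) + l • (a - q • z) by module]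
  refine (norm_add_le _ _).trans (le_of_eq ?_)
  rw [norm_smul, norm_smul, Real.norm_of_nonneg h0, Real.norm_of_nonneg (sub_nonneg.2 h1)]

/-- Strictly between the two ends of a chord the ball is entered. -/
lemma inside_chord (ha : ‖a‖ = 1) (h : z ∈ cone a) {s t : ℝ} (hs : ‖a - s • z‖ ≤ 1) (ht0 : 0 < t)
    (hts : t < s) : ‖a - t • z‖ < 1 := by
  obtain ⟨t₀, ht₀, hlt⟩ := exists_interior h
  rw [ha] at hlt
  have h0 : ‖a - (0 : ℝ) • z‖ = 1 := by simp [ha]
  rcases le_or_gt t t₀ with h1 | h1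
  · have := line_convex a z (p := 0) (q := t₀) (div_nonneg ht0.le ht₀.le) ((div_le_one ht₀).2 h1)
    rw [show (1 - t / t₀) * 0 + t / t₀ * t₀ = t by field_simp; ring, h0] at this
    have h3 : t / t₀ * ‖a - t₀ • z‖ < t / t₀ * 1 := mul_lt_mul_of_pos_left hlt (div_pos ht0 ht₀)
    linarith
  · have hd : 0 < s - t₀ := by linarith
    have hl0 : (t - t₀) / (s - t₀) < 1 := (div_lt_one hd).2 (by linarith)
    have := line_convex a z (p := t₀) (q := s) (div_nonneg (by linarith) hd.le) hl0.le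
      (l := (t - t₀) / (s - t₀))
    rw [show (1 - (t - t₀) / (s - t₀)) * t₀ + (t - t₀) / (s - t₀) * s = t by field_simp; ring]
      at this
    have h3 := mul_lt_mul_of_pos_left hlt (sub_pos.2 hl0)
    have h4 := mul_le_mul_of_nonneg_left hs
      (div_nonneg (show 0 ≤ t - t₀ by linarith) hd.le)
    linarith

lemma exit_unique (ha : ‖a‖ = 1) (h : z ∈ cone a) {s t : ℝ} (hs0 : 0 < s) (ht0 : 0 < t)
    (hs : ‖a - s • z‖ = 1) (ht : ‖a - t • z‖ = 1) : s = t := by
  rcases lt_trichotomy s t with h1 | h1 | h1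
  · exact absurd hs (inside_chord ha h ht.le hs0 h1).ne
  · exact h1
  · exact absurd ht (inside_chord ha h hs.le ht0 h1).ne

lemma exists_exit (ha : ‖a‖ = 1) (h : z ∈ cone a) : ∃ s : ℝ, 0 < s ∧ ‖a - s • z‖ = 1 := by
  obtain ⟨t, ht, hlt⟩ := exists_interior h
  have hz : z ≠ 0 := by
    rintro rfl
    simp at hlt
  obtain ⟨s, hs, hs'⟩ := exists_ray a z hz ht.le (ha ▸ hlt.le)
  exact ⟨s, ht.trans_le hs, hs'⟩

open Classical in
/-- The length of the chord from `a` against `z`. -/
noncomputable def exitLen (a z : E) : ℝ :=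
  if h : ∃ s : ℝ, 0 < s ∧ ‖a - s • z‖ = 1 then h.choose else 0

/-- The end of the chord from `a` against `z`. -/
noncomputable def exitPt (a z : E) : E := a - exitLen a z • z

lemma exitLen_spec (ha : ‖a‖ = 1) (h : z ∈ cone a) : 0 < exitLen a z ∧ ‖exitPt a z‖ = 1 := by
  unfold exitPt exitLen
  simp only [dif_pos (exists_exit ha h)]
  exact (exists_exit ha h).choose_spec

lemma exitLen_eq (ha : ‖a‖ = 1) (h : z ∈ cone a) {s : ℝ} (hs0 : 0 < s) (hs : ‖a - s • z‖ = 1) :
    exitLen a z = s :=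
  exit_unique ha h (exitLen_spec ha h).1 hs0 (exitLen_spec ha h).2 hs

lemma exitPt_smul (ha : ‖a‖ = 1) (h : z ∈ cone a) {c : ℝ} (hc : 0 < c) :
    exitPt a (c • z) = exitPt a z := by
  have h1 := exitLen_spec ha h
  have e : exitLen a (c • z) = exitLen a z / c :=
    exitLen_eq ha (smul_mem_cone hc h) (div_pos h1.1 hc) (by
      rw [smul_smul, div_mul_cancel₀ _ hc.ne']
      exact h1.2)
  rw [exitPt, exitPt, e, smul_smul, div_mul_cancel₀ _ hc.ne']

lemma exitPt_dip (ha : ‖a‖ = 1) (h : z ∈ cone a) : ‖a + exitPt a z‖ < 2 := by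
  have h1 := exitLen_spec ha h
  have h2 := inside_chord ha h (t := exitLen a z / 2) h1.2.le (half_pos h1.1) (half_lt_self h1.1)
  rw [exitPt, show a + (a - exitLen a z • z) = (2 : ℝ) • (a - (exitLen a z / 2) • z) by module,
    norm_smul, Real.norm_ofNat]
  linarith

lemma exitPt_sub (ha : ‖a‖ = 1) {y : E} (hy : ‖y‖ = 1) (h : ‖a + y‖ < 2) :
    exitPt a (a - y) = y := by
  have h1 : a - y ∈ cone a := sub_mem_cone (by rw [ha, mul_one]; exact h)
  rw [exitPt, exitLen_eq ha h1 one_pos (by rw [one_smul, sub_sub_cancel]; exact hy), one_smul,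
    sub_sub_cancel]

lemma continuousAt_exitPt (ha : ‖a‖ = 1) (h : z ∈ cone a) : ContinuousAt (exitPt a) z := by
  have h1 := exitLen_spec ha h
  suffices hs : ContinuousAt (exitLen a) z from continuousAt_const.sub (hs.smul continuousAt_id)
  rw [Metric.continuousAt_iff']
  intro ε hε
  set s₀ := exitLen a z with hs₀
  set d := min ε s₀ / 2 with hd
  have hd0 : 0 < d := half_pos (lt_min hε h1.1)
  have hds : d < s₀ := by
    rw [hd]; linarith [min_le_right ε s₀, h1.1]
  have hdε : d < ε := by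
    rw [hd]; linarith [min_le_left ε s₀]
  have hlo : ‖a - (s₀ - d) • z‖ < 1 := inside_chord ha h h1.2.le (by linarith) (by linarith)
  have hhi : 1 < ‖a - (s₀ + d) • z‖ := by
    by_contra hle
    push Not at hle
    exact absurd h1.2 (inside_chord ha h hle h1.1 (by linarith)).ne
  have hc : ∀ c : ℝ, ContinuousAt (fun w : E => ‖a - c • w‖) z := fun c => by fun_prop
  filter_upwards [(isOpen_cone a).eventually_mem h, (hc _).eventually (eventually_lt_nhds hlo),
    (hc _).eventually (eventually_gt_nhds hhi)] with w hw hwlo hwhi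
  obtain ⟨s, hs, hfs⟩ := intermediate_value_Icc (show s₀ - d ≤ s₀ + d by linarith)
    (f := fun s => ‖a - s • w‖) (by fun_prop)
    (show (1 : ℝ) ∈ Icc _ _ from ⟨hwlo.le, hwhi.le⟩)
  rw [exitLen_eq ha hw (by linarith [hs.1]) hfs, Real.dist_eq, abs_lt]
  constructor <;> linarith [hs.1, hs.2]

end Cone

section Approx

variable {E : Type*} [NormedAddCommGroup E] [NormedSpace ℝ E]

/-- Points at which the norm is nearly differentiable in a direction. -/
def almostSmooth (v : E) (m : ℕ) : Set E :=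
  {z | ∃ t : ℝ, 0 < t ∧ nd z (t • v) < t / (m + 1)}

lemma continuous_nd_left (e : E) : Continuous fun z : E => nd z e := by
  unfold nd
  fun_prop

lemma isOpen_almostSmooth (v : E) (m : ℕ) : IsOpen (almostSmooth v m) := by
  have : almostSmooth v m
      = ⋃ t : ℝ, {z | 0 < t} ∩ {z | nd z (t • v) < t / (m + 1)} := by
    ext z; simp [almostSmooth]
  rw [this]
  exact isOpen_iUnion fun t => isOpen_const.inter
    (isOpen_lt (continuous_nd_left _) continuous_const)

lemma dense_almostSmooth (v : E) (m : ℕ) : Dense (almostSmooth v m) := by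
  rw [Metric.dense_iff]
  intro z r hr
  set t := r / (2 * (4 * ‖v‖ ^ 2 + 1) * (m + 1)) with ht
  have ht0 : 0 < t := by positivity
  obtain ⟨p, hp, hn⟩ := exists_shift z (t • v) (half_pos hr)
  refine ⟨z + p, by rw [Metric.mem_ball, dist_self_add_left]; linarith, t, ht0, ?_⟩
  refine hn.trans_lt ?_
  rw [norm_smul, Real.norm_of_nonneg ht0.le, div_lt_div_iff₀ (half_pos hr) (by positivity)]
  have e : t * (4 * ‖v‖ ^ 2 + 1) * (m + 1) = r / 2 := by rw [ht]; field_simp
  have h1 : 0 < t * ((m : ℝ) + 1) := by positivity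
  nlinarith [mul_pos ht0 h1]

lemma smul_mem_almostSmooth {v z : E} {m : ℕ} {c : ℝ} (hc : 0 < c) (h : z ∈ almostSmooth v m) :
    c • z ∈ almostSmooth v m := by
  obtain ⟨t, ht, hn⟩ := h
  refine ⟨c * t, mul_pos hc ht, ?_⟩
  rw [nd_smul_base _ _ hc, smul_smul, inv_mul_cancel_left₀ hc.ne', mul_div_assoc]
  exact mul_lt_mul_of_pos_left hn hc

lemma sum_Dn_le_of_almostSmooth {v z : E} {m : ℕ} (h : z ∈ almostSmooth v m) :
    Dn z v + Dn z (-v) ≤ 1 / (m + 1) := by
  obtain ⟨t, ht, hn⟩ := h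
  have h1 := Dn_le_quot z v ht
  have h2 := Dn_le_quot z (-v) ht
  rw [smul_neg, ← sub_eq_add_neg] at h2
  have e : t⁻¹ * (‖z + t • v‖ - ‖z‖) + t⁻¹ * (‖z - t • v‖ - ‖z‖) = t⁻¹ * nd z (t • v) := by
    simp only [nd]; ring
  have h3 := mul_le_mul_of_nonneg_left hn.le (inv_nonneg.2 ht.le)
  rw [mul_div_assoc', inv_mul_cancel₀ ht.ne'] at h3
  linarith

lemma smooth_of_almostSmooth {ι : Type*} {v : ι → E} (hv : DenseRange v) {z : E}
    (h : ∀ i m, z ∈ almostSmooth (v i) m) : Smooth z := by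
  intro u
  have hcl : IsClosed {u : E | Dn z u + Dn z (-u) = 0} :=
    isClosed_eq ((continuous_Dn z).add ((continuous_Dn z).comp continuous_neg)) continuous_const
  refine hcl.closure_subset_iff.2 ?_ (hv u)
  rintro _ ⟨i, rfl⟩
  exact le_antisymm (ge_of_tendsto' tendsto_one_div_add_atTop_nhds_zero_nat fun m =>
    sum_Dn_le_of_almostSmooth (h i m)) (Dn_add_neg_nonneg z _)

lemma Smooth.map_sub_smul {w : E} (hw : Smooth w) (p q : E) (c : ℝ) :
    Dn w (p - c • q) = Dn w p - c * Dn w q := by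
  rw [sub_eq_add_neg, ← neg_smul, hw.map_add, hw.map_smul]
  ring

end Approx

/-- Two spaces with isometric spheres, the bound on second differences, and preservation of
common faces. -/
structure Sys {X Y : Type*} [NormedAddCommGroup X] [NormedSpace ℝ X] [NormedAddCommGroup Y]
    [NormedSpace ℝ Y] (T : X → Y) (T' : Y → X) : Prop where
  isT : IsTingley T T'
  ctrl : ∃ C, Ctrl T C
  ctrl' : ∃ C, Ctrl T' C
  face : ∀ x y : X, ‖x‖ = 1 → ‖y‖ = 1 → ‖x + y‖ = 2 → ‖T x + T y‖ = 2
  face' : ∀ x y : Y, ‖x‖ = 1 → ‖y‖ = 1 → ‖x + y‖ = 2 → ‖T' x + T' y‖ = 2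

namespace Sys

variable {X Y : Type*} [NormedAddCommGroup X] [NormedSpace ℝ X] [NormedAddCommGroup Y]
  [NormedSpace ℝ Y] {T : X → Y} {T' : Y → X} (hS : Sys T T') {a : X}
include hS

lemma symm : Sys T' T := ⟨hS.isT.symm, hS.ctrl', hS.ctrl, hS.face', hS.face⟩

lemma norm_T {x : X} (hx : ‖x‖ = 1) : ‖T x‖ = 1 := by rw [hS.isT.norm_map, hx]

omit hS in
/-- The image chord direction. -/
noncomputable def imgDir (T : X → Y) (a z : X) : Y := T a - T (exitPt a z)

lemma dip_map (ha : ‖a‖ = 1) {y : X} (hy : ‖y‖ = 1) (h : ‖a + y‖ < 2) : ‖T a + T y‖ < 2 := by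
  refine lt_of_le_of_ne ((norm_add_le _ _).trans (by rw [hS.norm_T ha, hS.norm_T hy]; norm_num))
    fun he => h.ne ?_
  have := hS.face' (T a) (T y) (hS.norm_T ha) (hS.norm_T hy) he
  rwa [hS.isT.left, hS.isT.left] at this

lemma imgDir_mem (ha : ‖a‖ = 1) {z : X} (hz : z ∈ cone a) : imgDir T a z ∈ cone (T a) :=
  sub_mem_cone (by
    rw [hS.norm_T ha, mul_one]
    exact hS.dip_map ha (exitLen_spec ha hz).2 (exitPt_dip ha hz))

lemma imgDir_imgDir (ha : ‖a‖ = 1) {z : X} (hz : z ∈ cone a) :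
    imgDir T' (T a) (imgDir T a z) = exitLen a z • z := by
  rw [imgDir, imgDir, exitPt_sub (hS.norm_T ha) (by rw [hS.norm_T (exitLen_spec ha hz).2])
    (hS.dip_map ha (exitLen_spec ha hz).2 (exitPt_dip ha hz)), hS.isT.left, hS.isT.left, exitPt,
    sub_sub_cancel]

lemma continuousAt_imgDir (ha : ‖a‖ = 1) {z : X} (hz : z ∈ cone a) :
    ContinuousAt (imgDir T a) z :=
  continuousAt_const.sub (hS.isT.lipschitz.continuous.continuousAt.comp (continuousAt_exitPt ha hz))

omit hS in
/-- Good chord directions: the norms are smooth at the chord and at its image. -/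
def Good (T : X → Y) (a : X) : Set X := {z | z ∈ cone a ∧ Smooth z ∧ Smooth (imgDir T a z)}

lemma good_symm (ha : ‖a‖ = 1) {w : Y} (hw : w ∈ Good T' (T a)) :
    imgDir T' (T a) w ∈ Good T a := by
  have h1 := hS.symm.imgDir_mem (hS.norm_T ha) hw.1
  have h2 := hS.symm.imgDir_imgDir (hS.norm_T ha) hw.1
  rw [hS.isT.left] at h1 h2
  refine ⟨h1, hw.2.2, ?_⟩
  rw [h2]
  intro u
  have hs := (exitLen_spec (hS.norm_T ha) hw.1).1
  have e : ∀ u : Y, Dn (exitLen (T a) w • w) u = Dn w u := by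
    intro u
    refine tendsto_nhds_unique (tendsto_Dn _ u)
      (((tendsto_Dn w u).comp (tendsto_const_mul_nhdsGT (inv_pos.2 hs))).congr' ?_)
    filter_upwards [self_mem_nhdsWithin] with t (ht : 0 < t)
    simp only [Function.comp_apply]
    rw [show exitLen (T a) w • w + t • u = exitLen (T a) w • (w + (t * (exitLen (T a) w)⁻¹) • u) by
      match_scalars <;> field_simp, norm_smul, norm_smul, Real.norm_of_nonneg hs.le]
    field_simp
  rw [e, e]
  exact hw.2.1 u

variable [CompleteSpace X] [SeparableSpace X] [SeparableSpace Y]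

/-- Good chord directions are dense in the cone. -/
lemma exists_good (ha : ‖a‖ = 1) {O : Set X} (hO : IsOpen O) (hsub : O ⊆ cone a)
    (hne : O.Nonempty) : ∃ z ∈ O, z ∈ Good T a := by
  let v := denseSeq X
  let w := denseSeq Y
  let V : ℕ × ℕ ⊕ ℕ × ℕ → Set X := Sum.elim
    (fun p => almostSmooth (v p.1) p.2)
    (fun p => cone a ∩ imgDir T a ⁻¹' almostSmooth (w p.1) p.2 ∪ (closure (cone a))ᶜ)
  have hopen : ∀ i, IsOpen (V i) := by
    rintro (p | p)
    · exact isOpen_almostSmooth _ _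
    · refine IsOpen.union ?_ isClosed_closure.isOpen_compl
      exact ContinuousOn.isOpen_inter_preimage
        (fun z hz => (hS.continuousAt_imgDir ha hz).continuousWithinAt) (isOpen_cone a)
        (isOpen_almostSmooth _ _)
  have hdense : ∀ i, Dense (V i) := by
    rintro (p | p)
    · exact dense_almostSmooth _ _
    · refine dense_iff_inter_open.2 fun U hU hUne => ?_
      by_cases hUc : (U ∩ cone a).Nonempty
      swap
      · obtain ⟨x, hx⟩ := hUne
        exact ⟨x, hx, Or.inr fun hcl => hUc (mem_closure_iff.1 hcl U hU hx)⟩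
      obtain ⟨z₀, hz₀⟩ := hUc
      set Wc := ⋃ c : Ioi (0 : ℝ), (fun x : X => (c : ℝ)⁻¹ • x) ⁻¹' (U ∩ cone a) with hWc
      have hWco : IsOpen Wc := isOpen_iUnion fun c =>
        (hU.inter (isOpen_cone a)).preimage (continuous_const_smul _)
      have hcY := hS.norm_T ha
      have hO' : IsOpen (cone (T a) ∩ imgDir T' (T a) ⁻¹' Wc) := ContinuousOn.isOpen_inter_preimage
        (fun z hz => (hS.symm.continuousAt_imgDir hcY hz).continuousWithinAt) (isOpen_cone _) hWco
      have hs₀ := (exitLen_spec ha hz₀.2).1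
      obtain ⟨q, hq, hqU⟩ := (dense_almostSmooth (w p.1) p.2).exists_mem_open hO'
        ⟨imgDir T a z₀, hS.imgDir_mem ha hz₀.2, by
          show _ ∈ Wc
          rw [hS.imgDir_imgDir ha hz₀.2]
          exact mem_iUnion.2 ⟨⟨_, hs₀⟩, by
            show (exitLen a z₀)⁻¹ • exitLen a z₀ • z₀ ∈ U ∩ cone a
            rw [inv_smul_smul₀ hs₀.ne']
            exact hz₀⟩⟩
      obtain ⟨⟨c, hc⟩, hcm⟩ := mem_iUnion.1 (show imgDir T' (T a) q ∈ Wc from hqU.2)
      refine ⟨c⁻¹ • imgDir T' (T a) q, hcm.1, Or.inl ⟨hcm.2, ?_⟩⟩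
      rw [Set.mem_preimage]
      have hq' : imgDir T' (T a) q ∈ cone a := by
        have := hS.symm.imgDir_mem hcY hqU.1
        rwa [hS.isT.left] at this
      rw [imgDir, exitPt_smul ha hq' (inv_pos.2 hc)]
      have h2 := hS.symm.imgDir_imgDir hcY hqU.1
      rw [hS.isT.left] at h2
      rw [← imgDir, h2]
      exact smul_mem_almostSmooth (exitLen_spec hcY hqU.1).1 hq
  obtain ⟨z, hz, hzO⟩ := (dense_iInter_of_isOpen hopen hdense).exists_mem_open hO hne
  rw [mem_iInter] at hz
  refine ⟨z, hzO, hsub hzO, smooth_of_almostSmooth (denseRange_denseSeq X) fun i m =>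
    hz (Sum.inl (i, m)), smooth_of_almostSmooth (denseRange_denseSeq Y) fun i m => ?_⟩
  rcases hz (Sum.inr (i, m)) with h | h
  · exact h.2
  · exact absurd (subset_closure (hsub hzO)) h

end Sys

lemma tendsto_norm_curve {E : Type*} [NormedAddCommGroup E] [NormedSpace ℝ E] (z : E)
    {p : ℝ → E} {P : E} (hp : Tendsto p (𝓝[>] 0) (𝓝 P)) :
    Tendsto (fun t : ℝ => t⁻¹ * (‖z + t • p t‖ - ‖z‖)) (𝓝[>] 0) (𝓝 (Dn z P)) := by
  refine tendsto_of_tendsto_of_dist (tendsto_Dn z P) (squeeze_zero' (Eventually.of_forall fun _ =>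
    dist_nonneg) ?_ (tendsto_iff_norm_sub_tendsto_zero.1 hp))
  filter_upwards [self_mem_nhdsWithin] with t (ht : 0 < t)
  rw [Real.dist_eq, ← mul_sub, sub_sub_sub_cancel_right, abs_mul, abs_inv, abs_of_pos ht,
    inv_mul_le_iff₀ ht]
  refine (abs_norm_sub_norm_le _ _).trans (le_of_eq ?_)
  rw [add_sub_add_left_eq_sub, ← smul_sub, norm_smul, Real.norm_of_nonneg ht.le, norm_sub_rev]

namespace Sys

variable {X Y : Type*} [NormedAddCommGroup X] [NormedSpace ℝ X] [NormedAddCommGroup Y]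
  [NormedSpace ℝ Y] {T : X → Y} {T' : Y → X} (hS : Sys T T') {a : X}
include hS

omit hS in
/-- The chord from `a` against `z`. -/
noncomputable def srcVec (a z : X) : X := a - exitPt a z

omit hS in
/-- The defect of a chord. -/
noncomputable def defect (T : X → Y) (a z : X) : ℝ :=
  Dn (imgDir T a z) (T a) - Dn (srcVec a z) a

/-- The first-order chord identity. -/
lemma chord_identity [CompleteSpace Y] (ha : ‖a‖ = 1) {z : X} (hz : z ∈ Good T a) (u : X) :
    Dn (imgDir T a z) (dT T a u) = Dn (srcVec a z) u + Dn a u * defect T a z := by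
  obtain ⟨C, hC⟩ := hS.ctrl
  have ha0 : a ≠ 0 := norm_ne_zero_iff.1 (by rw [ha]; exact one_ne_zero)
  obtain ⟨hc, hzs, hws⟩ := hz
  set y := exitPt a z with hy
  have hyn := (exitLen_spec ha hc).2
  have hsv : srcVec a z = exitLen a z • z := by rw [srcVec, exitPt, sub_sub_cancel]
  have hzs' : Smooth (srcVec a z) := by
    rw [hsv]
    intro v
    have hs := (exitLen_spec ha hc).1
    have e : ∀ v : X, Dn (exitLen a z • z) v = Dn z v := by
      intro v
      refine tendsto_nhds_unique (tendsto_Dn _ v)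
        (((tendsto_Dn z v).comp (tendsto_const_mul_nhdsGT (inv_pos.2 hs))).congr' ?_)
      filter_upwards [self_mem_nhdsWithin] with t (ht : 0 < t)
      simp only [Function.comp_apply]
      rw [show exitLen a z • z + t • v = exitLen a z • (z + (t * (exitLen a z)⁻¹) • v) by
        match_scalars <;> field_simp, norm_smul, norm_smul, Real.norm_of_nonneg hs.le]
      field_simp
    rw [e, e]
    exact hzs v
  set d : ℝ → ℝ := fun t => t⁻¹ * (‖a + t • u‖ - ‖a‖) with hd
  have h1 := tendsto_norm_curve (srcVec a z) (tendsto_const_nhds (x := u) |>.sub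
    ((tendsto_Dn a u).smul_const y))
  have h2 := tendsto_norm_curve (imgDir T a z) ((tendsto_dT hS.isT hC ha0 u).sub
    ((tendsto_Dn a u).smul_const (T y)))
  have key : Dn (imgDir T a z) (dT T a u - Dn a u • T y) = Dn (srcVec a z) (u - Dn a u • y) := by
    refine tendsto_nhds_unique h2 (h1.congr' ?_)
    filter_upwards [self_mem_nhdsWithin] with t (ht : 0 < t)
    have e1 : srcVec a z + t • (u - (t⁻¹ * (‖a + t • u‖ - ‖a‖)) • y)
        = a + t • u - ‖a + t • u‖ • y := by
      rw [srcVec, ← hy, ha]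
      match_scalars <;> field_simp <;> ring
    have e2 : imgDir T a z + t • (t⁻¹ • (T (a + t • u) - T a) - (t⁻¹ * (‖a + t • u‖ - ‖a‖)) • T y)
        = T (a + t • u) - ‖a + t • u‖ • T y := by
      rw [imgDir, ← hy, ha]
      match_scalars <;> field_simp <;> ring
    have e3 : ‖T (a + t • u) - ‖a + t • u‖ • T y‖ = ‖a + t • u - ‖a + t • u‖ • y‖ := by
      rcases eq_or_lt_of_le (norm_nonneg (a + t • u)) with h | h
      · rw [← h, zero_smul, zero_smul, sub_zero, sub_zero, hS.isT.norm_map]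
      · rw [← hS.isT.homog _ _ h, hS.isT.dist_map]
        rw [norm_smul, norm_norm, hyn, mul_one]
    have e4 : ‖imgDir T a z‖ = ‖srcVec a z‖ := hS.isT.dist_map a y (ha.trans hyn.symm)
    rw [e1, e2, e3, e4]
  rw [hws.map_sub_smul, hzs'.map_sub_smul] at key
  have hyx : Dn (srcVec a z) y = Dn (srcVec a z) a - ‖srcVec a z‖ := by
    have := hzs'.map_sub_smul a (srcVec a z) 1
    rw [one_smul, Dn_self, one_mul] at this
    rw [← this, srcVec, sub_sub_cancel]
  have hyy : Dn (imgDir T a z) (T y) = Dn (imgDir T a z) (T a) - ‖imgDir T a z‖ := by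
    have := hws.map_sub_smul (T a) (imgDir T a z) 1
    rw [one_smul, Dn_self, one_mul] at this
    rw [← this, imgDir, sub_sub_cancel]
  have e4 : ‖imgDir T a z‖ = ‖srcVec a z‖ := hS.isT.dist_map a y (ha.trans hyn.symm)
  rw [hyx, hyy, e4] at key
  simp only [defect]
  linarith

end Sys

end Vale.Agent.P084.Inf
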