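import Mathlib.Order.Filter.Ultrafilter.Basic
import Mathlib.Topology.ContinuousMap.Bounded.Normed
import Mathlib.Analysis.Normed.Group.Quotient
import Mathlib.Analysis.Normed.Module.Basic
import Mathlib.Topology.Bases
import Mathlib.Topology.Algebra.Module.Basic
import Vale.Agent.P084.Map

/-! M1: ultraproducts, separable reduction. -/

namespace Vale.Agent.P084.Inf

open Filter Topology
open scoped BoundedContinuousFunction

/-- The fixed ultrafilter. -/
noncomputable abbrev uf : Filter ℕ := (Filter.hyperfilter ℕ : Ultrafilter ℕ)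

variable (X : Type*) [NormedAddCommGroup X] [NormedSpace ℝ X]

/-- The sequences which are null along the ultrafilter. -/
noncomputable def nullSub : Submodule ℝ (ℕ →ᵇ X) where
  carrier := {f | Tendsto (fun n => ‖f n‖) uf (𝓝 0)}
  add_mem' {f g} hf hg := squeeze_zero (fun n => norm_nonneg _) (fun n => norm_add_le (f n) (g n))
    (by simpa using Tendsto.add (a := (0 : ℝ)) (b := 0) hf hg)
  zero_mem' := by simp
  smul_mem' c f hf := by
    simpa [norm_smul] using Filter.Tendsto.const_mul ‖c‖ (hf : Tendsto (fun n => ‖f n‖) uf (𝓝 0))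

variable {X} in
theorem mem_nullSub {f : ℕ →ᵇ X} : f ∈ nullSub X ↔ Tendsto (fun n => ‖f n‖) uf (𝓝 0) := Iff.rfl

instance : IsClosed ((nullSub X : Submodule ℝ (ℕ →ᵇ X)) : Set (ℕ →ᵇ X)) := by
  refine isClosed_of_closure_subset fun f hf => ?_
  rw [SetLike.mem_coe, mem_nullSub, Metric.tendsto_nhds]
  intro ε hε
  obtain ⟨g, hg, hfg⟩ := Metric.mem_closure_iff.1 hf (ε / 2) (half_pos hε)
  filter_upwards [Metric.tendsto_nhds.1 (mem_nullSub.1 hg) (ε / 2) (half_pos hε)] with n hn
  rw [Real.dist_0_eq_abs, abs_norm] at hn ⊢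
  rw [dist_eq_norm] at hfg
  have h1 := (f - g).norm_coe_le_norm n
  have h2 := norm_le_norm_add_norm_sub' (f n) (g n)
  simp only [BoundedContinuousFunction.sub_apply] at h1
  linarith

/-- The ultrapower. -/
abbrev Ultra : Type _ := (ℕ →ᵇ X) ⧸ nullSub X

example [CompleteSpace X] : CompleteSpace (Ultra X) := inferInstance
noncomputable example : NormedSpace ℝ (Ultra X) := inferInstance

variable {X}

/-- The class of a sequence. -/
noncomputable def Ultra.mk : (ℕ →ᵇ X) →ₗ[ℝ] Ultra X := (nullSub X).mkQ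

theorem Ultra.mk_eq {f g : ℕ →ᵇ X} :
    Ultra.mk f = Ultra.mk g ↔ Tendsto (fun n => ‖f n - g n‖) uf (𝓝 0) :=
  (Submodule.Quotient.eq _).trans mem_nullSub

theorem Ultra.exists_rep (q : Ultra X) : ∃ f : ℕ →ᵇ X, Ultra.mk f = q :=
  (nullSub X).mkQ_surjective q

theorem Ultra.tendsto_norm (f : ℕ →ᵇ X) :
    Tendsto (fun n => ‖f n‖) uf (𝓝 ‖Ultra.mk f‖) := by
  classical
  obtain ⟨L, hL, hlim⟩ := (isCompact_Icc (a := (0 : ℝ)) (b := ‖f‖)).ultrafilter_le_nhds
    ((Filter.hyperfilter ℕ).map fun n => ‖f n‖)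
    (le_principal_iff.2 (mem_map.2 (univ_mem' fun n => ⟨norm_nonneg _, f.norm_coe_le_norm n⟩)))
  have hlim' : Tendsto (fun n => ‖f n‖) uf (𝓝 L) := hlim
  suffices ‖Ultra.mk f‖ = L by rwa [this]
  refine le_antisymm (le_of_forall_pos_le_add fun ε hε => ?_) ?_
  · let g : ℕ →ᵇ X := .ofNormedAddCommGroupDiscrete
      (fun n => if ‖f n‖ ≤ L + ε then f n else 0) ‖f‖ fun n => by
        split
        · exact f.norm_coe_le_norm n
        · simp
    have hg : Ultra.mk f = Ultra.mk g := by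
      rw [Ultra.mk_eq]
      refine tendsto_const_nhds.congr' ?_
      filter_upwards [hlim'.eventually (Iic_mem_nhds (show L < L + ε by linarith))] with n hn
      simp [g, if_pos hn]
    rw [hg]
    refine (Submodule.Quotient.norm_mk_le (nullSub X) g).trans
      ((BoundedContinuousFunction.norm_le (by linarith [hL.1])).2 fun n => ?_)
    simp only [g, BoundedContinuousFunction.coe_ofNormedAddCommGroupDiscrete]
    split
    · assumption
    · simp only [norm_zero]
      linarith [hL.1]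
  · refine le_of_forall_pos_le_add fun ε hε => ?_
    obtain ⟨g, hg, hgn⟩ := Submodule.Quotient.norm_mk_lt (Ultra.mk f) hε
    have hd : Tendsto (fun n => ‖f n - g n‖) uf (𝓝 0) := Ultra.mk_eq.1 hg.symm
    have : Tendsto (fun n => ‖f n - g n‖ + ‖g‖) uf (𝓝 ‖g‖) := by simpa using hd.add_const ‖g‖
    refine (le_of_tendsto_of_tendsto' hlim' this fun n => ?_).trans hgn.le
    linarith [norm_le_norm_add_norm_sub' (f n) (g n), g.norm_coe_le_norm n]

variable {Y : Type*} [NormedAddCommGroup Y] [NormedSpace ℝ Y] {T : X → Y} {T' : Y → X}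

/-- Off the spheres the extension distorts distances at most by the difference of the norms. -/
theorem abs_dist_map_sub_le (hT : IsTingley T T') (x y : X) :
    |‖T x - T y‖ - ‖x - y‖| ≤ 2 * |‖x‖ - ‖y‖| := by
  rcases eq_or_ne y 0 with rfl | hy
  · simp [hT.map_zero, hT.norm_map]
  rcases eq_or_ne x 0 with rfl | hx
  · simp [hT.map_zero, hT.norm_map]
  have hy0 : 0 < ‖y‖ := norm_pos_iff.2 hy
  set s := ‖x‖ / ‖y‖ with hs
  have hs0 : 0 < s := div_pos (norm_pos_iff.2 hx) hy0
  have hn : ‖x‖ = ‖s • y‖ := by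
    rw [norm_smul, Real.norm_of_nonneg hs0.le, hs, div_mul_cancel₀ _ hy0.ne']
  have key : |s - 1| * ‖y‖ = |‖x‖ - ‖y‖| := by
    rw [hs, div_sub_one hy0.ne', abs_div, abs_of_pos hy0, div_mul_cancel₀ _ hy0.ne']
  have h1 := abs_norm_sub_norm_le (T x - s • T y) (T x - T y)
  have h2 := abs_norm_sub_norm_le (x - s • y) (x - y)
  have e1 : (T x - s • T y) - (T x - T y) = -((s - 1) • T y) := by rw [sub_smul, one_smul]; abel
  have e2 : (x - s • y) - (x - y) = -((s - 1) • y) := by rw [sub_smul, one_smul]; abel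
  rw [e1, norm_neg, norm_smul, Real.norm_eq_abs, hT.norm_map, key, ← hT.homog s y hs0,
    hT.dist_map x _ hn] at h1
  rw [e2, norm_neg, norm_smul, Real.norm_eq_abs, key] at h2
  rw [abs_le] at h1 h2 ⊢
  constructor <;> linarith [h1.1, h1.2, h2.1, h2.2]

/-- The image sequence. -/
noncomputable def mapSeq (hT : IsTingley T T') (f : ℕ →ᵇ X) : ℕ →ᵇ Y :=
  .ofNormedAddCommGroupDiscrete (fun n => T (f n)) ‖f‖ fun n => by
    rw [hT.norm_map]; exact f.norm_coe_le_norm n

theorem mapSeq_congr (hT : IsTingley T T') {f g : ℕ →ᵇ X} (h : Ultra.mk f = Ultra.mk g) :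
    Ultra.mk (mapSeq hT f) = Ultra.mk (mapSeq hT g) := by
  rw [Ultra.mk_eq] at h ⊢
  refine squeeze_zero (fun n => norm_nonneg _) (fun n => ?_) (by simpa using h.const_mul 3)
  have := hT.lipschitz.dist_le_mul (f n) (g n)
  simpa [mapSeq, dist_eq_norm] using this

/-- The ultrapower of the extension. -/
theorem exists_ultra (hT : IsTingley T T') :
    ∃ (S : Ultra X → Ultra Y) (S' : Ultra Y → Ultra X), IsTingley S S' ∧
      ∀ (f : ℕ →ᵇ X) (g : ℕ →ᵇ Y), (∀ n, g n = T (f n)) → S (Ultra.mk f) = Ultra.mk g := by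
  choose rX hrX using Ultra.exists_rep (X := X)
  choose rY hrY using Ultra.exists_rep (X := Y)
  set S : Ultra X → Ultra Y := fun q => Ultra.mk (mapSeq hT (rX q))
  set S' : Ultra Y → Ultra X := fun q => Ultra.mk (mapSeq hT.symm (rY q))
  have hS : ∀ f, S (Ultra.mk f) = Ultra.mk (mapSeq hT f) := fun f => mapSeq_congr hT (hrX _)
  have hS' : ∀ g, S' (Ultra.mk g) = Ultra.mk (mapSeq hT.symm g) :=
    fun g => mapSeq_congr hT.symm (hrY _)
  have hnorm : ∀ q, ‖S q‖ = ‖q‖ := fun q => by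
    obtain ⟨f, rfl⟩ := Ultra.exists_rep q
    rw [hS]
    refine tendsto_nhds_unique (Ultra.tendsto_norm _) ((Ultra.tendsto_norm f).congr fun n => ?_)
    simp [mapSeq, hT.norm_map]
  refine ⟨S, S', ⟨hnorm, ?_, ?_, ?_, ?_⟩, fun f g h => ?_⟩
  · intro p q hpq
    obtain ⟨f, rfl⟩ := Ultra.exists_rep p
    obtain ⟨g, rfl⟩ := Ultra.exists_rep q
    rw [hS, hS, ← map_sub, ← map_sub]
    have h0 : Tendsto (fun n => 2 * |‖f n‖ - ‖g n‖|) uf (𝓝 0) := by
      simpa [hpq] using ((Ultra.tendsto_norm f).sub (Ultra.tendsto_norm g)).abs.const_mul 2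
    have h1 : Tendsto (fun n => ‖T (f n) - T (g n)‖ - ‖f n - g n‖) uf (𝓝 0) :=
      squeeze_zero_norm (fun n => abs_dist_map_sub_le hT (f n) (g n)) h0
    have h2 : Tendsto (fun n => ‖T (f n) - T (g n)‖) uf (𝓝 ‖Ultra.mk (f - g)‖) := by
      simpa using h1.add (Ultra.tendsto_norm (f - g))
    refine tendsto_nhds_unique (Ultra.tendsto_norm _) (h2.congr fun n => ?_)
    simp [mapSeq]
  · intro s q hs
    obtain ⟨f, rfl⟩ := Ultra.exists_rep q
    rw [← map_smul, hS, hS, ← map_smul]
    congr 1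
    ext n
    simp [mapSeq, hT.homog s _ hs]
  · intro q
    obtain ⟨f, rfl⟩ := Ultra.exists_rep q
    rw [hS, hS']
    congr 1
    ext n
    simp [mapSeq, hT.left]
  · intro q
    obtain ⟨g, rfl⟩ := Ultra.exists_rep q
    rw [hS', hS]
    congr 1
    ext n
    simp [mapSeq, hT.right]
  · rw [hS]
    congr 1
    ext n
    simp [mapSeq, h n]

/-- A countable set lies in a pair of separable closed subspaces respected by `T`. -/
theorem exists_separable_pair (hT : IsTingley T T') {s : Set X} (hs : s.Countable) :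
    ∃ (X₀ : Submodule ℝ X) (Y₀ : Submodule ℝ Y), s ⊆ X₀ ∧ IsClosed (X₀ : Set X) ∧
      IsClosed (Y₀ : Set Y) ∧ TopologicalSpace.SeparableSpace X₀ ∧
      TopologicalSpace.SeparableSpace Y₀ ∧ (∀ x ∈ X₀, T x ∈ Y₀) ∧ (∀ y ∈ Y₀, T' y ∈ X₀) ∧
      ∃ (T₀ : X₀ → Y₀) (T₀' : Y₀ → X₀), IsTingley T₀ T₀' ∧ (∀ x, (T₀ x : Y) = T x) ∧
        ∀ y, (T₀' y : X) = T' y := by
  let B : Submodule ℝ X → Submodule ℝ Y := fun A => Submodule.span ℝ (T '' A)
  let A : ℕ → Submodule ℝ X := fun n =>
    Nat.rec (motive := fun _ => Submodule ℝ X) (Submodule.span ℝ s)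
      (fun _ A => A ⊔ Submodule.span ℝ (T' '' B A)) n
  have hA : Monotone A := monotone_nat_of_le_succ fun n => le_sup_left
  have hB : Monotone fun n => B (A n) := fun i j h =>
    Submodule.span_mono (Set.image_mono (hA h))
  have hsepB : ∀ A : Submodule ℝ X, TopologicalSpace.IsSeparable (A : Set X) →
      TopologicalSpace.IsSeparable (B A : Set Y) := fun A h =>
    (h.image hT.lipschitz.continuous).span
  have hsepA : ∀ n, TopologicalSpace.IsSeparable (A n : Set X) := by
    intro n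
    induction n with
    | zero => exact hs.isSeparable.span
    | succ n ih =>
      have : A (n + 1) = Submodule.span ℝ ((A n : Set X) ∪ T' '' B (A n)) := by
        rw [Submodule.span_union, Submodule.span_eq]
      rw [this]
      exact (ih.union ((hsepB _ ih).image hT.symm.lipschitz.continuous)).span
  have cA : (↑(iSup A) : Set X) = ⋃ n, (A n : Set X) :=
    Submodule.coe_iSup_of_directed A hA.directed_le
  have cB : (↑(iSup fun n => B (A n)) : Set Y) = ⋃ n, (B (A n) : Set Y) :=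
    Submodule.coe_iSup_of_directed _ hB.directed_le
  let X₀ := (iSup A).topologicalClosure
  let Y₀ := (iSup fun n => B (A n)).topologicalClosure
  have hXY : ∀ x ∈ X₀, T x ∈ Y₀ := fun x hx =>
    map_mem_closure hT.lipschitz.continuous hx fun z hz => by
      obtain ⟨n, hn⟩ := Set.mem_iUnion.1 (cA.le hz)
      exact cB.ge <| Set.mem_iUnion.2 ⟨n, Submodule.subset_span ⟨z, hn, rfl⟩⟩
  have hYX : ∀ y ∈ Y₀, T' y ∈ X₀ := fun y hy =>
    map_mem_closure hT.symm.lipschitz.continuous hy fun z hz => by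
      obtain ⟨n, hn⟩ := Set.mem_iUnion.1 (cB.le hz)
      exact cA.ge <| Set.mem_iUnion.2 ⟨n + 1, Submodule.mem_sup_right (Submodule.subset_span ⟨z, hn, rfl⟩)⟩
  have sX : TopologicalSpace.IsSeparable (X₀ : Set X) := by
    rw [Submodule.topologicalClosure_coe, cA]
    exact (TopologicalSpace.IsSeparable.iUnion hsepA).closure
  have sY : TopologicalSpace.IsSeparable (Y₀ : Set Y) := by
    rw [Submodule.topologicalClosure_coe, cB]
    exact (TopologicalSpace.IsSeparable.iUnion fun n => hsepB _ (hsepA n)).closure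
  refine ⟨X₀, Y₀, fun x hx => subset_closure (cA ▸ Set.mem_iUnion.2 ⟨0, Submodule.subset_span hx⟩),
    Submodule.isClosed_topologicalClosure _, Submodule.isClosed_topologicalClosure _,
    sX.separableSpace, sY.separableSpace, hXY, hYX,
    fun x => ⟨T x, hXY x x.2⟩, fun y => ⟨T' y, hYX y y.2⟩, ⟨?_, ?_, ?_, ?_, ?_⟩, fun _ => rfl,
    fun _ => rfl⟩
  · exact fun x => hT.norm_map x
  · exact fun x y h => hT.dist_map x y h
  · exact fun a x ha => Subtype.ext (hT.homog a x ha)
  · exact fun x => Subtype.ext (hT.left x)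
  · exact fun y => Subtype.ext (hT.right y)

end Vale.Agent.P084.Inf
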