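import Vale.Agent.P084.Inf.Chord

/-!
The second differences of the extension are bounded by those of the norm, up to a quadratic term,
as soon as common faces are preserved uniformly.
-/

namespace Vale.Agent.P084.Inf

variable {X Y : Type*} [NormedAddCommGroup X] [NormedSpace ℝ X] [NormedAddCommGroup Y]
  [NormedSpace ℝ Y] {T : X → Y} {T' : Y → X}

/-- The second difference of `T`. -/
def sd (T : X → Y) (a h : X) : Y := T (a + h) + T (a - h) - (2 : ℝ) • T a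

lemma lower_ray {Q q p : Y} {τ κ r : ℝ} (hQ : ‖Q‖ = 1) (hq : ‖q‖ = 1) (hτ : 0 ≤ τ)
    (hκ0 : 0 ≤ κ) (hκ1 : κ ≤ 9 / 8) (hA : ‖Q + q‖ + 1 / 8 ≤ κ + 1) (hp : ‖p‖ ≤ r)
    (hsmall : τ + r / 4 ≤ 1 / 32) :
    ‖Q + τ • q - (1 / 4 : ℝ) • (κ • Q - q + p)‖ ≤ 1 := by
  rw [show Q + τ • q - (1 / 4 : ℝ) • (κ • Q - q + p)
    = (1 - 1 / 4 * κ - 1 / 4) • Q + (1 / 4 : ℝ) • (Q + q) + (τ • q - (1 / 4 : ℝ) • p) by module]
  refine (norm_add₃_le).trans ?_
  rw [norm_smul, norm_smul, hQ, mul_one, Real.norm_of_nonneg (by linarith),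
    Real.norm_of_nonneg (by norm_num : (0 : ℝ) ≤ 1 / 4)]
  have h3 := norm_sub_le (τ • q) ((1 / 4 : ℝ) • p)
  rw [norm_smul, norm_smul, hq, mul_one, Real.norm_of_nonneg hτ,
    Real.norm_of_nonneg (by norm_num : (0 : ℝ) ≤ 1 / 4)] at h3
  linarith

/-- The displacement of a midpoint, seen by a chord along which it shortens. -/
lemma lower_case (hT : IsTingley T T') {a xp xm : X} {q : Y} {l s τ κ r : ℝ} (ha : ‖a‖ = 1)
    (hp : ‖xp‖ = 1) (hm : ‖xm‖ = 1) (h0 : 0 ≤ l) (h1 : l ≤ 1) (hs : 0 ≤ s)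
    (hbar : l • xp + (1 - l) • xm = (1 - s) • a)
    (hv : l • T xp + (1 - l) • T xm = T a + τ • q) (hq : ‖q‖ = 1) (hτ : 0 ≤ τ)
    (hκ0 : 1 / 8 ≤ κ) (hκ1 : κ ≤ 9 / 8) (hA : ‖T a + q‖ + 1 / 8 ≤ κ + 1)
    (hD : κ + 1 / 4 ≤ ‖κ • T a - q‖) (hr : 0 < r) (hsmall : τ + r / 4 ≤ 1 / 32) :
    τ * (1 / 4 - 2 * r) ≤ s + 768 * ‖xp - xm‖ ^ 2 / r := by
  set Q := T a with hQ
  have hQ1 : ‖Q‖ = 1 := by rw [hQ, hT.norm_map, ha]
  have hr16 : r ≤ 1 / 8 := by linarith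
  obtain ⟨p, hpr, hpn⟩ := exists_shift (κ • Q - q) ((4 : ℝ) • (T xp - T xm)) hr
  have hin := lower_ray hQ1 hq hτ (by linarith) hκ1 hA hpr hsmall
  set c := κ • Q - q + p with hc
  have hclo : κ + 1 / 4 - r ≤ ‖c‖ := by
    have := norm_sub_norm_le (κ • Q - q) (-p)
    rw [sub_neg_eq_add, norm_neg] at this
    linarith
  have hcq : ‖c + q‖ ≤ κ + r := by
    rw [show c + q = κ • Q + p by rw [hc]; abel]
    refine (norm_add_le _ _).trans ?_
    rw [norm_smul, hQ1, mul_one, Real.norm_of_nonneg (by linarith)]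
    linarith
  have hc14 : 1 / 4 ≤ ‖c‖ := by linarith
  obtain ⟨σ, hσ, hσn⟩ := exists_ray (Q + τ • q) c (norm_pos_iff.1 (by linarith)) (by norm_num) hin
  have hσ8 : σ ≤ 12 := by
    have h3 := norm_sub_norm_le (σ • c) (Q + τ • q)
    rw [norm_sub_rev (σ • c), hσn, norm_smul, Real.norm_of_nonneg (by linarith)] at h3
    have h4 : ‖Q + τ • q‖ ≤ 1 + τ := by
      refine (norm_add_le _ _).trans ?_
      rw [hQ1, norm_smul, hq, mul_one, Real.norm_of_nonneg hτ]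
    have h5 := mul_le_mul_of_nonneg_left hc14 (show (0 : ℝ) ≤ σ by linarith)
    linarith
  set y := T' (Q + τ • q - σ • c) with hy
  have hyn : ‖y‖ = 1 := by rw [hy, hT.symm.norm_map, hσn]
  have hTy : T y = Q + τ • q - σ • c := hT.right _
  have key := midpoint_le hT (xp := xp) (xm := xm) (y := y) (hp.trans hyn.symm) (hm.trans hyn.symm)
    h0 h1
  rw [hbar, hv, hTy, sub_sub_cancel] at key
  have e1 : ‖a - y‖ ≤ ‖(1 - s) • a - y‖ + s := by
    have := norm_le_norm_add_norm_sub' (a - y) ((1 - s) • a - y)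
    rw [show a - y - ((1 - s) • a - y) = s • a by module, norm_smul, ha, mul_one,
      Real.norm_of_nonneg hs] at this
    exact this
  have e2 : ‖a - y‖ = ‖σ • c - τ • q‖ := by
    rw [← hT.dist_map a y (ha.trans hyn.symm), hTy, ← hQ]
    congr 1
    abel
  have e3 := slope_down c q (show 0 ≤ σ by linarith) hτ
  have e4 := mul_le_mul_of_nonneg_left (show 1 / 4 - 2 * r ≤ ‖c‖ - ‖c + q‖ by linarith) hτ
  have hnd := nd_scaled_le c (T xp - T xm) hσ hσ8 hpn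
  rw [norm_smul (4 : ℝ), hT.dist_map _ _ (hp.trans hm.symm), Real.norm_ofNat] at hnd
  rw [norm_smul, Real.norm_of_nonneg (by linarith : (0 : ℝ) ≤ σ)] at key
  have : 12 * (4 * (4 * ‖xp - xm‖) ^ 2 / r) = 768 * ‖xp - xm‖ ^ 2 / r := by ring
  linarith

lemma upper_geometry {Q q : Y} {κ : ℝ} (hQ : ‖Q‖ = 1) (hq : ‖q‖ = 1)
    (hκ : κ = max (‖Q + q‖ - 1) 0 + 1 / 8) (hD : ‖κ • Q - q‖ < κ + 1 / 4) :
    5 / 4 < ‖Q + q‖ ∧ ‖Q - q‖ ≤ 3 / 2 := by
  have hA2 : ‖Q + q‖ ≤ 2 := (norm_add_le _ _).trans (by rw [hQ, hq]; norm_num)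
  have hκ0 : 1 / 8 ≤ κ := by rw [hκ]; linarith [le_max_right (‖Q + q‖ - 1) 0]
  have hκ9 : κ ≤ 9 / 8 := by
    rw [hκ]; linarith [max_le (show ‖Q + q‖ - 1 ≤ 1 by linarith) zero_le_one]
  have hκQ : ‖κ • Q‖ = κ := by
    rw [norm_smul, hQ, mul_one, Real.norm_of_nonneg (by linarith)]
  have hκ3 : 3 / 8 < κ := by
    have := norm_sub_norm_le q (κ • Q)
    rw [norm_sub_rev q, hκQ, hq] at this
    linarith
  constructor
  · rw [hκ] at hκ3
    rcases max_cases (‖Q + q‖ - 1) 0 with ⟨h, -⟩ | ⟨h, -⟩ <;> rw [h] at hκ3 <;> linarith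
  · have h3 := norm_add_le (κ • Q - q) ((1 - κ) • Q)
    rw [show κ • Q - q + (1 - κ) • Q = Q - q by module, norm_smul, hQ, mul_one,
      Real.norm_eq_abs] at h3
    rcases le_total κ 1 with h | h
    · rw [abs_of_nonneg (sub_nonneg.2 h)] at h3; linarith
    · rw [abs_of_nonpos (sub_nonpos.2 h)] at h3; linarith

/-- A point of the sphere near `y₀` in the prescribed chord direction. -/
lemma exists_endpoint {a y₀ p : X} {s r c' : ℝ} (ha : ‖a‖ = 1) (hy₀ : ‖y₀‖ = 1) (hs : 0 ≤ s)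
    (hdip : ‖a + y₀‖ ≤ 2 - c') (hc' : 0 < c') (hc'1 : c' ≤ 1) (hrc : r ≤ c' / 256) (hsr : s ≤ r)
    (hp : ‖p‖ ≤ r) :
    ∃ σ : ℝ, |1 - σ| ≤ 1 / 64 ∧ ‖(1 - s) • a - σ • ((1 - s) • a - y₀ + p)‖ = 1 ∧
      ‖(1 - s) • a - σ • ((1 - s) • a - y₀ + p) - y₀‖ ≤ 1 / 16 := by
  set c := (1 - s) • a - y₀ + p with hc
  have hg1 : |‖(1 - s) • a - (1 : ℝ) • c‖ - 1| ≤ r := by
    have := abs_norm_sub_norm_le ((1 - s) • a - (1 : ℝ) • c) y₀
    rw [hy₀, show (1 - s) • a - (1 : ℝ) • c - y₀ = -p by rw [hc]; module, norm_neg] at this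
    exact this.trans hp
  have hgh : ‖(1 - s) • a - (1 / 2 : ℝ) • c‖ ≤ 1 - c' / 4 := by
    rw [show (1 - s) • a - (1 / 2 : ℝ) • c = (1 / 2 : ℝ) • (a + y₀) - (1 / 2 : ℝ) • (s • a + p)
      by rw [hc]; module]
    refine (norm_sub_le _ _).trans ?_
    have h3 := norm_add_le (s • a) p
    rw [norm_smul, ha, mul_one, Real.norm_of_nonneg hs] at h3
    rw [norm_smul, norm_smul, Real.norm_of_nonneg (by norm_num : (0 : ℝ) ≤ 1 / 2)]
    linarith
  obtain ⟨σ, hσ, hσn⟩ := exists_crossing _ c ((norm_nonneg p).trans hp) hc' hrc hg1 hgh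
  have hε : 4 * r / c' ≤ 1 / 64 := by rw [div_le_iff₀ hc']; linarith
  refine ⟨σ, hσ.trans hε, hσn, ?_⟩
  rw [show (1 - s) • a - σ • c - y₀ = (1 - σ) • c - p by rw [hc]; module]
  refine (norm_sub_le _ _).trans ?_
  rw [norm_smul, Real.norm_eq_abs]
  have hz3 : ‖c‖ ≤ 3 := by
    have h3 := norm_add_le ((1 - s) • a - y₀) p
    have h4 := norm_sub_le ((1 - s) • a) y₀
    rw [norm_smul, ha, mul_one, hy₀, Real.norm_of_nonneg (by linarith)] at h4
    rw [← hc] at h3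
    linarith
  have := mul_le_mul (hσ.trans hε) hz3 (norm_nonneg c) (by norm_num)
  linarith

/-- The displacement of a midpoint, seen by a chord along which it lengthens. -/
lemma upper_case (hT : IsTingley T T') {a xp xm : X} {q : Y} {l s τ κ r c' : ℝ} (ha : ‖a‖ = 1)
    (hp : ‖xp‖ = 1) (hm : ‖xm‖ = 1) (h0 : 0 ≤ l) (h1 : l ≤ 1) (hs : 0 ≤ s)
    (hbar : l • xp + (1 - l) • xm = (1 - s) • a)
    (hv : l • T xp + (1 - l) • T xm = T a + τ • q) (hq : ‖q‖ = 1) (hτ : 0 ≤ τ)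
    (hκ : κ = max (‖T a + q‖ - 1) 0 + 1 / 8) (hD : ‖κ • T a - q‖ < κ + 1 / 4)
    (hc' : 0 < c') (hc'1 : c' ≤ 1)
    (hoff : ∀ x y : X, ‖x‖ = 1 → ‖y‖ = 1 → ‖T x + T y‖ ≤ 3 / 2 → ‖x + y‖ ≤ 2 - c')
    (hr : 0 < r) (hrc : r ≤ c' / 256) (hsr : s ≤ r) :
    τ * (1 / 8) ≤ s + 768 * ‖xp - xm‖ ^ 2 / r := by
  set Q := T a with hQ
  have hQ1 : ‖Q‖ = 1 := by rw [hQ, hT.norm_map, ha]
  obtain ⟨hA, hQq⟩ := upper_geometry hQ1 hq hκ hD
  set y₀ := T' (-q) with hy₀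
  have hy₀n : ‖y₀‖ = 1 := by rw [hy₀, hT.symm.norm_map, norm_neg, hq]
  have hTy₀ : T y₀ = -q := hT.right _
  have hdip : ‖a + y₀‖ ≤ 2 - c' := hoff a y₀ ha hy₀n (by rw [hTy₀, ← sub_eq_add_neg]; exact hQq)
  obtain ⟨p, hpr, hpn⟩ := exists_shift ((1 - s) • a - y₀) ((4 : ℝ) • (xp - xm)) hr
  obtain ⟨σ, hσ, hyn, hyd⟩ := exists_endpoint ha hy₀n hs hdip hc' hc'1 hrc hsr hpr
  set c := (1 - s) • a - y₀ + p with hc
  set y := (1 - s) • a - σ • c with hy
  obtain ⟨hσl, hσu⟩ := abs_le.1 hσ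
  have key := midpoint_ge hT (xp := xp) (xm := xm) (y := y) (hp.trans hyn.symm) (hm.trans hyn.symm)
    h0 h1
  rw [hbar, hv, show (1 - s) • a - y = σ • c by rw [hy]; abel] at key
  set w := Q - T y with hw
  have hwq : ‖w - (Q + q)‖ ≤ 1 / 16 := by
    rw [show w - (Q + q) = -(T y - T y₀) by rw [hw, hTy₀]; abel, norm_neg,
      hT.dist_map _ _ (hyn.trans hy₀n.symm)]
    exact hyd
  have e3 : ‖Q + q‖ - 1 / 16 ≤ ‖w‖ := by
    have := norm_sub_norm_le (Q + q) w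
    rw [norm_sub_rev (Q + q) w] at this
    linarith
  have e4 : ‖w - q‖ ≤ 1 + 1 / 16 := by
    have := norm_add_le Q (w - (Q + q))
    rw [show Q + (w - (Q + q)) = w - q by abel, hQ1] at this
    linarith
  have e2 := slope_up w q hτ
  have e5 := mul_le_mul_of_nonneg_left (show 1 / 8 ≤ ‖w‖ - ‖w - q‖ by linarith) hτ
  have up : ‖σ • c‖ ≤ ‖w‖ + s := by
    rw [hw, hQ, hT.dist_map a y (ha.trans hyn.symm)]
    have := norm_sub_le (a - y) (s • a)
    rw [norm_smul, ha, mul_one, Real.norm_of_nonneg hs] at this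
    rw [show σ • c = a - y - s • a by rw [hy]; module]
    exact this
  have hnd := nd_scaled_le c (xp - xm) (σ := σ) (M := 12) (by linarith) (by linarith) hpn
  rw [norm_smul (4 : ℝ), Real.norm_ofNat] at hnd
  rw [show Q + τ • q - T y = w + τ • q by rw [hw]; abel] at key
  have : 12 * (4 * (4 * ‖xp - xm‖) ^ 2 / r) = 768 * ‖xp - xm‖ ^ 2 / r := by ring
  linarith

/-- The data of a radial pair of points. -/
lemma radial_data (hT : IsTingley T T') {a h : X} (ha : ‖a‖ = 1) (hh : ‖h‖ ≤ 1 / 4) :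
    ∃ (xp xm : X) (l s : ℝ), ‖xp‖ = 1 ∧ ‖xm‖ = 1 ∧ 0 ≤ l ∧ l ≤ 1 ∧ 0 ≤ s ∧
      l • xp + (1 - l) • xm = (1 - s) • a ∧ 2 * s ≤ nd a h ∧
      ‖xp - a‖ ≤ 2 * ‖h‖ ∧ ‖xm - a‖ ≤ 2 * ‖h‖ ∧
      ‖sd T a h‖ ≤ 3 * ‖l • T xp + (1 - l) • T xm - T a‖ + nd a h := by
  have hn := nd_nonneg a h
  have hnh := nd_le a h
  set pp := ‖a + h‖ with hpp
  set pm := ‖a - h‖ with hpm
  have b1 := norm_sub_norm_le a (-h)
  have b2 := norm_sub_norm_le a h
  rw [sub_neg_eq_add, norm_neg, ha] at b1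
  rw [ha] at b2
  have b3 := norm_add_le a h
  have b4 := norm_sub_le a h
  rw [ha] at b3 b4
  have hpp0 : 0 < pp := by linarith
  have hpm0 : 0 < pm := by linarith
  set S := pp + pm with hSdef
  have hS : S = 2 + nd a h := by simp only [hSdef, hpp, hpm, nd, ha]; ring
  have hS0 : 0 < S := by linarith
  set xp := pp⁻¹ • (a + h) with hxp
  set xm := pm⁻¹ • (a - h) with hxm
  have hxpn : ‖xp‖ = 1 := by
    rw [hxp, norm_smul, norm_inv, Real.norm_of_nonneg hpp0.le, inv_mul_cancel₀ hpp0.ne']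
  have hxmn : ‖xm‖ = 1 := by
    rw [hxm, norm_smul, norm_inv, Real.norm_of_nonneg hpm0.le, inv_mul_cancel₀ hpm0.ne']
  have ep : a + h = pp • xp := (smul_inv_smul₀ hpp0.ne' _).symm
  have em : a - h = pm • xm := (smul_inv_smul₀ hpm0.ne' _).symm
  set l := pp / S with hl
  have h1l : 1 - l = pm / S := by
    rw [hl, eq_div_iff hS0.ne', sub_mul, one_mul, div_mul_cancel₀ _ hS0.ne']
    simp only [hSdef]; ring
  set s := nd a h / S with hsdef
  have h2s : 1 - s = 2 / S := by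
    rw [hsdef, eq_div_iff hS0.ne', sub_mul, one_mul, div_mul_cancel₀ _ hS0.ne']
    linarith
  refine ⟨xp, xm, l, s, hxpn, hxmn, by positivity, (div_le_one hS0).2 (by linarith), by positivity,
    ?_, ?_, ?_, ?_, ?_⟩
  · rw [h1l, h2s, hl, div_eq_inv_mul, div_eq_inv_mul, div_eq_inv_mul, ← smul_smul, ← smul_smul,
      ← smul_smul, ← ep, ← em, ← smul_add]
    module
  · have := div_le_div_of_nonneg_left hn two_pos (show 2 ≤ S by linarith)
    rw [← hsdef] at this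
    linarith
  · have := norm_sub_le_two hxpn ep
      (by rw [add_sub_cancel_left, abs_le]; constructor <;> linarith)
    rwa [add_sub_cancel_left] at this
  · have := norm_sub_le_two hxmn em
      (by rw [sub_sub_cancel_left, norm_neg, abs_le]; constructor <;> linarith)
    rwa [sub_sub_cancel_left, norm_neg] at this
  · set v := l • T xp + (1 - l) • T xm - T a with hv
    have e2 : S • v = pp • T xp + pm • T xm - S • T a := by
      rw [hv, smul_sub, smul_add, smul_smul, smul_smul, h1l, hl, mul_div_cancel₀ _ hS0.ne',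
        mul_div_cancel₀ _ hS0.ne']
    have hsd : sd T a h = S • v + nd a h • T a := by
      rw [e2, sd, ep, em, hT.homog _ _ hpp0, hT.homog _ _ hpm0, hS]
      module
    rw [hsd]
    refine (norm_add_le _ _).trans ?_
    rw [norm_smul, norm_smul, hT.norm_map, ha, mul_one, Real.norm_of_nonneg hS0.le,
      Real.norm_of_nonneg hn]
    have := mul_le_mul_of_nonneg_right (show S ≤ 3 by linarith) (norm_nonneg v)
    linarith

/-- The bound on the displacement of the midpoint. -/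
lemma displacement_le (hT : IsTingley T T') {a xp xm : X} {l s τ r c' : ℝ} {v : Y} (ha : ‖a‖ = 1)
    (hp : ‖xp‖ = 1) (hm : ‖xm‖ = 1) (h0 : 0 ≤ l) (h1 : l ≤ 1) (hs : 0 ≤ s)
    (hbar : l • xp + (1 - l) • xm = (1 - s) • a)
    (hv : l • T xp + (1 - l) • T xm - T a = v) (hτ : ‖v‖ = τ) (hc' : 0 < c') (hc'1 : c' ≤ 1)
    (hoff : ∀ x y : X, ‖x‖ = 1 → ‖y‖ = 1 → ‖T x + T y‖ ≤ 3 / 2 → ‖x + y‖ ≤ 2 - c')
    (hr : 0 < r) (hrc : r ≤ c' / 256) (hsr : s ≤ r) (hτs : τ + r / 4 ≤ 1 / 32) :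
    τ * (1 / 8) ≤ s + 768 * ‖xp - xm‖ ^ 2 / r := by
  rcases eq_or_lt_of_le (norm_nonneg v) with hv0 | hv0
  · rw [← hτ, ← hv0, zero_mul]; positivity
  set q := τ⁻¹ • v with hq
  have hτ0 : 0 < τ := hτ ▸ hv0
  have hqn : ‖q‖ = 1 := by
    rw [hq, norm_smul, norm_inv, Real.norm_of_nonneg hτ0.le, hτ, inv_mul_cancel₀ hτ0.ne']
  have hvq : l • T xp + (1 - l) • T xm = T a + τ • q := by
    rw [hq, smul_inv_smul₀ hτ0.ne', ← hv]; abel
  have hA2 : ‖T a + q‖ ≤ 2 := (norm_add_le _ _).trans (by rw [hT.norm_map, ha, hqn]; norm_num)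
  set κ := max (‖T a + q‖ - 1) 0 + 1 / 8 with hκ
  rcases le_or_gt (κ + 1 / 4) ‖κ • T a - q‖ with hD | hD
  · have h9 := lower_case hT (κ := κ) ha hp hm h0 h1 hs hbar hvq hqn hτ0.le
      (by rw [hκ]; linarith [le_max_right (‖T a + q‖ - 1) 0])
      (by rw [hκ]; linarith [max_le (show ‖T a + q‖ - 1 ≤ 1 by linarith) zero_le_one])
      (by rw [hκ]; linarith [le_max_left (‖T a + q‖ - 1) 0]) hD hr hτs
    have := mul_le_mul_of_nonneg_left (show 1 / 8 ≤ 1 / 4 - 2 * r by linarith) hτ0.le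
    linarith
  · exact upper_case hT ha hp hm h0 h1 hs hbar hvq hqn hτ0.le hκ hD hc' hc'1 hoff hr hrc hsr

/-- The universal bound on second differences. -/
theorem exists_sd_bound (hT : IsTingley T T')
    (hoff : ∃ c' > 0, ∀ x y : X, ‖x‖ = 1 → ‖y‖ = 1 → ‖T x + T y‖ ≤ 3 / 2 → ‖x + y‖ ≤ 2 - c') :
    ∃ C : ℝ, 0 ≤ C ∧ ∀ a h : X, ‖a‖ = 1 → ‖sd T a h‖ ≤ C * (nd a h + ‖h‖ ^ 2) := by
  obtain ⟨c₀, hc₀, hoff⟩ := hoff
  set c' := min c₀ 1 with hc'def
  have hc' : 0 < c' := lt_min hc₀ one_pos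
  have hc'1 : c' ≤ 1 := min_le_right _ _
  set r := c' / 256 with hrdef
  have hr : 0 < r := by positivity
  set δ := r / 8 with hδdef
  have hδ : 0 < δ := by positivity
  have h7 : 0 ≤ 12 / δ := by positivity
  have h8 : 0 ≤ 300000 / r := by positivity
  refine ⟨12 / δ + 13 + 300000 / r, by positivity, fun a h ha => ?_⟩
  have hn := nd_nonneg a h
  have hh := norm_nonneg h
  set C := 12 / δ + 13 + 300000 / r
  rcases le_or_gt δ ‖h‖ with hbig | hsm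
  · have h1 := hT.lipschitz.norm_sub_le (a + h) a
    have h2 := hT.lipschitz.norm_sub_le (a - h) a
    rw [add_sub_cancel_left, NNReal.coe_ofNat] at h1
    rw [sub_sub_cancel_left, norm_neg, NNReal.coe_ofNat] at h2
    have h3 := norm_add_le (T (a + h) - T a) (T (a - h) - T a)
    rw [show T (a + h) - T a + (T (a - h) - T a) = sd T a h by simp only [sd]; module] at h3
    have h4 : 6 * ‖h‖ ≤ 12 / δ * ‖h‖ ^ 2 := by
      rw [div_mul_eq_mul_div, le_div_iff₀ hδ]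
      nlinarith
    have h5 := mul_le_mul_of_nonneg_right (show 12 / δ ≤ C by linarith) (sq_nonneg ‖h‖)
    have h6 := mul_nonneg (show 0 ≤ C by linarith) hn
    linarith
  obtain ⟨xp, xm, l, s, hp, hm, hl0, hl1, hs, hbar, hsn, hxpd, hxmd, hsd⟩ :=
    radial_data hT ha (h := h) (by linarith)
  have hτ2 : ‖l • T xp + (1 - l) • T xm - T a‖ ≤ 2 * ‖h‖ := by
    rw [show l • T xp + (1 - l) • T xm - T a = l • (T xp - T a) + (1 - l) • (T xm - T a) by module]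
    refine (norm_add_le _ _).trans ?_
    rw [norm_smul, norm_smul, hT.dist_map _ _ (hp.trans ha.symm),
      hT.dist_map _ _ (hm.trans ha.symm), Real.norm_of_nonneg hl0,
      Real.norm_of_nonneg (sub_nonneg.2 hl1)]
    have := mul_le_mul_of_nonneg_left hxpd hl0
    have := mul_le_mul_of_nonneg_left hxmd (sub_nonneg.2 hl1)
    linarith
  have hnh := nd_le a h
  have hd := displacement_le hT ha hp hm hl0 hl1 hs hbar rfl rfl hc' hc'1
    (fun x y hx hy hxy => (hoff x y hx hy hxy).trans (by linarith [min_le_left c₀ 1])) hr le_rfl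
    (by linarith) (by linarith)
  have he : ‖xp - xm‖ ≤ 4 * ‖h‖ := by
    have := norm_sub_le_norm_sub_add_norm_sub xp a xm
    rw [norm_sub_rev a xm] at this
    linarith
  have he2 : 768 * ‖xp - xm‖ ^ 2 / r ≤ 12288 / r * ‖h‖ ^ 2 := by
    rw [div_mul_eq_mul_div]
    refine div_le_div_of_nonneg_right ?_ hr.le
    have := pow_le_pow_left₀ (norm_nonneg _) he 2
    linarith
  have h9 : 12288 / r * 24 * ‖h‖ ^ 2 ≤ 300000 / r * ‖h‖ ^ 2 := by
    refine mul_le_mul_of_nonneg_right ?_ (sq_nonneg _)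
    rw [div_mul_eq_mul_div]
    exact div_le_div_of_nonneg_right (by norm_num) hr.le
  have h10 := mul_le_mul_of_nonneg_right (show 300000 / r ≤ C by linarith) (sq_nonneg ‖h‖)
  have h11 := mul_le_mul_of_nonneg_right (show 13 ≤ C by linarith) hn
  linarith

end Vale.Agent.P084.Inf
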