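import Mathlib.Analysis.Normed.Module.HahnBanach
import Mathlib.Topology.Order.Compact
import Vale.Agent.P084.Inf.SecondBound

/-!
Directional derivatives of the norm, and of a map whose second differences are controlled by those
of the norm.
-/

namespace Vale.Agent.P084.Inf

open Filter Topology Set

/-- A continuous midpoint convex function lies below its chords. -/
lemma le_chord_of_midpoint {g : ℝ → ℝ} {p q : ℝ} (hc : ContinuousOn g (Icc p q))
    (hmid : ∀ t d : ℝ, 0 ≤ d → t - d ∈ Icc p q → t + d ∈ Icc p q → 2 * g t ≤ g (t - d) + g (t + d))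
    {l : ℝ} (hl0 : 0 ≤ l) (hl1 : l ≤ 1) (hpq : p ≤ q) :
    g ((1 - l) * p + l * q) ≤ (1 - l) * g p + l * g q := by
  rcases eq_or_lt_of_le hpq with rfl | hlt
  · rw [show (1 - l) * p + l * p = p by ring]
    linarith
  have hqp : (q - p) ≠ 0 := (sub_pos.2 hlt).ne'
  set φ : ℝ → ℝ := fun t => g t - g p - (t - p) / (q - p) * (g q - g p) with hφ
  have hφc : ContinuousOn φ (Icc p q) := (hc.sub continuousOn_const).sub (by fun_prop)
  have hφp : φ p = 0 := by simp [hφ]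
  have hφq : φ q = 0 := by simp [hφ, div_self hqp]
  obtain ⟨c₀, hc₀, hmax⟩ := isCompact_Icc.exists_isMaxOn (nonempty_Icc.2 hpq) hφc
  have key : φ c₀ ≤ 0 := by
    by_contra hpos
    push Not at hpos
    set M := Icc p q ∩ φ ⁻¹' {φ c₀} with hM
    have hMcl : IsClosed M := hφc.preimage_isClosed_of_isClosed isClosed_Icc isClosed_singleton
    have hMne : M.Nonempty := ⟨c₀, hc₀, rfl⟩
    have hMb : BddAbove M := ⟨q, fun t ht => ht.1.2⟩
    obtain ⟨hcI, hcv : φ (sSup M) = φ c₀⟩ := hMcl.csSup_mem hMne hMb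
    set c := sSup M
    have hp : p < c := lt_of_le_of_ne hcI.1 fun h => by rw [← h, hφp] at hcv; linarith
    have hq : c < q := lt_of_le_of_ne hcI.2 fun h => by rw [h, hφq] at hcv; linarith
    set d := min (c - p) (q - c) with hd
    have hd0 : 0 < d := lt_min (by linarith) (by linarith)
    have h1 : c - d ∈ Icc p q := ⟨by linarith [min_le_left (c - p) (q - c)], by linarith⟩
    have h2 : c + d ∈ Icc p q := ⟨by linarith, by linarith [min_le_right (c - p) (q - c)]⟩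
    have h3 := hmid c d hd0.le h1 h2
    have a1 : φ (c - d) ≤ φ c₀ := hmax h1
    have a2 : φ (c + d) ≤ φ c₀ := hmax h2
    have e : φ (c - d) + φ (c + d) - 2 * φ c = g (c - d) + g (c + d) - 2 * g c := by
      simp only [hφ]
      ring
    have h4 : c + d ∈ M := ⟨h2, show φ (c + d) = φ c₀ by linarith⟩
    linarith [le_csSup hMb h4]
  set t := (1 - l) * p + l * q with ht
  have htI : t ∈ Icc p q := ⟨by nlinarith, by nlinarith⟩
  have h5 : φ t ≤ 0 := (hmax htI).trans key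
  simp only [hφ] at h5
  rw [show t - p = l * (q - p) by rw [ht]; ring, mul_div_cancel_right₀ _ hqp] at h5
  linarith

section Norm

variable {E : Type*} [NormedAddCommGroup E] [NormedSpace ℝ E]

/-- The one-sided directional derivative of the norm. -/
noncomputable def Dn (a u : E) : ℝ := ⨅ t : Ioi (0 : ℝ), (t : ℝ)⁻¹ * (‖a + (t : ℝ) • u‖ - ‖a‖)

lemma neg_norm_le_quot (a u : E) {t : ℝ} (ht : 0 < t) : -‖u‖ ≤ t⁻¹ * (‖a + t • u‖ - ‖a‖) := by
  rw [le_inv_mul_iff₀ ht]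
  have := norm_sub_norm_le a (-(t • u))
  rw [sub_neg_eq_add, norm_neg, norm_smul, Real.norm_of_nonneg ht.le] at this
  linarith

lemma quot_le_norm (a u : E) {t : ℝ} (ht : 0 < t) : t⁻¹ * (‖a + t • u‖ - ‖a‖) ≤ ‖u‖ := by
  rw [inv_mul_le_iff₀ ht]
  have := norm_add_le a (t • u)
  rw [norm_smul, Real.norm_of_nonneg ht.le] at this
  linarith

lemma Dn_le_quot (a u : E) {t : ℝ} (ht : 0 < t) : Dn a u ≤ t⁻¹ * (‖a + t • u‖ - ‖a‖) :=
  ciInf_le ⟨-‖u‖, by rintro _ ⟨⟨s, hs⟩, rfl⟩; exact neg_norm_le_quot a u hs⟩ (⟨t, ht⟩ : Ioi (0 : ℝ))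

lemma le_Dn (a u : E) {m : ℝ} (h : ∀ t, 0 < t → m ≤ t⁻¹ * (‖a + t • u‖ - ‖a‖)) : m ≤ Dn a u :=
  le_ciInf fun t => h t t.2

lemma quot_mono (a u : E) {s t : ℝ} (hs : 0 < s) (hst : s ≤ t) :
    s⁻¹ * (‖a + s • u‖ - ‖a‖) ≤ t⁻¹ * (‖a + t • u‖ - ‖a‖) := by
  have ht : 0 < t := hs.trans_le hst
  set θ := s / t with hθ
  have hθ1 : θ ≤ 1 := (div_le_one ht).2 hst
  have hθt : θ * t = s := div_mul_cancel₀ s ht.ne'
  have h1 : ‖a + s • u‖ ≤ (1 - θ) * ‖a‖ + θ * ‖a + t • u‖ := by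
    rw [show a + s • u = (1 - θ) • a + θ • (a + t • u) by rw [← hθt]; module]
    refine (norm_add_le _ _).trans (le_of_eq ?_)
    rw [norm_smul, norm_smul, Real.norm_of_nonneg (sub_nonneg.2 hθ1),
      Real.norm_of_nonneg (div_nonneg hs.le ht.le : 0 ≤ θ)]
  rw [inv_mul_le_iff₀ hs]
  rw [← mul_assoc, ← div_eq_mul_inv, ← hθ]
  linarith

lemma tendsto_Dn (a u : E) :
    Tendsto (fun t : ℝ => t⁻¹ * (‖a + t • u‖ - ‖a‖)) (𝓝[>] 0) (𝓝 (Dn a u)) := by
  refine tendsto_order.2 ⟨fun m hm => ?_, fun m hm => ?_⟩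
  · filter_upwards [self_mem_nhdsWithin] with t (ht : 0 < t)
    exact hm.trans_le (Dn_le_quot a u ht)
  · obtain ⟨⟨t₀, ht₀⟩, h⟩ := exists_lt_of_ciInf_lt hm
    filter_upwards [Ioc_mem_nhdsGT ht₀] with t ht
    exact (quot_mono a u ht.1 ht.2).trans_lt h

lemma abs_Dn_le (a u : E) : |Dn a u| ≤ ‖u‖ :=
  abs_le.2 ⟨le_Dn a u fun _ ht => neg_norm_le_quot a u ht,
    (Dn_le_quot a u one_pos).trans (quot_le_norm a u one_pos)⟩

lemma Dn_self (a : E) : Dn a a = ‖a‖ := by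
  refine tendsto_nhds_unique (tendsto_Dn a a) (tendsto_const_nhds.congr' ?_)
  filter_upwards [self_mem_nhdsWithin] with t (ht : 0 < t)
  rw [show a + t • a = (1 + t) • a by module, norm_smul, Real.norm_of_nonneg (by linarith)]
  field_simp
  ring

lemma Dn_add_le (a u w : E) : Dn a (u + w) ≤ Dn a u + Dn a w := by
  have h2 : Tendsto (fun t : ℝ => 2 * t) (𝓝[>] 0) (𝓝[>] 0) :=
    tendsto_nhdsWithin_iff.2 ⟨by
      have : Continuous fun t : ℝ => 2 * t := by fun_prop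
      simpa using (this.tendsto 0).mono_left nhdsWithin_le_nhds,
      eventually_nhdsWithin_of_forall fun t (ht : 0 < t) => show (0 : ℝ) < 2 * t by linarith⟩
  refine le_of_tendsto_of_tendsto (tendsto_Dn a (u + w))
    (((tendsto_Dn a u).comp h2).add ((tendsto_Dn a w).comp h2)) ?_
  filter_upwards [self_mem_nhdsWithin] with t (ht : 0 < t)
  simp only [Function.comp_apply]
  have h := norm_add_le (a + (2 * t) • u) (a + (2 * t) • w)
  rw [show a + (2 * t) • u + (a + (2 * t) • w) = (2 : ℝ) • (a + t • (u + w)) by module, norm_smul,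
    Real.norm_ofNat] at h
  rw [mul_inv, inv_mul_le_iff₀ ht]
  field_simp
  rw [mul_comm t 2]
  linarith

lemma Dn_smul (a u : E) {c : ℝ} (hc : 0 ≤ c) : Dn a (c • u) = c * Dn a u := by
  rcases eq_or_lt_of_le hc with rfl | hc'
  · rw [zero_smul, zero_mul]
    refine tendsto_nhds_unique (tendsto_Dn a 0) (tendsto_const_nhds.congr fun t => by simp)
  have h2 : Tendsto (fun t : ℝ => t * c) (𝓝[>] 0) (𝓝[>] 0) :=
    tendsto_nhdsWithin_iff.2 ⟨by
      have : Continuous fun t : ℝ => t * c := by fun_prop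
      simpa using (this.tendsto 0).mono_left nhdsWithin_le_nhds,
      eventually_nhdsWithin_of_forall fun t (ht : 0 < t) => mul_pos ht hc'⟩
  refine tendsto_nhds_unique (tendsto_Dn a (c • u))
    ((((tendsto_Dn a u).comp h2).const_mul c).congr' ?_)
  filter_upwards [self_mem_nhdsWithin] with t (ht : 0 < t)
  simp only [Function.comp_apply, smul_smul]
  field_simp

lemma Dn_add_neg_nonneg (a u : E) : 0 ≤ Dn a u + Dn a (-u) := by
  have h := Dn_add_le a u (-u)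
  rw [add_neg_cancel] at h
  have h0 := Dn_smul a u (le_refl (0 : ℝ))
  rw [zero_smul, zero_mul] at h0
  linarith

lemma abs_Dn_sub_le (a u w : E) : |Dn a u - Dn a w| ≤ ‖u - w‖ := by
  have h1 := Dn_add_le a w (u - w)
  have h2 := Dn_add_le a u (w - u)
  rw [add_sub_cancel] at h1 h2
  have h3 := (abs_le.1 (abs_Dn_le a (u - w))).2
  have h4 := (abs_le.1 (abs_Dn_le a (w - u))).2
  rw [norm_sub_rev w u] at h4
  exact abs_le.2 ⟨by linarith, by linarith⟩

lemma norm_add_ge (a u : E) : ‖a‖ + Dn a u ≤ ‖a + u‖ := by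
  have := Dn_le_quot a u one_pos
  rw [inv_one, one_mul, one_smul] at this
  linarith

/-- The excess of the norm over its one-sided linearisation. -/
noncomputable def gap (a u : E) : ℝ := ‖a + u‖ - ‖a‖ - Dn a u

lemma gap_nonneg (a u : E) : 0 ≤ gap a u := by
  have := norm_add_ge a u
  unfold gap
  linarith

lemma gap_le_nd (a u : E) : gap a u ≤ nd a u + (Dn a u + Dn a (-u)) - 2 * (Dn a u + Dn a (-u)) := by
  have h1 := norm_add_ge a (-u)
  rw [← sub_eq_add_neg] at h1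
  simp only [gap, nd]
  linarith

/-- The norm is Gateaux differentiable at `a`. -/
def Smooth (a : E) : Prop := ∀ u, Dn a u + Dn a (-u) = 0

lemma Smooth.map_add {a : E} (h : Smooth a) (u w : E) : Dn a (u + w) = Dn a u + Dn a w := by
  refine le_antisymm (Dn_add_le a u w) ?_
  have h1 := Dn_add_le a (-u) (-w)
  rw [← neg_add] at h1
  linarith [h u, h w, h (u + w)]

lemma Smooth.map_smul {a : E} (h : Smooth a) (c : ℝ) (u : E) : Dn a (c • u) = c * Dn a u := by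
  rcases le_total 0 c with hc | hc
  · exact Dn_smul a u hc
  · have h1 := Dn_smul a u (neg_nonneg.2 hc)
    rw [neg_smul] at h1
    linarith [h (c • u)]

end Norm

section Map

variable {X Y : Type*} [NormedAddCommGroup X] [NormedSpace ℝ X] [NormedAddCommGroup Y]
  [NormedSpace ℝ Y] {T : X → Y} {T' : Y → X}

/-- The second differences of `T` are controlled by those of the norm. -/
def Ctrl (T : X → Y) (C : ℝ) : Prop :=
  0 ≤ C ∧ ∀ a h : X, a ≠ 0 → ‖sd T a h‖ ≤ C * (nd a h + ‖h‖ ^ 2 / ‖a‖)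

lemma ctrl_of_unit (hT : IsTingley T T') {C : ℝ} (hC : 0 ≤ C)
    (h : ∀ a h : X, ‖a‖ = 1 → ‖sd T a h‖ ≤ C * (nd a h + ‖h‖ ^ 2)) : Ctrl T C := by
  refine ⟨hC, fun a u ha => ?_⟩
  have hr : 0 < ‖a‖ := norm_pos_iff.2 ha
  have ea : a = ‖a‖ • (‖a‖⁻¹ • a) := (smul_inv_smul₀ hr.ne' a).symm
  have eu : u = ‖a‖ • (‖a‖⁻¹ • u) := (smul_inv_smul₀ hr.ne' u).symm
  have hsd : sd T a u = ‖a‖ • sd T (‖a‖⁻¹ • a) (‖a‖⁻¹ • u) := by
    simp only [sd, smul_sub, smul_add]
    rw [smul_comm ‖a‖ (2 : ℝ), ← hT.homog _ _ hr, ← hT.homog _ _ hr, ← hT.homog _ _ hr,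
      smul_add, smul_sub, ← ea, ← eu]
  have hnd : nd a u = ‖a‖ * nd (‖a‖⁻¹ • a) (‖a‖⁻¹ • u) := by
    conv_lhs => rw [ea]
    exact nd_smul_base _ _ hr
  rw [hsd, norm_smul, norm_norm]
  refine (mul_le_mul_of_nonneg_left (h _ _ ?_) hr.le).trans (le_of_eq ?_)
  · rw [norm_smul, norm_inv, norm_norm, inv_mul_cancel₀ hr.ne']
  · rw [hnd, norm_smul, norm_inv, norm_norm]
    field_simp

/-- Along a segment `T` is controlled by a convex function. -/
lemma segment_ctrl (hT : IsTingley T T') {C : ℝ} (hC : Ctrl T C) {p u : X} {m : ℝ} (hm : 0 < m)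
    {I : Set ℝ} (hI : ∀ t ∈ I, m ≤ ‖p + t • u‖) {r q : ℝ} (hsub : Icc r q ⊆ I) {l : ℝ}
    (hl0 : 0 ≤ l) (hl1 : l ≤ 1) (hrq : r ≤ q) :
    ‖(1 - l) • T (p + r • u) + l • T (p + q • u) - T (p + ((1 - l) * r + l * q) • u)‖
      ≤ C * ((1 - l) * ‖p + r • u‖ + l * ‖p + q • u‖ - ‖p + ((1 - l) * r + l * q) • u‖
        + ‖u‖ ^ 2 / (2 * m) * (l * (1 - l) * (q - r) ^ 2)) := by
  set z := (1 - l) • T (p + r • u) + l • T (p + q • u) - T (p + ((1 - l) * r + l * q) • u) with hz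
  obtain ⟨η, hη1, hη2⟩ := exists_dual_vector'' ℝ z
  simp only [RCLike.ofReal_real_eq_id, id_eq] at hη2
  set K := ‖u‖ ^ 2 / (2 * m) with hK
  set g : ℝ → ℝ := fun t => C * (‖p + t • u‖ + K * t ^ 2) - η (T (p + t • u)) with hg
  have hTc := hT.lipschitz.continuous
  have hc : ContinuousOn g (Icc r q) := by
    apply Continuous.continuousOn
    simp only [hg]
    fun_prop
  have hmid : ∀ t d : ℝ, 0 ≤ d → t - d ∈ Icc r q → t + d ∈ Icc r q →
      2 * g t ≤ g (t - d) + g (t + d) := by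
    intro t d hd h1 h2
    have htm : m ≤ ‖p + t • u‖ := hI t (hsub ⟨by linarith [h1.1], by linarith [h2.2]⟩)
    have h3 := hC.2 (p + t • u) (d • u) (norm_pos_iff.1 (hm.trans_le htm))
    have h4 : η (sd T (p + t • u) (d • u)) ≤ ‖sd T (p + t • u) (d • u)‖ :=
      (le_abs_self _).trans ((η.le_opNorm _).trans (mul_le_of_le_one_left (norm_nonneg _) hη1))
    have h5 : ‖d • u‖ ^ 2 / ‖p + t • u‖ ≤ K * (2 * d ^ 2) := by
      rw [norm_smul, Real.norm_of_nonneg hd, hK]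
      refine (div_le_div_of_nonneg_left (sq_nonneg _) hm htm).trans (le_of_eq ?_)
      field_simp
    have h6 := mul_le_mul_of_nonneg_left (add_le_add (le_refl (nd (p + t • u) (d • u))) h5) hC.1
    have h7 := h4.trans (h3.trans h6)
    simp only [sd, nd, map_sub, map_add, map_smul, smul_eq_mul] at h7
    rw [show p + t • u + d • u = p + (t + d) • u by module,
      show p + t • u - d • u = p + (t - d) • u by module] at h7
    simp only [hg]
    linarith
  have key := le_chord_of_midpoint hc hmid hl0 hl1 hrq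
  have e : η z = (1 - l) * η (T (p + r • u)) + l * η (T (p + q • u))
      - η (T (p + ((1 - l) * r + l * q) • u)) := by
    rw [hz, map_sub, map_add, map_smul, map_smul, smul_eq_mul, smul_eq_mul]
  simp only [hg] at key
  rw [← hη2, e]
  linarith

variable [CompleteSpace Y]

/-- The one-sided directional derivative of `T`. -/
noncomputable def dT (T : X → Y) (a u : X) : Y :=
  limUnder (𝓝[>] (0 : ℝ)) fun t => t⁻¹ • (T (a + t • u) - T a)

omit [CompleteSpace Y] in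
lemma quot_dist (hT : IsTingley T T') {C : ℝ} (hC : Ctrl T C) {a u : X} (ha : a ≠ 0) {s t : ℝ}
    (hs : 0 < s) (hst : s ≤ t) (htu : t * ‖u‖ ≤ ‖a‖ / 2) :
    ‖t⁻¹ • (T (a + t • u) - T a) - s⁻¹ • (T (a + s • u) - T a)‖
      ≤ C * (t⁻¹ * (‖a + t • u‖ - ‖a‖) - s⁻¹ * (‖a + s • u‖ - ‖a‖)
        + ‖u‖ ^ 2 / ‖a‖ * (t - s)) := by
  have ht : 0 < t := hs.trans_le hst
  have hr : 0 < ‖a‖ := norm_pos_iff.2 ha
  have hI : ∀ τ ∈ Icc (0 : ℝ) t, ‖a‖ / 2 ≤ ‖a + τ • u‖ := by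
    intro τ hτ
    have := norm_sub_norm_le a (-(τ • u))
    rw [sub_neg_eq_add, norm_neg, norm_smul, Real.norm_of_nonneg hτ.1] at this
    have := mul_le_mul_of_nonneg_right hτ.2 (norm_nonneg u)
    linarith
  have h := segment_ctrl hT hC (half_pos hr) hI subset_rfl (l := s / t) (by positivity)
    ((div_le_one ht).2 hst) ht.le
  rw [mul_zero, zero_add, div_mul_cancel₀ _ ht.ne', zero_smul, add_zero] at h
  have e1 : t⁻¹ • (T (a + t • u) - T a) - s⁻¹ • (T (a + s • u) - T a)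
      = s⁻¹ • ((1 - s / t) • T a + (s / t) • T (a + t • u) - T (a + s • u)) := by
    match_scalars <;> field_simp
    ring
  rw [e1, norm_smul, norm_inv, Real.norm_of_nonneg hs.le, inv_mul_le_iff₀ hs]
  refine h.trans (le_of_eq ?_)
  field_simp
  ring

/-- The one-sided directional derivatives of `T` exist. -/
lemma tendsto_dT (hT : IsTingley T T') {C : ℝ} (hC : Ctrl T C) {a : X} (ha : a ≠ 0) (u : X) :
    Tendsto (fun t : ℝ => t⁻¹ • (T (a + t • u) - T a)) (𝓝[>] 0) (𝓝 (dT T a u)) := by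
  refine tendsto_nhds_limUnder (cauchy_map_iff_exists_tendsto.1 ?_)
  rw [Metric.cauchy_iff]
  refine ⟨inferInstance, fun ε hε => ?_⟩
  have hq := tendsto_Dn a u
  have hlin : Tendsto (fun t : ℝ => ‖u‖ ^ 2 / ‖a‖ * t) (𝓝[>] 0) (𝓝 0) := by
    have : Continuous fun t : ℝ => ‖u‖ ^ 2 / ‖a‖ * t := by fun_prop
    simpa using (this.tendsto 0).mono_left nhdsWithin_le_nhds
  have hsm : ∀ᶠ t in 𝓝[>] (0 : ℝ), t * ‖u‖ ≤ ‖a‖ / 2 := by
    have h0 : Tendsto (fun t : ℝ => t * ‖u‖) (𝓝[>] 0) (𝓝 0) := by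
      have : Continuous fun t : ℝ => t * ‖u‖ := by fun_prop
      simpa using (this.tendsto 0).mono_left nhdsWithin_le_nhds
    exact h0.eventually (eventually_le_nhds (half_pos (norm_pos_iff.2 ha)))
  have hε' : 0 < ε / (2 * (C + 1)) := by have := hC.1; positivity
  have hall := (hsm.and ((hq.eventually (eventually_lt_nhds
    (show Dn a u < Dn a u + ε / (2 * (C + 1)) by linarith))).and
    (hlin.eventually (eventually_lt_nhds hε')))).and self_mem_nhdsWithin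
  refine ⟨_, image_mem_map hall, ?_⟩
  rintro _ ⟨t, ⟨⟨ht1, ht2, ht3⟩, (ht0 : 0 < t)⟩, rfl⟩ _ ⟨s, ⟨⟨hs1, hs2, hs3⟩, (hs0 : 0 < s)⟩, rfl⟩
  have key : ∀ s t : ℝ, 0 < s → s ≤ t → t * ‖u‖ ≤ ‖a‖ / 2 →
      t⁻¹ * (‖a + t • u‖ - ‖a‖) < Dn a u + ε / (2 * (C + 1)) →
      ‖u‖ ^ 2 / ‖a‖ * t < ε / (2 * (C + 1)) →
      ‖t⁻¹ • (T (a + t • u) - T a) - s⁻¹ • (T (a + s • u) - T a)‖ < ε := by
    intro s t hs hst h1 h2 h3
    have h4 := quot_dist hT hC ha hs hst h1
    have h5 := Dn_le_quot a u hs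
    have h6 : 0 ≤ ‖u‖ ^ 2 / ‖a‖ * s := by positivity
    have h7 : (C + 1) * (2 * (ε / (2 * (C + 1)))) = ε := by
      have := hC.1
      field_simp
    nlinarith [hC.1]
  rw [dist_eq_norm]
  rcases le_total s t with h | h
  · exact key s t hs0 h ht1 ht2 ht3
  · rw [norm_sub_rev]
    exact key t s ht0 h hs1 hs2 hs3

end Map

end Vale.Agent.P084.Inf
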