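import Mathlib.Analysis.Calculus.FDeriv.Basic
import Mathlib.Analysis.Calculus.MeanValue
import Vale.Agent.P084.Inf.DirDeriv

/-!
A norm with quadratically small second differences is Fréchet differentiable.
-/

namespace Vale.Agent.P084.Inf

open Filter Topology

variable {E : Type*} [NormedAddCommGroup E] [NormedSpace ℝ E]

lemma Dn_add_neg_le_nd (a u : E) : Dn a u + Dn a (-u) ≤ nd a u := by
  have h1 := norm_add_ge a u
  have h2 := norm_add_ge a (-u)
  rw [← sub_eq_add_neg] at h2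
  simp only [nd]
  linarith

lemma smooth_of_quadratic {b : E} {C r : ℝ} (hr : 0 < r)
    (h : ∀ u : E, ‖u‖ < r → nd b u ≤ C * ‖u‖ ^ 2) : Smooth b := by
  intro u
  refine le_antisymm ?_ (Dn_add_neg_nonneg b u)
  have hlim : Tendsto (fun t : ℝ => t * (C * ‖u‖ ^ 2)) (𝓝[>] 0) (𝓝 0) :=
    ((continuous_id.mul continuous_const).tendsto' 0 0 (zero_mul _)).mono_left nhdsWithin_le_nhds
  have hsm : ∀ᶠ t in 𝓝[>] (0 : ℝ), t * ‖u‖ < r :=
    (((continuous_id.mul continuous_const).tendsto' 0 0 (zero_mul _)).mono_left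
      nhdsWithin_le_nhds).eventually (eventually_lt_nhds hr)
  refine ge_of_tendsto hlim ?_
  filter_upwards [hsm, self_mem_nhdsWithin] with t ht (ht0 : 0 < t)
  have h1 := Dn_add_neg_le_nd b (t • u)
  rw [← smul_neg, Dn_smul b u ht0.le, Dn_smul b (-u) ht0.le] at h1
  have h2 := h (t • u) (by rwa [norm_smul, Real.norm_of_nonneg ht0.le])
  rw [norm_smul, Real.norm_of_nonneg ht0.le, mul_pow] at h2
  nlinarith

/-- Quadratically small second differences give Fréchet differentiability. -/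
theorem differentiableAt_norm_of_quadratic {b : E} {C r : ℝ} (hr : 0 < r)
    (h : ∀ u : E, ‖u‖ < r → nd b u ≤ C * ‖u‖ ^ 2) : DifferentiableAt ℝ (fun x : E => ‖x‖) b := by
  have hs := smooth_of_quadratic hr h
  let L : E →ₗ[ℝ] ℝ :=
    { toFun := Dn b, map_add' := hs.map_add, map_smul' := fun c u => hs.map_smul c u }
  let Lc : E →L[ℝ] ℝ := L.mkContinuous 1 fun u => by
    rw [one_mul, Real.norm_eq_abs]; exact abs_Dn_le b u
  refine ⟨Lc, ?_⟩
  rw [hasFDerivAt_iff_isLittleO_nhds_zero, Asymptotics.isLittleO_iff]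
  intro c hc
  filter_upwards [Metric.ball_mem_nhds (0 : E)
    (show 0 < min r (c / (|C| + 1)) by positivity)] with u hu
  rw [mem_ball_zero_iff, lt_min_iff, lt_div_iff₀ (by positivity)] at hu
  show ‖‖b + u‖ - ‖b‖ - Dn b u‖ ≤ c * ‖u‖
  have h0 : 0 ≤ gap b u := gap_nonneg b u
  have h1 := gap_le_nd b u
  rw [hs u] at h1
  simp only [gap] at h0 h1
  rw [Real.norm_of_nonneg h0]
  have h2 := h u hu.1
  have h3 := mul_le_mul_of_nonneg_left hu.2.le (norm_nonneg u)
  have h4 := mul_le_mul_of_nonneg_right (le_abs_self C) (sq_nonneg ‖u‖)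
  nlinarith

end Vale.Agent.P084.Inf
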