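import Vale.Agent.P084.Inf.Midpoint

/-!
Elementary facts about rays, slopes and second differences used for the bound on second differences.
-/

namespace Vale.Agent.P084.Inf

variable {E : Type*} [NormedAddCommGroup E] [NormedSpace ℝ E]

lemma slope_down (c q : E) {σ τ : ℝ} (hσ : 0 ≤ σ) (hτ : 0 ≤ τ) :
    σ * ‖c‖ + τ * (‖c‖ - ‖c + q‖) ≤ ‖σ • c - τ • q‖ := by
  have h3 := norm_add_le (τ • (c + q)) (σ • c - τ • q)
  rw [show τ • (c + q) + (σ • c - τ • q) = (σ + τ) • c by module, norm_smul, norm_smul,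
    Real.norm_of_nonneg hτ, Real.norm_of_nonneg (by linarith)] at h3
  linarith

lemma slope_up (w q : E) {τ : ℝ} (hτ : 0 ≤ τ) :
    ‖w‖ + τ * (‖w‖ - ‖w - q‖) ≤ ‖w + τ • q‖ := by
  have h3 := norm_add_le (τ • (w - q)) (w + τ • q)
  rw [show τ • (w - q) + (w + τ • q) = (1 + τ) • w by module, norm_smul, norm_smul,
    Real.norm_of_nonneg hτ, Real.norm_of_nonneg (by linarith)] at h3
  linarith

lemma nd_scaled_le (c e : E) {σ M B : ℝ} (hσ : 1 / 4 ≤ σ) (hM : σ ≤ M)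
    (hB : nd c ((4 : ℝ) • e) ≤ B) : nd (σ • c) e ≤ M * B := by
  rw [nd_smul_base c e (by linarith)]
  have h4 : nd c (σ⁻¹ • e) ≤ nd c ((4 : ℝ) • e) :=
    nd_smul_mono c e (inv_nonneg.2 (by linarith))
      (by rw [inv_le_comm₀ (by linarith) (by norm_num)]; linarith)
  exact mul_le_mul hM (h4.trans hB) (nd_nonneg _ _) (by linarith)

/-- A ray which dips into the ball meets the sphere close to where it is expected. -/
lemma exists_crossing (P c : E) {r c' : ℝ} (hr : 0 ≤ r) (hc' : 0 < c') (hrc : r ≤ c' / 256)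
    (h1 : |‖P - (1 : ℝ) • c‖ - 1| ≤ r) (h2 : ‖P - (1 / 2 : ℝ) • c‖ ≤ 1 - c' / 4) :
    ∃ σ, |1 - σ| ≤ 4 * r / c' ∧ ‖P - σ • c‖ = 1 := by
  set g : ℝ → ℝ := fun σ => ‖P - σ • c‖ with hg
  have hconv : ∀ u w θ : ℝ, 0 ≤ θ → θ ≤ 1 →
      g ((1 - θ) * u + θ * w) ≤ (1 - θ) * g u + θ * g w := by
    intro u w θ h3 h4
    show ‖_‖ ≤ _
    rw [show P - ((1 - θ) * u + θ * w) • c
      = (1 - θ) • (P - u • c) + θ • (P - w • c) by module]
    refine (norm_add_le _ _).trans (le_of_eq ?_)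
    rw [norm_smul, norm_smul, Real.norm_of_nonneg h3, Real.norm_of_nonneg (sub_nonneg.2 h4)]
  obtain ⟨g1l, g1u⟩ := abs_le.1 (show |g 1 - 1| ≤ r from h1)
  have hgh : g (1 / 2) ≤ 1 - c' / 4 := h2
  set ε := 4 * r / c' with hεdef
  have hε : ε * c' = 4 * r := div_mul_cancel₀ _ hc'.ne'
  have hε0 : 0 ≤ ε := div_nonneg (by linarith) hc'.le
  have hε64 : ε ≤ 1 / 64 := by rw [hεdef, div_le_iff₀ hc']; linarith
  have hεr : 0 ≤ ε * r := mul_nonneg hε0 hr
  have hlo : g (1 - ε) ≤ 1 := by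
    have := hconv 1 (1 / 2) (2 * ε) (by linarith) (by linarith)
    rw [show (1 - 2 * ε) * 1 + 2 * ε * (1 / 2) = 1 - ε by ring] at this
    have b1 := mul_le_mul_of_nonneg_left g1u (show 0 ≤ 1 - 2 * ε by linarith)
    have b2 := mul_le_mul_of_nonneg_left hgh hε0
    linarith
  have hhi : 1 ≤ g (1 + ε) := by
    have h3 : 0 < ε + 1 / 2 := by linarith
    have := hconv (1 + ε) (1 / 2) (ε / (ε + 1 / 2)) (by positivity)
      ((div_le_one h3).2 (by linarith))
    rw [show (1 - ε / (ε + 1 / 2)) * (1 + ε) + ε / (ε + 1 / 2) * (1 / 2) = 1 by field_simp; ring]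
      at this
    rw [← mul_le_mul_iff_of_pos_right h3] at this
    have e4 : ((1 - ε / (ε + 1 / 2)) * g (1 + ε) + ε / (ε + 1 / 2) * g (1 / 2)) * (ε + 1 / 2)
        = 1 / 2 * g (1 + ε) + ε * g (1 / 2) := by field_simp; ring
    have b2 := mul_le_mul_of_nonneg_left hgh hε0
    have b3 := mul_le_mul_of_nonneg_right (show 1 - r ≤ g 1 by linarith) h3.le
    have b4 := mul_le_mul_of_nonneg_right hε64 hr
    linarith
  obtain ⟨σ, hσ, hσn⟩ := intermediate_value_Icc (show 1 - ε ≤ 1 + ε by linarith) (f := g)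
    (by simp only [hg]; fun_prop) (show (1 : ℝ) ∈ Set.Icc _ _ from ⟨hlo, hhi⟩)
  exact ⟨σ, abs_le.2 ⟨by linarith [hσ.2], by linarith [hσ.1]⟩, hσn⟩

/-- Normalising a point near the sphere at most doubles its distance to a point of the sphere. -/
lemma norm_sub_le_two {x w a : E} {p : ℝ} (hx : ‖x‖ = 1) (hw : w = p • x)
    (hp : |p - 1| ≤ ‖w - a‖) : ‖x - a‖ ≤ 2 * ‖w - a‖ := by
  have h3 := norm_sub_le_norm_sub_add_norm_sub x w a
  rw [show x - w = (1 - p) • x by rw [hw]; module, norm_smul, hx, mul_one, Real.norm_eq_abs,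
    abs_sub_comm] at h3
  linarith

end Vale.Agent.P084.Inf
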