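import Mathlib.Analysis.Calculus.Rademacher
import Mathlib.Analysis.Calculus.LocalExtr.Basic
import Mathlib.MeasureTheory.Function.Jacobian
import Mathlib.MeasureTheory.Measure.Hausdorff

/-!
A function whose gradient map is Lipschitz with singular derivative almost everywhere has no
compact isolated contact set with any of its supporting affine functions.
-/

namespace Vale.Agent.P084.Inf

open Filter Topology Set MeasureTheory Module
open scoped NNReal

variable {E : Type*} [NormedAddCommGroup E] [NormedSpace ℝ E] [FiniteDimensional ℝ E]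

/-- A Lipschitz image of a set where the derivative is singular almost everywhere is null. -/
lemma image_null_of_det_eq_zero [MeasurableSpace E] [BorelSpace E] {G : E → E} {C : ℝ≥0}
    {U : Set E} (hU : IsOpen U) (hG : LipschitzOnWith C G U)
    (hdet : ∀ᵐ y ∂(μH[(finrank ℝ E : ℝ)] : Measure E), y ∈ U →
      ∀ D : E →L[ℝ] E, HasFDerivAt G D y → D.det = 0) :
    (μH[(finrank ℝ E : ℝ)] : Measure E) (G '' U) = 0 := by
  set μ : Measure E := μH[(finrank ℝ E : ℝ)]
  have hd : ∀ᵐ y ∂μ, y ∈ U → DifferentiableAt ℝ G y ∧ (fderiv ℝ G y).det = 0 := by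
    filter_upwards [hG.ae_differentiableWithinAt_of_mem (μ := μ), hdet] with y h1 h2 hy
    have h3 := (h1 hy).differentiableAt (hU.mem_nhds hy)
    exact ⟨h3, h2 hy _ h3.hasFDerivAt⟩
  set N : Set E := {y | y ∈ U ∧ ¬(DifferentiableAt ℝ G y ∧ (fderiv ℝ G y).det = 0)}
  have hN : μ N = 0 := by
    refine measure_mono_null (fun y hy => ?_) (ae_iff.1 hd)
    exact fun h => hy.2 (h hy.1)
  have h1 : μ (G '' N) = 0 := by
    refine nonpos_iff_eq_zero.1 (((hG.mono fun y hy => hy.1).hausdorffMeasure_image_le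
      (Nat.cast_nonneg _)).trans ?_)
    rw [hN, mul_zero]
  have h2 : μ (G '' (U \ N)) = 0 := by
    refine addHaar_image_eq_zero_of_det_fderivWithin_eq_zero μ (f' := fun y => fderiv ℝ G y) ?_ ?_
    · intro y hy
      exact (not_not.1 fun h => hy.2 ⟨hy.1, h⟩).1.hasFDerivAt.hasFDerivWithinAt
    · intro y hy
      exact (not_not.1 fun h => hy.2 ⟨hy.1, h⟩).2
  refine measure_mono_null ?_ (measure_union_null h1 h2)
  rintro _ ⟨y, hy, rfl⟩
  by_cases h : y ∈ N
  · exact Or.inl ⟨y, h, rfl⟩
  · exact Or.inr ⟨y, ⟨hy, h⟩, rfl⟩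

/-- If the gradient map is singular almost everywhere, the contact set of a supporting affine
function reaches the frontier. -/
theorem exists_frontier_contact [MeasurableSpace E] [BorelSpace E] (e : (E →L[ℝ] ℝ) ≃L[ℝ] E)
    {B : Set E} (hB : IsCompact B) {x : E} (hx : x ∈ interior B) {f : E → ℝ}
    {g : E → E →L[ℝ] ℝ} (hg : ∀ y ∈ B, HasFDerivAt f (g y) y) {C : ℝ≥0}
    (hL : LipschitzOnWith C g B)
    (hdet : ∀ᵐ y ∂(μH[(finrank ℝ E : ℝ)] : Measure E), y ∈ interior B →
      ∀ D : E →L[ℝ] E, HasFDerivAt (fun z => e (g z)) D y → D.det = 0)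
    (hsupp : ∀ y ∈ B, f x + g x (y - x) ≤ f y) :
    ∃ y ∈ frontier B, f y = f x + g x (y - x) := by
  by_contra hno
  push Not at hno
  have hxB : x ∈ B := interior_subset hx
  have hfB : frontier B ⊆ B := hB.isClosed.frontier_subset
  have hfc : IsCompact (frontier B) := hB.of_isClosed_subset isClosed_frontier hfB
  have hcont : ContinuousOn f B := fun y hy => (hg y hy).continuousAt.continuousWithinAt
  obtain ⟨δ, hδ, hδB⟩ := hfc.exists_forall_le' (f := fun y => f y - (f x + g x (y - x))) (a := 0)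
    ((hcont.mono hfB).sub (Continuous.continuousOn (by fun_prop)))
    (fun y hy => sub_pos.2 (lt_of_le_of_ne (hsupp y (hfB hy)) (hno y hy).symm))
  obtain ⟨R, hR⟩ := hB.isBounded.exists_norm_le
  have hR0 : 0 ≤ R := (norm_nonneg x).trans (hR x hxB)
  set η : ℝ := δ / (2 * R + 1)
  have hη : 0 < η := by positivity
  have hsub : Metric.ball (g x) η ⊆ g '' interior B := by
    intro ψ hψ
    rw [Metric.mem_ball, dist_eq_norm] at hψ
    obtain ⟨y, hy, hmin⟩ := hB.exists_isMinOn ⟨x, hxB⟩ (f := fun z => f z - ψ z)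
      (hcont.sub ψ.continuous.continuousOn)
    have hyint : y ∈ interior B := by
      by_contra hn
      have hyf : y ∈ frontier B := by
        rw [hB.isClosed.frontier_eq]
        exact ⟨hy, hn⟩
      have h1 : δ ≤ f y - (f x + g x (y - x)) := hδB y hyf
      have h2 : f y - ψ y ≤ f x - ψ x := hmin hxB
      have h3 : (ψ - g x) (y - x) ≤ η * (2 * R) := by
        refine (le_abs_self _).trans ((ψ - g x).le_of_opNorm_le hψ.le _ |>.trans ?_)
        refine mul_le_mul_of_nonneg_left ?_ hη.le
        linarith [norm_sub_le y x, hR y hy, hR x hxB]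
      have h4 : η * (2 * R) < δ := by
        rw [div_mul_eq_mul_div, div_lt_iff₀ (by linarith)]
        linarith
      simp only [_root_.sub_apply, map_sub] at h1 h3
      linarith
    refine ⟨y, hyint, ?_⟩
    have h5 := (hmin.isLocalMin (mem_interior_iff_mem_nhds.1 hyint)).hasFDerivAt_eq_zero
      ((hg y hy).sub ψ.hasFDerivAt)
    exact sub_eq_zero.1 h5
  have hnull := image_null_of_det_eq_zero (G := fun z => e (g z)) isOpen_interior
    (e.lipschitz.comp_lipschitzOnWith (hL.mono interior_subset)) hdet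
  have hopen : IsOpen (e '' Metric.ball (g x) η) := e.toHomeomorph.isOpenMap _ Metric.isOpen_ball
  refine (hopen.measure_pos (μH[(finrank ℝ E : ℝ)] : Measure E)
    ((Metric.nonempty_ball.2 hη).image e)).ne' (measure_mono_null ?_ hnull)
  rintro _ ⟨ψ, hψ, rfl⟩
  obtain ⟨y, hy, rfl⟩ := hsub hψ
  exact ⟨y, hy, rfl⟩

end Vale.Agent.P084.Inf
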