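import Vale.Agent.P084.Inf.Ultra
import Mathlib.Analysis.Normed.Module.HahnBanach
import Mathlib.Analysis.LocallyConvex.Separation

/-!
M2: common faces are preserved, uniformly.

In a separable space a maximal convex subset of the sphere is the star of a single point (a dense
countable convex combination), which makes the antipodal image of a maximal face a maximal face.
-/

namespace Vale.Agent.P084.Inf

open Filter Topology Metric
open scoped BoundedContinuousFunction

namespace FaceAux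

variable {X : Type*} [NormedAddCommGroup X] [NormedSpace ℝ X]

/-- A maximal convex subset of the unit sphere. -/
abbrev IsMaxFace (K : Set X) : Prop :=
  Maximal (fun s : Set X => Convex ℝ s ∧ ∀ x ∈ s, ‖x‖ = 1) K

lemma exists_maxFace_superset {s : Set X} (hs : Convex ℝ s) (hs' : ∀ x ∈ s, ‖x‖ = 1) :
    ∃ K, s ⊆ K ∧ IsMaxFace K := by
  refine zorn_subset_nonempty {t : Set X | Convex ℝ t ∧ ∀ x ∈ t, ‖x‖ = 1} (fun C hC hchain _ => ?_)
    s ⟨hs, hs'⟩
  refine ⟨⋃₀ C, ⟨hchain.directedOn.convex_sUnion fun t ht => (hC ht).1, ?_⟩,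
    fun t ht => Set.subset_sUnion_of_mem ht⟩
  rintro x ⟨t, ht, hxt⟩
  exact (hC ht).2 x hxt

lemma norm_add_eq_two {K : Set X} (hK : IsMaxFace K) {a b : X} (ha : a ∈ K) (hb : b ∈ K) :
    ‖a + b‖ = 2 := by
  have h := hK.1.2 _ (hK.1.1 ha hb (by norm_num : (0 : ℝ) ≤ 1 / 2) (by norm_num : (0 : ℝ) ≤ 1 / 2)
    (by norm_num))
  rw [← smul_add, norm_smul] at h
  norm_num at h
  linarith

lemma norm_segment {a b : X} (ha : ‖a‖ = 1) (hb : ‖b‖ = 1) (h : ‖a + b‖ = 2) :
    ∀ w ∈ segment ℝ a b, ‖w‖ = 1 := by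
  rintro w ⟨s, t, hs, ht, hst, rfl⟩
  have h1 : ‖s • a + t • b‖ ≤ 1 := by
    refine (norm_add_le _ _).trans_eq ?_
    rw [norm_smul, norm_smul, Real.norm_of_nonneg hs, Real.norm_of_nonneg ht, ha, hb, mul_one,
      mul_one, hst]
  have h2 : ‖t • a + s • b‖ ≤ 1 := by
    refine (norm_add_le _ _).trans_eq ?_
    rw [norm_smul, norm_smul, Real.norm_of_nonneg hs, Real.norm_of_nonneg ht, ha, hb, mul_one,
      mul_one, add_comm, hst]
  have h3 := norm_add_le (s • a + t • b) (t • a + s • b)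
  rw [add_add_add_comm, ← add_smul, ← add_smul, hst, add_comm t s, hst, one_smul, one_smul, h]
    at h3
  linarith

/-- In a separable Banach space a maximal face is the star of one of its points. -/
lemma exists_centre [CompleteSpace X] [TopologicalSpace.SeparableSpace X] {K : Set X}
    (hK : IsMaxFace K) (hne : K.Nonempty) :
    ∃ c ∈ K, ∀ z, ‖z‖ = 1 → ‖z + c‖ = 2 → z ∈ K := by
  obtain ⟨D, hDK, hDc, hKD⟩ :=
    (TopologicalSpace.IsSeparable.of_separableSpace K).exists_countable_dense_subset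
  have hDne : D.Nonempty := closure_nonempty_iff.1 (hne.mono hKD)
  obtain ⟨k, rfl⟩ := hDc.exists_eq_range hDne
  have hk : ∀ n, k n ∈ K := fun n => hDK ⟨n, rfl⟩
  set w : ℕ → ℝ := fun n => 1 / 2 / 2 ^ n with hw
  have hw0 : ∀ n, 0 < w n := fun n => by positivity
  have hwsum : HasSum w 1 := hasSum_geometric_two' 1
  have hkw : ∀ n, ‖w n • k n‖ = w n := fun n => by
    rw [norm_smul, Real.norm_of_nonneg (hw0 n).le, hK.1.2 _ (hk n), mul_one]
  have hsum : Summable fun n => w n • k n :=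
    Summable.of_norm (by simpa [hkw] using hwsum.summable)
  set c := ∑' n, w n • k n with hc
  have hc1 : ‖c‖ ≤ 1 := by
    refine (norm_tsum_le_tsum_norm (by simpa [hkw] using hwsum.summable)).trans_eq ?_
    simp only [hkw]
    exact hwsum.tsum_eq
  have spread : ∀ (f : X →L[ℝ] ℝ) (u : ℝ), (∀ n, f (k n) ≤ u) → f c = u →
      ∀ x ∈ K, f x = u := by
    intro f u hle hfc
    have h1 : HasSum (fun n => w n * f (k n)) u := by
      have := (hsum.hasSum).mapL f
      simpa [← hc, hfc] using this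
    have h2 : HasSum (fun n => w n * (u - f (k n))) 0 := by
      simpa [mul_sub] using (hwsum.mul_right u).sub h1
    have h3 := (hasSum_zero_iff_of_nonneg
      (fun n => mul_nonneg (hw0 n).le (sub_nonneg.2 (hle n)))).1 h2
    have h4 : Set.range k ⊆ {x | f x = u} := by
      rintro _ ⟨n, rfl⟩
      rcases mul_eq_zero.1 (congrFun h3 n) with h | h
      · exact absurd h (hw0 n).ne'
      · exact (sub_eq_zero.1 h).symm
    exact fun x hx => closure_minimal h4 (isClosed_eq f.continuous continuous_const) (hKD hx)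
  have hcn : ‖c‖ = 1 := by
    obtain ⟨f, u, hf, hfK⟩ := geometric_hahn_banach_open (convex_ball (0 : X) 1) isOpen_ball
      hK.1.1 (Set.disjoint_left.2 fun x hx hxK => by
        rw [mem_ball_zero_iff, hK.1.2 x hxK] at hx
        exact lt_irrefl _ hx)
    have hu : 0 < u := by simpa using hf 0 (mem_ball_self one_pos)
    have hfle : ∀ x, f x ≤ u * ‖x‖ := fun x => by
      refine le_of_forall_pos_le_add fun ε hε => ?_
      have hpos : 0 < ‖x‖ + ε / u := by positivity
      have hb : (‖x‖ + ε / u)⁻¹ • x ∈ ball (0 : X) 1 := by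
        rw [mem_ball_zero_iff, norm_smul, norm_inv, Real.norm_of_nonneg hpos.le,
          ← div_eq_inv_mul, div_lt_one hpos]
        linarith [div_pos hε hu]
      have := hf _ hb
      rw [map_smul, smul_eq_mul, ← div_eq_inv_mul, div_lt_iff₀ hpos, mul_add,
        mul_div_cancel₀ _ hu.ne'] at this
      exact this.le
    have hfk : ∀ n, f (k n) = u := fun n => by
      have := hfle (k n)
      rw [hK.1.2 _ (hk n), mul_one] at this
      exact le_antisymm this (hfK _ (hk n))
    have hfc : f c = u := by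
      rw [hc, f.map_tsum hsum]
      simp [hfk, tsum_mul_right, hwsum.tsum_eq]
    refine le_antisymm hc1 ?_
    have := hfle c
    rw [hfc] at this
    exact le_of_mul_le_mul_left (by rwa [mul_one]) hu
  have key : ∀ z, ‖z‖ = 1 → ‖z + c‖ = 2 → z ∈ K ∧ c ∈ K := by
    intro z hz hzc
    obtain ⟨g, hg, hg2⟩ := exists_dual_vector ℝ (z + c) (by rw [hzc]; norm_num)
    replace hg2 : g (z + c) = 2 := by rw [hg2, hzc]; rfl
    have hgle : ∀ x, g x ≤ ‖x‖ := fun x =>
      (le_abs_self _).trans ((g.le_opNorm x).trans_eq (by rw [hg, one_mul]))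
    rw [map_add] at hg2
    have hgz : g z = 1 := by linarith [hgle z, hgle c]
    have hgc : g c = 1 := by linarith [hgle z, hgle c]
    set K' : Set X := closedBall 0 1 ∩ {x | g x = 1}
    have hK' : Convex ℝ K' ∧ ∀ x ∈ K', ‖x‖ = 1 :=
      ⟨(convex_closedBall _ _).inter (convex_hyperplane g.toLinearMap.isLinear 1), fun x hx =>
        le_antisymm (mem_closedBall_zero_iff.1 hx.1) ((hx.2.symm.le).trans (hgle x))⟩
    have hsub : K ⊆ K' := fun x hx => ⟨mem_closedBall_zero_iff.2 (hK.1.2 x hx).le,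
      spread g 1 (fun n => (hgle _).trans_eq (hK.1.2 _ (hk n))) hgc x hx⟩
    have := hK.2 hK' hsub
    exact ⟨this ⟨mem_closedBall_zero_iff.2 hz.le, hgz⟩,
      this ⟨mem_closedBall_zero_iff.2 hc1, hgc⟩⟩
  refine ⟨c, (key c hcn ?_).2, fun z hz hzc => (key z hz hzc).1⟩
  rw [← two_smul ℝ, norm_smul, hcn]
  norm_num

variable {Y : Type*} [NormedAddCommGroup Y] [NormedSpace ℝ Y] {T : X → Y} {T' : Y → X}

lemma norm_neg_map_add (hT : IsTingley T T') {a b : X} (h : ‖a‖ = ‖b‖) :
    ‖-T (-a) + T b‖ = ‖a + b‖ := by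
  rw [neg_add_eq_sub, hT.dist_map _ _ (by rw [norm_neg, h]), sub_neg_eq_add, add_comm]

/-- The separable case. -/
lemma norm_add_map_sep [CompleteSpace X] [CompleteSpace Y] [TopologicalSpace.SeparableSpace X]
    [TopologicalSpace.SeparableSpace Y] (hT : IsTingley T T') {x y : X} (hx : ‖x‖ = 1)
    (hy : ‖y‖ = 1) (h : ‖x + y‖ = 2) : ‖T x + T y‖ = 2 := by
  obtain ⟨K, hsK, hK⟩ := exists_maxFace_superset (convex_segment (-x) (-y))
    (norm_segment (by rw [norm_neg, hx]) (by rw [norm_neg, hy])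
      (by rw [← neg_add, norm_neg, h]))
  have hxK : -x ∈ K := hsK (left_mem_segment ℝ _ _)
  have hyK : -y ∈ K := hsK (right_mem_segment ℝ _ _)
  obtain ⟨c, hcK, hc⟩ := exists_centre hK ⟨_, hxK⟩
  have hTc : ‖T c‖ = 1 := by rw [hT.norm_map, hK.1.2 c hcK]
  obtain ⟨G, hTG, hG⟩ := exists_maxFace_superset (convex_singleton (T c)) (by simpa using hTc)
  have hTcG : T c ∈ G := hTG rfl
  obtain ⟨d, hdG, hd⟩ := exists_centre hG ⟨_, hTcG⟩
  set e := T' d with he
  have hen : ‖e‖ = 1 := by rw [he, hT.symm.norm_map, hG.1.2 d hdG]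
  have hsub : ∀ k, ‖k‖ = 1 → ‖k + e‖ = 2 → k ∈ K := by
    intro k hk hke
    have h1 : -T (-k) ∈ G := by
      refine hd _ (by rw [norm_neg, hT.norm_map, norm_neg, hk]) ?_
      rw [← hT.right d, norm_neg_map_add hT (hk.trans hen.symm), hke]
    refine hc k hk ?_
    rw [← norm_neg_map_add hT (hk.trans (hK.1.2 c hcK).symm)]
    exact norm_add_eq_two hG h1 hTcG
  have heK : e ∈ K := hsub e hen (by rw [← two_smul ℝ, norm_smul, hen]; norm_num)
  have hmem : ∀ k ∈ K, -T (-k) ∈ G := fun k hk => by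
    refine hd _ (by rw [norm_neg, hT.norm_map, norm_neg, hK.1.2 k hk]) ?_
    rw [← hT.right d, norm_neg_map_add hT ((hK.1.2 k hk).trans hen.symm)]
    exact norm_add_eq_two hK hk heK
  have := norm_add_eq_two hG (hmem _ hxK) (hmem _ hyK)
  rwa [neg_neg, neg_neg, ← neg_add, norm_neg] at this

end FaceAux

variable {X Y : Type*} [NormedAddCommGroup X] [NormedSpace ℝ X] [NormedAddCommGroup Y]
  [NormedSpace ℝ Y] [CompleteSpace X] [CompleteSpace Y] {T : X → Y} {T' : Y → X}

/-- Two unit vectors in a common face have images in a common face. -/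
theorem norm_add_map (hT : IsTingley T T') {x y : X} (hx : ‖x‖ = 1) (hy : ‖y‖ = 1)
    (h : ‖x + y‖ = 2) : ‖T x + T y‖ = 2 := by
  obtain ⟨X₀, Y₀, hs, hX, hY, hsX, hsY, -, -, T₀, T₀', hT₀, hT₀v, -⟩ :=
    exists_separable_pair hT (Set.toFinite ({x, y} : Set X)).countable
  have : CompleteSpace X₀ := hX.completeSpace_coe
  have : CompleteSpace Y₀ := hY.completeSpace_coe
  have := FaceAux.norm_add_map_sep hT₀ (x := ⟨x, hs (by simp)⟩) (y := ⟨y, hs (by simp)⟩)
    (by simpa using hx) (by simpa using hy) (by simpa using h)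
  simpa [hT₀v] using this

/-- Uniformly so. -/
theorem exists_off_modulus (hT : IsTingley T T') {c : ℝ} (hc : 0 < c) :
    ∃ c' > 0, ∀ x y : X, ‖x‖ = 1 → ‖y‖ = 1 → ‖T x + T y‖ ≤ 2 - c → ‖x + y‖ ≤ 2 - c' := by
  by_contra hcon
  push Not at hcon
  choose x y hx hy hT2 hxy using fun n : ℕ => hcon (1 / (n + 1)) Nat.one_div_pos_of_nat
  let F : ℕ →ᵇ X := .ofNormedAddCommGroupDiscrete x 1 fun n => (hx n).le
  let F' : ℕ →ᵇ X := .ofNormedAddCommGroupDiscrete y 1 fun n => (hy n).le
  let G : ℕ →ᵇ Y := .ofNormedAddCommGroupDiscrete (fun n => T (x n)) 1 fun n => by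
    rw [hT.norm_map, hx n]
  let G' : ℕ →ᵇ Y := .ofNormedAddCommGroupDiscrete (fun n => T (y n)) 1 fun n => by
    rw [hT.norm_map, hy n]
  obtain ⟨S, S', hS, hSv⟩ := exists_ultra hT
  have h1 : ‖Ultra.mk F‖ = 1 :=
    tendsto_nhds_unique (Ultra.tendsto_norm F) (tendsto_const_nhds.congr fun n => (hx n).symm)
  have h2 : ‖Ultra.mk F'‖ = 1 :=
    tendsto_nhds_unique (Ultra.tendsto_norm F') (tendsto_const_nhds.congr fun n => (hy n).symm)
  have h3 : ‖Ultra.mk F + Ultra.mk F'‖ = 2 := by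
    rw [← map_add]
    refine tendsto_nhds_unique (Ultra.tendsto_norm _) ?_
    have hup : ∀ n, ‖x n + y n‖ ≤ 2 := fun n =>
      (norm_add_le _ _).trans_eq (by rw [hx n, hy n]; norm_num)
    have hlow : Tendsto (fun n : ℕ => (2 : ℝ) - 1 / (n + 1)) atTop (𝓝 2) := by
      simpa using (tendsto_one_div_add_atTop_nhds_zero_nat (𝕜 := ℝ)).const_sub 2
    exact (tendsto_of_tendsto_of_tendsto_of_le_of_le hlow tendsto_const_nhds
      (fun n => (hxy n).le) hup).mono_left
        (hyperfilter_le_cofinite.trans Nat.cofinite_eq_atTop.le)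
  have h4 := norm_add_map hS h1 h2 h3
  rw [hSv F G fun _ => rfl, hSv F' G' fun _ => rfl, ← map_add] at h4
  have h5 := le_of_tendsto (Ultra.tendsto_norm (G + G'))
    (Eventually.of_forall fun n => hT2 n)
  linarith

end Vale.Agent.P084.Inf
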