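import Mathlib.Analysis.Normed.Module.Basic
import Mathlib.Topology.Order.IntermediateValue
import Vale.Agent.P084.Map

/-!
Midpoint inequalities for isometries of spheres and averaging of second differences by telescoping.
-/

namespace Vale.Agent.P084.Inf

open Filter Topology

section General

variable {E : Type*} [NormedAddCommGroup E] [NormedSpace ℝ E]

/-- Second symmetric difference of the norm. -/
noncomputable def nd (c e : E) : ℝ := ‖c + e‖ + ‖c - e‖ - 2 * ‖c‖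

lemma nd_nonneg (c e : E) : 0 ≤ nd c e := by
  have h := norm_add_le (c + e) (c - e)
  rw [add_add_sub_cancel, ← two_smul ℝ c, norm_smul, Real.norm_ofNat] at h
  unfold nd
  linarith

lemma nd_le (c e : E) : nd c e ≤ 2 * ‖e‖ := by
  unfold nd
  linarith [norm_add_le c e, norm_sub_le c e]

lemma nd_smul_base (c e : E) {s : ℝ} (hs : 0 < s) : nd (s • c) e = s * nd c (s⁻¹ • e) := by
  have e1 : s • c + e = s • (c + s⁻¹ • e) := by rw [smul_add, smul_inv_smul₀ hs.ne']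
  have e2 : s • c - e = s • (c - s⁻¹ • e) := by rw [smul_sub, smul_inv_smul₀ hs.ne']
  simp only [nd, e1, e2, norm_smul, Real.norm_of_nonneg hs.le]
  ring

lemma nd_smul_mono (c e : E) {t u : ℝ} (ht : 0 ≤ t) (htu : t ≤ u) : nd c (t • e) ≤ nd c (u • e) := by
  rcases eq_or_lt_of_le (ht.trans htu) with h | h
  · rw [← h, le_antisymm (h ▸ htu) ht]
  set θ := t / u with hθ
  have hθ0 : 0 ≤ θ := div_nonneg ht h.le
  have hθ1 : θ ≤ 1 := (div_le_one h).2 htu
  have hθu : θ * u = t := div_mul_cancel₀ t h.ne'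
  have h1 : ‖c + t • e‖ ≤ (1 - θ) * ‖c‖ + θ * ‖c + u • e‖ := by
    have e1 : c + t • e = (1 - θ) • c + θ • (c + u • e) := by rw [← hθu]; module
    rw [e1]
    refine (norm_add_le _ _).trans (le_of_eq ?_)
    rw [norm_smul, norm_smul, Real.norm_of_nonneg hθ0, Real.norm_of_nonneg (sub_nonneg.2 hθ1)]
  have h2 : ‖c - t • e‖ ≤ (1 - θ) * ‖c‖ + θ * ‖c - u • e‖ := by
    have e1 : c - t • e = (1 - θ) • c + θ • (c - u • e) := by rw [← hθu]; module
    rw [e1]
    refine (norm_add_le _ _).trans (le_of_eq ?_)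
    rw [norm_smul, norm_smul, Real.norm_of_nonneg hθ0, Real.norm_of_nonneg (sub_nonneg.2 hθ1)]
  have h3 := mul_le_mul_of_nonneg_right hθ1 (nd_nonneg c (u • e))
  rw [one_mul] at h3
  simp only [nd] at h3 ⊢
  linarith

/-- Some short shift makes the second difference quadratically small. -/
lemma exists_shift (c f : E) {r : ℝ} (hr : 0 < r) :
    ∃ p : E, ‖p‖ ≤ r ∧ nd (c + p) f ≤ 4 * ‖f‖ ^ 2 / r := by
  rcases lt_or_ge r ‖f‖ with hlt | hle
  · refine ⟨0, by simpa using hr.le, ?_⟩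
    rw [add_zero, le_div_iff₀ hr]
    nlinarith [nd_le c f, norm_nonneg f, nd_nonneg c f]
  rcases eq_or_ne f 0 with rfl | hf
  · refine ⟨0, by simpa using hr.le, ?_⟩
    have h := nd_le (c + 0) (0 : E)
    simp only [norm_zero, mul_zero] at h
    simpa using h
  have hf0 : 0 < ‖f‖ := norm_pos_iff.2 hf
  set N := ⌊r / ‖f‖⌋₊ with hN
  have hN1 : 1 ≤ N := Nat.le_floor (by rw [Nat.cast_one, le_div_iff₀ hf0, one_mul]; exact hle)
  have hNr : (N : ℝ) * ‖f‖ ≤ r := by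
    rw [← le_div_iff₀ hf0]
    exact Nat.floor_le (by positivity)
  have hNl : r ≤ 2 * ((N : ℝ) * ‖f‖) := by
    have h1 : r / ‖f‖ < N + 1 := Nat.lt_floor_add_one _
    rw [div_lt_iff₀ hf0] at h1
    nlinarith [(Nat.one_le_cast (α := ℝ)).2 hN1]
  let g : ℕ → ℝ := fun j => ‖c + ((j + 1 : ℕ) : ℝ) • f‖ - ‖c + (j : ℝ) • f‖
  have hsum : ∑ j ∈ Finset.range N, nd (c + ((j + 1 : ℕ) : ℝ) • f) f = g N - g 0 := by
    rw [← Finset.sum_range_sub g N]
    refine Finset.sum_congr rfl fun j _ => ?_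
    simp only [nd, g]
    rw [show c + ((j + 1 : ℕ) : ℝ) • f + f = c + ((j + 1 + 1 : ℕ) : ℝ) • f by push_cast; module,
      show c + ((j + 1 : ℕ) : ℝ) • f - f = c + (j : ℝ) • f by push_cast; module]
    ring
  have hg : ∀ j, |g j| ≤ ‖f‖ := fun j => (abs_norm_sub_norm_le _ _).trans (le_of_eq (by
    rw [show c + ((j + 1 : ℕ) : ℝ) • f - (c + (j : ℝ) • f) = f by push_cast; module]))
  obtain ⟨j, hj, hjle⟩ := Finset.exists_le_of_sum_le (s := Finset.range N)
    (f := fun j => nd (c + ((j + 1 : ℕ) : ℝ) • f) f) (g := fun _ => 4 * ‖f‖ ^ 2 / r)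
    (Finset.nonempty_range_iff.2 (by omega)) (by
      rw [hsum, Finset.sum_const, Finset.card_range, nsmul_eq_mul, mul_div_assoc', le_div_iff₀ hr]
      have := (abs_le.1 (hg N)).2
      have := (abs_le.1 (hg 0)).1
      nlinarith)
  refine ⟨((j + 1 : ℕ) : ℝ) • f, ?_, hjle⟩
  rw [norm_smul, Real.norm_natCast]
  refine le_trans ?_ hNr
  have : j + 1 ≤ N := Finset.mem_range.1 hj
  exact mul_le_mul_of_nonneg_right (by exact_mod_cast this) hf0.le

/-- A weighted average of the norm over a short segment. -/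
lemma weighted_le (c e : E) {l : ℝ} (h0 : 0 ≤ l) (h1 : l ≤ 1) :
    l * ‖c + (1 - l) • e‖ + (1 - l) * ‖c - l • e‖ ≤ ‖c‖ + nd c e := by
  have a1 : ‖c + (1 - l) • e‖ ≤ l * ‖c‖ + (1 - l) * ‖c + e‖ := by
    rw [show c + (1 - l) • e = l • c + (1 - l) • (c + e) by module]
    refine (norm_add_le _ _).trans (le_of_eq ?_)
    rw [norm_smul, norm_smul, Real.norm_of_nonneg h0, Real.norm_of_nonneg (sub_nonneg.2 h1)]
  have a2 : ‖c - l • e‖ ≤ (1 - l) * ‖c‖ + l * ‖c - e‖ := by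
    rw [show c - l • e = (1 - l) • c + l • (c - e) by module]
    refine (norm_add_le _ _).trans (le_of_eq ?_)
    rw [norm_smul, norm_smul, Real.norm_of_nonneg h0, Real.norm_of_nonneg (sub_nonneg.2 h1)]
  have b1 := mul_le_mul_of_nonneg_left a1 h0
  have b2 := mul_le_mul_of_nonneg_left a2 (sub_nonneg.2 h1)
  have b3 : l * (1 - l) ≤ 1 := by nlinarith
  have b4 := mul_le_mul_of_nonneg_right b3 (nd_nonneg c e)
  rw [one_mul] at b4
  simp only [nd] at b4 ⊢
  nlinarith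

/-- A ray from a point of the ball meets the sphere. -/
lemma exists_ray (P c : E) (hc : c ≠ 0) {σ₁ : ℝ} (hσ : 0 ≤ σ₁) (hP : ‖P - σ₁ • c‖ ≤ 1) :
    ∃ σ, σ₁ ≤ σ ∧ ‖P - σ • c‖ = 1 := by
  have hc0 : 0 < ‖c‖ := norm_pos_iff.2 hc
  set M := max σ₁ ((1 + ‖P‖) / ‖c‖) with hM
  have hM1 : 1 + ‖P‖ ≤ M * ‖c‖ := (div_le_iff₀ hc0).1 (le_max_right _ _)
  have hbig : 1 ≤ ‖P - M • c‖ := by
    have h := norm_sub_norm_le (M • c) P
    rw [norm_sub_rev (M • c), norm_smul, Real.norm_of_nonneg (hσ.trans (le_max_left _ _))] at h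
    linarith
  obtain ⟨σ, hσ', hf⟩ := intermediate_value_Icc (le_max_left σ₁ ((1 + ‖P‖) / ‖c‖))
    (f := fun σ => ‖P - σ • c‖) (by fun_prop) (show (1 : ℝ) ∈ Set.Icc _ _ from ⟨hP, hbig⟩)
  exact ⟨σ, hσ'.1, hf⟩

end General

variable {X Y : Type*} [NormedAddCommGroup X] [NormedSpace ℝ X] [NormedAddCommGroup Y]
  [NormedSpace ℝ Y] {T : X → Y} {T' : Y → X}

/-- The midpoint inequality. -/
lemma midpoint_le (hT : IsTingley T T') {xp xm y : X} (hp : ‖xp‖ = ‖y‖) (hm : ‖xm‖ = ‖y‖)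
    {l : ℝ} (h0 : 0 ≤ l) (h1 : l ≤ 1) :
    ‖l • xp + (1 - l) • xm - y‖
      ≤ ‖l • T xp + (1 - l) • T xm - T y‖ + nd (l • T xp + (1 - l) • T xm - T y) (T xp - T xm) := by
  refine le_trans ?_ (weighted_le _ _ h0 h1)
  rw [show l • T xp + (1 - l) • T xm - T y + (1 - l) • (T xp - T xm) = T xp - T y by module,
    show l • T xp + (1 - l) • T xm - T y - l • (T xp - T xm) = T xm - T y by module,
    hT.dist_map _ _ hp, hT.dist_map _ _ hm,
    show l • xp + (1 - l) • xm - y = l • (xp - y) + (1 - l) • (xm - y) by module]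
  refine (norm_add_le _ _).trans (le_of_eq ?_)
  rw [norm_smul, norm_smul, Real.norm_of_nonneg h0, Real.norm_of_nonneg (sub_nonneg.2 h1)]

/-- The midpoint inequality, reversed. -/
lemma midpoint_ge (hT : IsTingley T T') {xp xm y : X} (hp : ‖xp‖ = ‖y‖) (hm : ‖xm‖ = ‖y‖)
    {l : ℝ} (h0 : 0 ≤ l) (h1 : l ≤ 1) :
    ‖l • T xp + (1 - l) • T xm - T y‖
      ≤ ‖l • xp + (1 - l) • xm - y‖ + nd (l • xp + (1 - l) • xm - y) (xp - xm) := by
  have h := midpoint_le hT.symm (xp := T xp) (xm := T xm) (y := T y)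
    (by rw [hT.norm_map, hT.norm_map, hp]) (by rw [hT.norm_map, hT.norm_map, hm]) h0 h1
  simpa only [hT.left] using h

end Vale.Agent.P084.Inf
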