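import Mathlib.Topology.Baire.CompleteMetrizable
import Mathlib.Topology.Baire.Lemmas
import Vale.Agent.P084.Inf.Midpoint

/-! Superquadratic directions are generic when the norm is nowhere `C^{1,1}`. -/

namespace Vale.Agent.P084.Inf

open Topology

variable {E : Type*} [NormedAddCommGroup E] [NormedSpace ℝ E]

/-- Along some fixed direction the second differences of the norm are not quadratically small. -/
def SuperQuad (a : E) : Prop :=
  ∃ u : E, ∀ m : ℕ, ∀ r : ℝ, 0 < r → ∃ t : ℝ, 0 < t ∧ t < r ∧ (m : ℝ) * t ^ 2 < nd a (t • u)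

/-- The norm is not `C^{1,1}` on any nonempty open set. -/
def NowhereC11 (E : Type*) [NormedAddCommGroup E] [NormedSpace ℝ E] : Prop :=
  ∀ a : E, a ≠ 0 → ∀ r : ℝ, 0 < r → ∀ C : ℝ, ∃ b h : E, ‖b - a‖ < r ∧ ‖h‖ < r ∧
    C * ‖h‖ ^ 2 < nd b h

namespace ResidualAux

omit [NormedSpace ℝ E] in
lemma nd_zero (b : E) : nd b 0 = 0 := by
  simp only [nd, add_zero, sub_zero]
  ring

omit [NormedSpace ℝ E] in
lemma nd_neg (b x : E) : nd b (-x) = nd b x := by
  simp only [nd, ← sub_eq_add_neg, sub_neg_eq_add]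
  ring

omit [NormedSpace ℝ E] in
lemma continuous_nd_left (h : E) : Continuous fun b : E => nd b h := by
  unfold nd
  fun_prop

omit [NormedSpace ℝ E] in
lemma continuous_nd_right (b : E) : Continuous fun h : E => nd b h := by
  unfold nd
  fun_prop

/-- The second difference is convex in the increment. -/
lemma nd_half_le (b x y : E) : nd b ((2 : ℝ)⁻¹ • (x + y)) ≤ (nd b x + nd b y) / 2 := by
  have h1 := norm_add_le ((2 : ℝ)⁻¹ • (b + x)) ((2 : ℝ)⁻¹ • (b + y))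
  have h2 := norm_add_le ((2 : ℝ)⁻¹ • (b - x)) ((2 : ℝ)⁻¹ • (b - y))
  rw [show (2 : ℝ)⁻¹ • (b + x) + (2 : ℝ)⁻¹ • (b + y) = b + (2 : ℝ)⁻¹ • (x + y) by module] at h1
  rw [show (2 : ℝ)⁻¹ • (b - x) + (2 : ℝ)⁻¹ • (b - y) = b - (2 : ℝ)⁻¹ • (x + y) by module] at h2
  simp only [norm_smul, Real.norm_eq_abs, abs_inv, Nat.abs_ofNat] at h1 h2
  simp only [nd]
  linarith

/-- Points with a short increment of large second difference. -/
def bigSet (m : ℕ) : Set E :=
  {b | ∃ h : E, ‖h‖ < 1 / ((m : ℝ) + 1) ∧ ((m : ℝ) + 1) * ‖h‖ ^ 2 < nd b h}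

lemma isOpen_bigSet (m : ℕ) : IsOpen (bigSet m : Set E) := by
  have e : (bigSet m : Set E) = ⋃ h ∈ {h : E | ‖h‖ < 1 / ((m : ℝ) + 1)},
      {b | ((m : ℝ) + 1) * ‖h‖ ^ 2 < nd b h} := by
    ext b
    simp [bigSet]
  rw [e]
  exact isOpen_biUnion fun h _ => isOpen_lt continuous_const (continuous_nd_left h)

lemma dense_bigSet [Nontrivial E] (hE : NowhereC11 E) (m : ℕ) : Dense (bigSet m : Set E) := by
  rw [Metric.dense_iff]
  intro a r hr
  obtain ⟨a', ha', ha'r⟩ : ∃ a' : E, a' ≠ 0 ∧ ‖a' - a‖ < r / 2 := by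
    rcases eq_or_ne a 0 with rfl | ha
    · obtain ⟨x, hx⟩ := exists_ne (0 : E)
      refine ⟨(r / 4 / ‖x‖) • x, smul_ne_zero (by positivity) hx, ?_⟩
      rw [sub_zero, norm_smul, Real.norm_of_nonneg (by positivity),
        div_mul_cancel₀ _ (norm_ne_zero_iff.2 hx)]
      linarith
    · exact ⟨a, ha, by simpa using half_pos hr⟩
  obtain ⟨b, h, hb, hh, hnd⟩ := hE a' ha' (min (r / 2) (1 / ((m : ℝ) + 1)))
    (lt_min (half_pos hr) Nat.one_div_pos_of_nat) ((m : ℝ) + 1)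
  refine ⟨b, ?_, h, hh.trans_le (min_le_right _ _), hnd⟩
  rw [Metric.mem_ball, dist_eq_norm]
  linarith [norm_sub_le_norm_sub_add_norm_sub b a' a, hb.trans_le (min_le_left _ _)]

lemma superQuad_of_mem [CompleteSpace E] {b : E} (hb : ∀ m, b ∈ bigSet m) : SuperQuad b := by
  unfold SuperQuad
  by_contra hcon
  push Not at hcon
  let F : ℕ → Set E := fun M => ⋂ t ∈ Set.Ioc (0 : ℝ) (1 / ((M : ℝ) + 1)),
    {u | nd b (t • u) ≤ ((M : ℝ) + 1) * t ^ 2}
  have hF : ∀ M, IsClosed (F M) := fun M => isClosed_biInter fun t _ =>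
    isClosed_le ((continuous_nd_right b).comp (continuous_const_smul t)) continuous_const
  have hcov : ⋃ M, F M = Set.univ := by
    refine Set.eq_univ_of_forall fun u => ?_
    obtain ⟨m, r, hr, hu⟩ := hcon u
    obtain ⟨k, hk⟩ := exists_nat_one_div_lt hr
    refine Set.mem_iUnion.2 ⟨max m k, Set.mem_iInter₂.2 fun t ht => ?_⟩
    refine (hu t ht.1 ((ht.2.trans ?_).trans_lt hk)).trans ?_
    · exact one_div_le_one_div_of_le (by positivity) (by gcongr; exact le_max_right _ _)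
    · refine mul_le_mul_of_nonneg_right ?_ (sq_nonneg t)
      exact (show (m : ℝ) ≤ (max m k : ℕ) by gcongr; exact le_max_left _ _).trans (by linarith)
  obtain ⟨M, u₀, hu₀⟩ := nonempty_interior_of_iUnion_of_closed hF hcov
  obtain ⟨ρ, hρ, hball⟩ := Metric.isOpen_iff.1 isOpen_interior u₀ hu₀
  have hsmall : ∀ v : E, ‖v‖ < ρ → ∀ t : ℝ, 0 < t → t ≤ 1 / ((M : ℝ) + 1) →
      nd b (t • v) ≤ ((M : ℝ) + 1) * t ^ 2 := by
    intro v hv t ht htM
    have h1 : u₀ + v ∈ F M := interior_subset (hball (by simpa [Metric.mem_ball, dist_eq_norm]))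
    have h2 : u₀ - v ∈ F M := interior_subset (hball (by simpa [Metric.mem_ball, dist_eq_norm]))
    have h3 := Set.mem_iInter₂.1 h1 t ⟨ht, htM⟩
    have h4 := Set.mem_iInter₂.1 h2 t ⟨ht, htM⟩
    have h5 := nd_half_le b (t • (u₀ + v)) (-(t • (u₀ - v)))
    rw [nd_neg, show (2 : ℝ)⁻¹ • (t • (u₀ + v) + -(t • (u₀ - v))) = t • v by module] at h5
    simp only [Set.mem_ofPred_eq] at h3 h4
    linarith
  obtain ⟨m₁, hm₁⟩ := exists_nat_gt (4 * ((M : ℝ) + 1) / ρ ^ 2)
  obtain ⟨m₂, hm₂⟩ := exists_nat_one_div_lt (show 0 < ρ / 2 / ((M : ℝ) + 1) by positivity)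
  obtain ⟨h, hh, hnd⟩ := hb (max m₁ m₂)
  have hh0 : h ≠ 0 := by
    rintro rfl
    rw [nd_zero, norm_zero] at hnd
    simp at hnd
  have hhn : 0 < ‖h‖ := norm_pos_iff.2 hh0
  have hh' : ‖h‖ ≤ ρ / 2 / ((M : ℝ) + 1) := (hh.le.trans
    (one_div_le_one_div_of_le (by positivity) (by gcongr; exact le_max_right _ _))).trans hm₂.le
  have key := hsmall ((ρ / 2 / ‖h‖) • h) (by
      rw [norm_smul, Real.norm_of_nonneg (by positivity), div_mul_cancel₀ _ hhn.ne']
      linarith) (‖h‖ / (ρ / 2)) (by positivity) (by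
      rw [div_le_iff₀ (by positivity), one_div_mul_eq_div]
      exact hh')
  rw [smul_smul, div_mul_div_comm, mul_comm (ρ / 2) ‖h‖, div_self (by positivity), one_smul,
    div_pow, mul_div_assoc'] at key
  have hlt := hnd.trans_le key
  rw [show ((M : ℝ) + 1) * ‖h‖ ^ 2 / (ρ / 2) ^ 2 = 4 * ((M : ℝ) + 1) / ρ ^ 2 * ‖h‖ ^ 2 by ring]
    at hlt
  have : (m₁ : ℝ) ≤ (max m₁ m₂ : ℕ) := by gcongr; exact le_max_left _ _
  have h6 := lt_of_mul_lt_mul_right hlt (sq_nonneg _)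
  linarith

end ResidualAux

open ResidualAux

/-- Superquadratic points contain a countable intersection of dense open sets. -/
theorem exists_superQuad_residual [CompleteSpace E] (hE : NowhereC11 E) :
    ∃ A : ℕ → Set E, (∀ m, IsOpen (A m)) ∧ (∀ m, Dense (A m)) ∧
      ∀ a : E, a ≠ 0 → (∀ m, a ∈ A m) → SuperQuad a := by
  rcases subsingleton_or_nontrivial E with hsub | hnt
  · exact ⟨fun _ => Set.univ, fun _ => isOpen_univ, fun _ => dense_univ,
      fun a ha => absurd (Subsingleton.elim a 0) ha⟩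
  · exact ⟨bigSet, isOpen_bigSet, dense_bigSet hE, fun a _ ha => superQuad_of_mem ha⟩

end Vale.Agent.P084.Inf
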