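import Mathlib.Analysis.Convex.Cone.Extension
import Vale.Agent.P084.Inf.Generic

/-!
If the chord defects at a point are given by a vector, they vanish and the derivative is an
isometry.
-/

namespace Vale.Agent.P084.Inf

open Filter Topology Set TopologicalSpace Metric

section General

variable {E : Type*} [NormedAddCommGroup E] [NormedSpace ℝ E] {a : E}

lemma Dn_smul_base (z v : E) {c : ℝ} (hc : 0 < c) : Dn (c • z) v = Dn z v := by
  refine tendsto_nhds_unique (tendsto_Dn _ v)
    (((tendsto_Dn z v).comp (tendsto_const_mul_nhdsGT (inv_pos.2 hc))).congr' ?_)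
  filter_upwards [self_mem_nhdsWithin] with t (ht : 0 < t)
  simp only [Function.comp_apply]
  rw [show c • z + t • v = c • (z + (t * c⁻¹) • v) by match_scalars <;> field_simp, norm_smul,
    norm_smul, Real.norm_of_nonneg hc.le]
  field_simp

lemma Smooth.smul_base {z : E} (hz : Smooth z) {c : ℝ} (hc : 0 < c) : Smooth (c • z) := fun v => by
  rw [Dn_smul_base z v hc, Dn_smul_base z (-v) hc]
  exact hz v

lemma Dn_le_norm (z v : E) : Dn z v ≤ ‖v‖ := (abs_le.1 (abs_Dn_le z v)).2

lemma Dn_add_smul_self (ha : ‖a‖ = 1) (u : E) (l : ℝ) : Dn a (u + l • a) = Dn a u + l := by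
  have hl : Dn a (l • a) = l := by
    rcases le_total 0 l with h | h
    · rw [Dn_smul a a h, Dn_self, ha, mul_one]
    · refine tendsto_nhds_unique (tendsto_Dn a (l • a)) (tendsto_const_nhds.congr' ?_)
      have hev : ∀ᶠ t in 𝓝[>] (0 : ℝ), 0 < 1 + t * l := by
        have : Continuous fun t : ℝ => 1 + t * l := by fun_prop
        exact ((this.tendsto' 0 1 (by simp)).mono_left nhdsWithin_le_nhds).eventually
          (eventually_gt_nhds one_pos)
      filter_upwards [hev, self_mem_nhdsWithin] with t h1 (ht : 0 < t)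
      rw [show a + t • l • a = (1 + t * l) • a by module, norm_smul, ha, mul_one,
        Real.norm_of_nonneg h1.le]
      field_simp
      ring
  have hl' : Dn a (-(l • a)) = -l := by
    rcases le_total 0 l with h | h
    · have h1 := Dn_add_le a (l • a) (-(l • a))
      have h2 := Dn_add_le a u 0
      refine le_antisymm ?_ (by
        rw [add_neg_cancel] at h1
        have h0 := Dn_smul a a (le_refl (0 : ℝ))
        rw [zero_smul, zero_mul] at h0
        linarith)
      rw [← neg_smul]
      refine (le_of_eq (tendsto_nhds_unique (tendsto_Dn a ((-l) • a)) (tendsto_const_nhds.congr' ?_)))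
      have hev : ∀ᶠ t in 𝓝[>] (0 : ℝ), 0 < 1 + t * -l := by
        have : Continuous fun t : ℝ => 1 + t * -l := by fun_prop
        exact ((this.tendsto' 0 1 (by simp)).mono_left nhdsWithin_le_nhds).eventually
          (eventually_gt_nhds one_pos)
      filter_upwards [hev, self_mem_nhdsWithin] with t h1 (ht : 0 < t)
      rw [show a + t • (-l) • a = (1 + t * -l) • a by module, norm_smul, ha, mul_one,
        Real.norm_of_nonneg h1.le]
      field_simp
      ring
    · rw [← neg_smul, Dn_smul a a (neg_nonneg.2 h), Dn_self, ha, mul_one]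
  have h1 := Dn_add_le a u (l • a)
  have h2 := Dn_add_le a (u + l • a) (-(l • a))
  rw [add_neg_cancel_right] at h2
  linarith

lemma mem_cone_of_Dn_le (ha : ‖a‖ = 1) {u : E} (h : Dn a (-u) ≤ 0) {ε : ℝ} (hε : 0 < ε) :
    u + ε • a ∈ cone a := by
  show Dn a (-(u + ε • a)) < 0
  rw [show -(u + ε • a) = -u + (-ε) • a by module, Dn_add_smul_self ha]
  linarith

/-- A vector which does not shorten any chord direction vanishes. -/
lemma eq_zero_of_orth (ha : ‖a‖ = 1) {v : E} (h : ∀ w ∈ cone a, ∀ s : ℝ, ‖w‖ ≤ ‖w + s • v‖) :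
    v = 0 := by
  have haC : a ∈ cone a := mem_cone_of_interior one_pos (by simp [ha])
  obtain ⟨δ, hδ, hball⟩ := Metric.isOpen_iff.1 (isOpen_cone a) a haC
  set η := δ / (2 * (‖v‖ + 1)) with hη
  have hη0 : 0 < η := by positivity
  have hconst : ∀ s : ℝ, |s| ≤ η → ‖a + s • v‖ = 1 := by
    intro s hs
    have hin : a + s • v ∈ cone a := hball (by
      rw [mem_ball, dist_eq_norm, add_sub_cancel_left, norm_smul, Real.norm_eq_abs]
      refine lt_of_le_of_lt (mul_le_mul_of_nonneg_right hs (norm_nonneg v)) ?_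
      rw [hη, div_mul_eq_mul_div, div_lt_iff₀ (by positivity)]
      nlinarith [norm_nonneg v])
    have h1 := h _ hin (-s)
    rw [neg_smul, add_neg_cancel_right, ha] at h1
    have h2 := h a haC s
    rw [ha] at h2
    exact le_antisymm h1 h2
  have hline : ∀ M : ℝ, ‖a + M • v‖ ≤ 1 := by
    intro M
    set t := η / (2 * |M| + 2 * η) with ht
    have hden : 0 < 2 * |M| + 2 * η := by positivity
    have ht0 : 0 < t := by positivity
    have e : t * (2 * |M| + 2 * η) = η := div_mul_cancel₀ _ hden.ne'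
    have hp : 0 ≤ t * |M| := mul_nonneg ht0.le (abs_nonneg M)
    have ht1 : t ≤ 1 / 2 := by nlinarith
    have hin : a + M • v ∈ cone a := by
      refine mem_cone_of_interior ht0 ?_
      have hr : |-(t * M / (1 - t))| ≤ η := by
        rw [abs_neg, abs_div, abs_of_pos (show 0 < 1 - t by linarith), div_le_iff₀ (by linarith),
          abs_mul, abs_of_pos ht0]
        nlinarith
      rw [show a - t • (a + M • v) = (1 - t) • (a + (-(t * M / (1 - t))) • v) by
        match_scalars <;> field_simp [show (1 - t) ≠ 0 by linarith], norm_smul, hconst _ hr, ha,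
        Real.norm_of_nonneg (by linarith)]
      linarith
    have h1 := h _ hin (-M)
    rwa [neg_smul, add_neg_cancel_right, ha] at h1
  by_contra hv
  have hv0 : 0 < ‖v‖ := norm_pos_iff.2 hv
  have h1 := hline (3 / ‖v‖)
  have h2 := norm_sub_le (a + (3 / ‖v‖) • v) a
  rw [add_sub_cancel_left, norm_smul, Real.norm_of_nonneg (by positivity),
    div_mul_cancel₀ _ hv0.ne', ha] at h2
  linarith

/-- A linear functional below the derivative of the norm, exact on one vector. -/
lemma exists_le_Dn (a β : E) :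
    ∃ ω : E →ₗ[ℝ] ℝ, (∀ v, ω v ≤ Dn a v) ∧ ω β = Dn a β := by
  rcases eq_or_ne β 0 with rfl | hβ
  · have h0 : Dn a (0 : E) = 0 := by
      have := Dn_smul a a (le_refl (0 : ℝ))
      rwa [zero_smul, zero_mul] at this
    obtain ⟨ω, hω, hle⟩ := exists_extension_of_le_sublinear (⊥ : E →ₗ.[ℝ] ℝ) (Dn a)
      (fun c hc x => Dn_smul a x hc.le) (Dn_add_le a) (fun x => by
        rw [show x = 0 from Subtype.ext ((Submodule.mem_bot ℝ).1 x.2)]
        simp [h0])
    exact ⟨ω, hle, by rw [map_zero, h0]⟩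
  · obtain ⟨ω, hω, hle⟩ := exists_extension_of_le_sublinear
      (LinearPMap.mkSpanSingleton β (Dn a β) hβ) (Dn a) (fun c hc x => Dn_smul a x hc.le)
      (Dn_add_le a) (fun x => by
        obtain ⟨c, hc⟩ := Submodule.mem_span_singleton.1 x.2
        rw [show x = ⟨c • β, Submodule.smul_mem _ c (Submodule.mem_span_singleton_self β)⟩ from
          Subtype.ext hc.symm]
        rw [show (LinearPMap.mkSpanSingleton β (Dn a β) hβ)
            ⟨c • β, Submodule.smul_mem _ c (Submodule.mem_span_singleton_self β)⟩ = c • Dn a β from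
          LinearPMap.mkSpanSingleton'_apply _ _ _ c _]
        rcases le_total 0 c with h | h
        · rw [smul_eq_mul]; exact (Dn_smul a β h).ge
        · have h1 := Dn_add_le a (c • β) ((-c) • β)
          rw [← add_smul, add_neg_cancel, zero_smul, Dn_smul a β (neg_nonneg.2 h)] at h1
          have h2 := Dn_smul a β (le_refl (0 : ℝ))
          rw [zero_smul, zero_mul] at h2
          rw [smul_eq_mul]
          show c * Dn a β ≤ Dn a (c • β)
          linarith)
    refine ⟨ω, hle, ?_⟩
    have := hω ⟨β, Submodule.mem_span_singleton_self β⟩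
    rw [LinearPMap.mkSpanSingleton_apply] at this
    exact this

end General

namespace Sys

variable {X Y : Type*} [NormedAddCommGroup X] [NormedSpace ℝ X] [NormedAddCommGroup Y]
  [NormedSpace ℝ Y] {T : X → Y} {T' : Y → X} (hS : Sys T T') {a : X}
include hS

lemma srcVec_eq (ha : ‖a‖ = 1) (z : X) : srcVec a z = exitLen a z • z := by
  rw [srcVec, exitPt, sub_sub_cancel]

lemma Dn_src (ha : ‖a‖ = 1) {z : X} (hz : z ∈ cone a) (u : X) : Dn (srcVec a z) u = Dn z u := by
  rw [hS.srcVec_eq ha, Dn_smul_base _ _ (exitLen_spec ha hz).1]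

variable [CompleteSpace X] [CompleteSpace Y] [SeparableSpace X] [SeparableSpace Y]

/-- Every chord direction of the target is nearly the image of a good one. -/
lemma exists_good_near (ha : ‖a‖ = 1) {q : Y} (hq : q ∈ cone (T a)) {ε : ℝ} (hε : 0 < ε) :
    ∃ z ∈ Good T a, ∃ w, Smooth w ∧ ‖w - q‖ < ε ∧ ∀ v, Dn (imgDir T a z) v = Dn w v := by
  obtain ⟨w, ⟨hwB, -⟩, hw⟩ := hS.symm.exists_good (hS.norm_T ha)
    (O := ball q ε ∩ cone (T a)) (isOpen_ball.inter (isOpen_cone _)) inter_subset_right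
    ⟨q, mem_ball_self hε, hq⟩
  refine ⟨_, hS.good_symm ha hw, w, hw.2.1, mem_ball_iff_norm.1 hwB, fun v => ?_⟩
  have h2 := hS.symm.imgDir_imgDir (hS.norm_T ha) hw.1
  rw [hS.isT.left] at h2
  rw [h2, Dn_smul_base _ _ (exitLen_spec (hS.norm_T ha) hw.1).1]

/-- Good chords separate the points of the target. -/
lemma eq_zero_of_good (ha : ‖a‖ = 1) {v : Y} (h : ∀ z ∈ Good T a, Dn (imgDir T a z) v = 0) :
    v = 0 := by
  refine eq_zero_of_orth (hS.norm_T ha) fun q hq s => ?_
  refine le_of_forall_pos_le_add fun ε hε => ?_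
  obtain ⟨z, hz, w, hws, hwq, hw⟩ := hS.exists_good_near ha hq (half_pos hε)
  have h0 : Dn w v = 0 := by rw [← hw]; exact h z hz
  have h1 : ‖w‖ ≤ ‖w + s • v‖ := by
    have := Dn_le_norm w (w + s • v)
    rwa [hws.map_add, hws.map_smul, h0, mul_zero, add_zero, Dn_self] at this
  have h2 := norm_sub_norm_le q w
  have h3 := norm_add_le (q + s • v) (w - q)
  rw [show q + s • v + (w - q) = w + s • v by abel] at h3
  rw [norm_sub_rev] at h2
  linarith

/-- An upper bound for a vector in the cone from the good chords. -/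
lemma norm_le_of_good (ha : ‖a‖ = 1) {q : Y} (hq : q ∈ cone (T a)) {B : ℝ}
    (h : ∀ z ∈ Good T a, Dn (imgDir T a z) q ≤ B) : ‖q‖ ≤ B := by
  refine le_of_forall_pos_le_add fun ε hε => ?_
  obtain ⟨z, hz, w, -, hwq, hw⟩ := hS.exists_good_near ha hq (half_pos hε)
  have h1 := h z hz
  rw [hw] at h1
  have h2 := (abs_le.1 (abs_Dn_sub_le w w q)).2
  rw [Dn_self] at h2
  have h3 := norm_sub_norm_le q w
  rw [norm_sub_rev] at h3
  linarith

/-- Without defects the derivative at a smooth point does not expand. -/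
lemma norm_dT_le_of_defect_zero (ha : ‖a‖ = 1) (hs : Smooth a)
    (h : ∀ z ∈ Good T a, defect T a z = 0) (u : X) : ‖dT T a u‖ ≤ ‖u‖ := by
  obtain ⟨C, hC⟩ := hS.ctrl
  have ha0 : a ≠ 0 := norm_ne_zero_iff.1 (by rw [ha]; exact one_ne_zero)
  have key : ∀ p : X, dT T a p ∈ cone (T a) → ‖dT T a p‖ ≤ ‖p‖ := by
    intro p hp
    refine hS.norm_le_of_good ha hp fun z hz => ?_
    rw [hS.chord_identity ha hz, h z hz, mul_zero, add_zero]
    exact Dn_le_norm _ _
  have hpos : ∀ p : X, 0 ≤ Dn a p → ‖dT T a p‖ ≤ ‖p‖ := by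
    intro p hp
    refine le_of_forall_pos_le_add fun ε hε => ?_
    have hδ : 0 < ε / 4 := by linarith
    have hin : dT T a (p + (ε / 4) • a) ∈ cone (T a) := by
      show Dn (T a) (-dT T a (p + (ε / 4) • a)) < 0
      rw [← dT_neg_of_smooth hS.isT hC ha0 hs, Dn_dT hS.isT hC ha0]
      have := hs (p + (ε / 4) • a)
      rw [Dn_add_smul_self ha] at this
      linarith
    have h1 := key _ hin
    have h2 := norm_dT_sub_le hS.isT hC ha0 p (p + (ε / 4) • a)
    rw [show p - (p + (ε / 4) • a) = (-(ε / 4)) • a by module, norm_smul, ha, mul_one, norm_neg,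
      Real.norm_of_nonneg hδ.le] at h2
    have h3 := norm_le_norm_add_norm_sub' (dT T a p) (dT T a (p + (ε / 4) • a))
    have h4 := norm_add_le p ((ε / 4) • a)
    rw [norm_smul, ha, mul_one, Real.norm_of_nonneg hδ.le] at h4
    linarith
  rcases le_total 0 (Dn a u) with hu | hu
  · exact hpos u hu
  · have h1 := hpos (-u) (by linarith [hs u])
    rwa [dT_neg_of_smooth hS.isT hC ha0 hs, norm_neg, norm_neg] at h1

variable {β : Y}

/-- The linear part of the derivative. -/
lemma exists_linear_part (ha : ‖a‖ = 1)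
    (hβ : ∀ z ∈ Good T a, defect T a z = Dn (imgDir T a z) β) :
    ∃ A : X ≃ₗ[ℝ] Y, (∀ u, dT T a u = A u + Dn a u • β) ∧
      ∀ z ∈ Good T a, ∀ u, Dn (imgDir T a z) (A u) = Dn (srcVec a z) u := by
  obtain ⟨C, hC⟩ := hS.ctrl
  obtain ⟨C', hC'⟩ := hS.ctrl'
  have ha0 : a ≠ 0 := norm_ne_zero_iff.1 (by rw [ha]; exact one_ne_zero)
  let α : X → Y := fun u => dT T a u - Dn a u • β
  have hα : ∀ u, ∀ z ∈ Good T a, Dn (imgDir T a z) (α u) = Dn (srcVec a z) u := by
    intro u z hz
    rw [hz.2.2.map_sub_smul, hS.chord_identity ha hz, hβ z hz]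
    ring
  have huniq : ∀ u p, (∀ z ∈ Good T a, Dn (imgDir T a z) p = Dn (srcVec a z) u) → p = α u :=
    fun u p hp => sub_eq_zero.1 (hS.eq_zero_of_good ha fun z hz => by
      have := hz.2.2.map_sub_smul p (α u) 1
      rw [one_smul] at this
      rw [this, hp z hz, hα u z hz, one_mul, sub_self])
  have hsm : ∀ z ∈ Good T a, Smooth (srcVec a z) := fun z hz => by
    rw [hS.srcVec_eq ha]
    exact hz.2.1.smul_base (exitLen_spec ha hz.1).1
  let A : X →ₗ[ℝ] Y :=
    { toFun := α
      map_add' := fun u w => (huniq (u + w) _ fun z hz => by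
        rw [hz.2.2.map_add, (hsm z hz).map_add, hα u z hz, hα w z hz]).symm
      map_smul' := fun c u => (huniq (c • u) _ fun z hz => by
        rw [RingHom.id_apply, hz.2.2.map_smul, (hsm z hz).map_smul, hα u z hz]).symm }
  have hinj : Function.Injective A := by
    rw [injective_iff_map_eq_zero]
    intro u hu
    have ha' : ‖T a‖ = 1 := hS.norm_T ha
    have h0 := hS.symm.eq_zero_of_good (a := T a) ha' (v := u) fun w hw => by
      have hz := hS.good_symm ha hw
      have h1 := hα u _ hz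
      rw [show α u = 0 from hu] at h1
      have h2 := hz.2.2.map_sub_smul (0 : Y) (0 : Y) 1
      simp only [one_smul, sub_self, one_mul] at h2
      rw [h2] at h1
      rw [imgDir, hS.isT.left]
      rw [srcVec, imgDir, hS.isT.left] at h1
      have h3 := hS.symm.imgDir_imgDir ha' hw.1
      rw [hS.isT.left] at h3
      have h4 : exitPt a (imgDir T' (T a) w) = T' (exitPt (T a) w) := by
        rw [imgDir, hS.isT.left]
        refine exitPt_sub ha (by rw [hS.isT.symm.norm_map, (exitLen_spec ha' hw.1).2]) ?_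
        have := hS.symm.dip_map ha' (exitLen_spec ha' hw.1).2 (exitPt_dip ha' hw.1)
        rwa [hS.isT.left] at this
      rw [imgDir, hS.isT.left] at h4
      rw [h4] at h1
      exact h1.symm
    exact h0
  have hsurj : Function.Surjective A := by
    have hd : ∀ q, ∃ u, A u + Dn a u • β = q := fun q =>
      ⟨dT T' (T a) q, by
        show dT T a _ - _ + _ = q
        rw [sub_add_cancel]
        have := dT_left hS.isT.symm hC' (hS.isT.map_ne_zero ha0) (C' := C) hC q
        rwa [hS.isT.left] at this⟩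
    obtain ⟨c, hc⟩ : ∃ c, A c = β := by
      obtain ⟨w, hw⟩ := hd β
      have hw1 : Dn a w ≠ 1 := fun h1 => by
        rw [h1, one_smul, add_eq_right] at hw
        rw [hinj (hw.trans A.map_zero.symm)] at h1
        have := Dn_smul a a (le_refl (0 : ℝ))
        rw [zero_smul, zero_mul] at this
        linarith
      refine ⟨(1 - Dn a w)⁻¹ • w, ?_⟩
      rw [A.map_smul, eq_sub_of_add_eq hw,
        show β - Dn a w • β = (1 - Dn a w) • β by module,
        inv_smul_smul₀ (sub_ne_zero.2 (Ne.symm hw1))]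
    intro q
    obtain ⟨u, hu⟩ := hd q
    exact ⟨u + Dn a u • c, by rw [map_add, map_smul, hc, hu]⟩
  exact ⟨LinearEquiv.ofBijective A ⟨hinj, hsurj⟩, fun u => (sub_add_cancel _ _).symm,
    fun z hz u => hα u z hz⟩

variable {A : X ≃ₗ[ℝ] Y}

/-- The linear part maps chord directions to chord directions. -/
lemma linear_part_cone (ha : ‖a‖ = 1) (hA : ∀ u, dT T a u = A u + Dn a u • β)
    (hb : ¬ Smooth a ∨ Dn (T a) β ≤ 1) {z : X} (hz : z ∈ cone a) : A z ∈ cone (T a) := by
  obtain ⟨C, hC⟩ := hS.ctrl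
  have ha0 : a ≠ 0 := norm_ne_zero_iff.1 (by rw [ha]; exact one_ne_zero)
  obtain ⟨ω, hω, hωβ⟩ := exists_le_Dn (T a) β
  have hlt : Dn (T a) β < 1 := by
    by_contra hge
    push Not at hge
    set b := Dn (T a) β with hb'
    have hkey : ∀ u, ω (A u) ≤ (1 - b) * Dn a u := fun u => by
      have := hω (dT T a u)
      rw [Dn_dT hS.isT hC ha0, hA, map_add, map_smul, hωβ, smul_eq_mul] at this
      linarith
    rcases eq_or_lt_of_le hge with h | h
    · have h0 : ∀ u, ω (A u) = 0 := fun u => by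
        have h1 := hkey u
        have h2 := hkey (-u)
        rw [← h] at h1 h2
        rw [map_neg, map_neg] at h2
        linarith
      have := h0 (A.symm β)
      rw [A.apply_symm_apply, hωβ] at this
      linarith
    · rcases hb with hns | hle
      · refine hns fun u => ?_
        have h1 := hkey u
        have h2 := hkey (-u)
        rw [map_neg, map_neg] at h2
        exact le_antisymm (by nlinarith) (Dn_add_neg_nonneg a u)
      · linarith
  show Dn (T a) (-A z) < 0
  have hz' : Dn a (-z) < 0 := hz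
  have h1 := Dn_add_le (T a) (dT T a (-z)) ((-Dn a (-z)) • β)
  rw [Dn_dT hS.isT hC ha0, Dn_smul _ _ (by linarith : 0 ≤ -Dn a (-z)), hA, map_neg,
    show -A z + Dn a (-z) • β + (-Dn a (-z)) • β = -A z by module] at h1
  nlinarith

/-- The linear part is isometric. -/
lemma linear_part_norm (ha : ‖a‖ = 1) (hA : ∀ u, dT T a u = A u + Dn a u • β)
    (hAη : ∀ z ∈ Good T a, ∀ u, Dn (imgDir T a z) (A u) = Dn (srcVec a z) u)
    (hb : ¬ Smooth a ∨ Dn (T a) β ≤ 1) (u : X) : ‖A u‖ = ‖u‖ := by
  obtain ⟨C, hC⟩ := hS.ctrl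
  have ha0 : a ≠ 0 := norm_ne_zero_iff.1 (by rw [ha]; exact one_ne_zero)
  have hcone : ∀ z ∈ cone a, ‖A z‖ = ‖z‖ := by
    intro z hz
    refine le_antisymm (hS.norm_le_of_good ha (hS.linear_part_cone ha hA hb hz) fun p hp => by
      rw [hAη p hp]; exact Dn_le_norm _ _) (le_of_forall_pos_le_add fun ε hε => ?_)
    obtain ⟨p, ⟨hpB, -⟩, hp⟩ := hS.exists_good ha (isOpen_ball.inter (isOpen_cone a))
      (inter_subset_right (s := ball z (ε / 2))) ⟨z, mem_ball_self (half_pos hε), hz⟩
    have h1 := Dn_le_norm (imgDir T a p) (A z)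
    rw [hAη p hp, hS.Dn_src ha hp.1] at h1
    have h2 := (abs_le.1 (abs_Dn_sub_le p p z)).2
    rw [Dn_self] at h2
    have h3 := norm_sub_norm_le z p
    rw [norm_sub_rev] at h3
    have h4 := mem_ball_iff_norm.1 hpB
    linarith
  have hAl : ∀ p : X, ‖A p‖ ≤ 3 * ‖p‖ + ‖p‖ * ‖β‖ := fun p => by
    rw [show A p = dT T a p - Dn a p • β by rw [hA, add_sub_cancel_right]]
    refine (norm_sub_le _ _).trans (add_le_add ?_ ?_)
    · have := norm_dT_sub_le hS.isT hC ha0 p 0
      rwa [dT_zero hS.isT hC ha0, sub_zero, sub_zero] at this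
    · rw [norm_smul, Real.norm_eq_abs]
      exact mul_le_mul_of_nonneg_right (abs_Dn_le a p) (norm_nonneg _)
  have hneg : ∀ z, Dn a (-z) ≤ 0 → ‖A z‖ = ‖z‖ := by
    intro z hz
    have hev : ∀ ε : ℝ, 0 < ε → |‖A z‖ - ‖z‖| ≤ ε * ((3 * ‖a‖ + ‖a‖ * ‖β‖) + ‖a‖) := by
      intro ε hε
      have e := hcone _ (mem_cone_of_Dn_le ha hz hε)
      rw [map_add, map_smul] at e
      have h1 := abs_norm_sub_norm_le (A z) (A z + ε • A a)
      have h2 := abs_norm_sub_norm_le z (z + ε • a)
      rw [sub_add_cancel_left, norm_neg, norm_smul, Real.norm_of_nonneg hε.le, abs_le] at h1 h2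
      have h3 := mul_le_mul_of_nonneg_left (hAl a) hε.le
      rw [abs_le]
      constructor <;> linarith
    by_contra hne
    have hpos : 0 < |‖A z‖ - ‖z‖| := abs_pos.2 (sub_ne_zero.2 hne)
    set K := (3 * ‖a‖ + ‖a‖ * ‖β‖) + ‖a‖
    have hK : 0 < K := by
      have := mul_nonneg (norm_nonneg a) (norm_nonneg β)
      simp only [K, ha] at this ⊢
      linarith
    have := hev (|‖A z‖ - ‖z‖| / (2 * K)) (by positivity)
    rw [div_mul_eq_mul_div, le_div_iff₀ (by positivity)] at this
    nlinarith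
  rcases le_or_gt (Dn a u) 0 with h1 | h1
  · have := hneg (-u) (by rwa [neg_neg])
    rwa [map_neg, norm_neg, norm_neg] at this
  rcases le_or_gt (Dn a (-u)) 0 with h2 | h2
  · exact hneg u h2
  set s₁ := (Dn a u)⁻¹ with hs₁
  set s₂ := (Dn a (-u))⁻¹ with hs₂
  have e1 : Dn a (s₁ • u + (-1 : ℝ) • a) = 0 := by
    rw [Dn_add_smul_self ha, Dn_smul _ _ (inv_pos.2 h1).le, inv_mul_cancel₀ h1.ne']
    norm_num
  have e2 : Dn a (s₂ • -u + (-1 : ℝ) • a) = 0 := by
    rw [Dn_add_smul_self ha, Dn_smul _ _ (inv_pos.2 h2).le, inv_mul_cancel₀ h2.ne']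
    norm_num
  have h3 := norm_dT_sub_of_Dn_eq hS.isT hC ha0 (e1.trans e2.symm)
  rw [hA, hA, e1, e2, zero_smul, add_zero, add_zero, ← map_sub,
    show s₁ • u + (-1 : ℝ) • a - (s₂ • -u + (-1 : ℝ) • a) = (s₁ + s₂) • u by module, map_smul,
    norm_smul, norm_smul] at h3
  exact mul_left_cancel₀ (norm_ne_zero_iff.2
    (add_pos (inv_pos.2 h1) (inv_pos.2 h2)).ne') h3

/-- The shear vanishes. -/
theorem shear_eq_zero (ha : ‖a‖ = 1)
    (hβ : ∀ z ∈ Good T a, defect T a z = Dn (imgDir T a z) β)
    (hb : ¬ Smooth a ∨ Dn (T a) β ≤ 1) : β = 0 := by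
  obtain ⟨C, hC⟩ := hS.ctrl
  have ha0 : a ≠ 0 := norm_ne_zero_iff.1 (by rw [ha]; exact one_ne_zero)
  obtain ⟨A, hA, hAη⟩ := hS.exists_linear_part ha hβ
  have hn := hS.linear_part_norm ha hA hAη hb
  set b := A.symm β with hb'
  set a' := a + b with ha'
  have hTa : T a = A a + β := by
    rw [← dT_self hS.isT hC ha0, hA, Dn_self, ha, one_smul]
  have hAa' : A a' = T a := by rw [ha', map_add, hb', A.apply_symm_apply, hTa]
  have ha'n : ‖a'‖ = 1 := by rw [← hn, hAa', hS.norm_T ha]
  have hP : ∀ n : ℕ, 1 ≤ n → ∀ τ > 0, ∃ y : X, ‖y‖ = 1 ∧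
      ‖b‖ - τ ≤ ‖a - y‖ - ‖a' - y‖ ∧ (n : ℝ) * ‖b‖ - τ ≤ ‖a - y‖ := by
    intro n hn1
    induction n, hn1 using Nat.le_induction with
    | base =>
      intro τ hτ
      refine ⟨a', ha'n, ?_, ?_⟩ <;>
        rw [show a - a' = -b by rw [ha']; abel, norm_neg] <;>
        simp only [sub_self, norm_zero, sub_zero, Nat.cast_one, one_mul] <;> linarith
    | succ n _ ih =>
      intro τ hτ
      obtain ⟨y, hy, hy1, hy2⟩ := ih (τ / 8) (by linarith)
      set ε := min (τ / 100) (1 / 2) with hεdef
      have hε : 0 < ε := lt_min (by linarith) (by norm_num)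
      have hετ : ε ≤ τ / 100 := min_le_left _ _
      have ht : (0 : ℝ) < 1 / (1 + ε) := by positivity
      set z := a - y + ε • a with hz
      have hin : ∀ p : X, ‖p - z‖ ≤ ε / 2 → ‖a - (1 / (1 + ε)) • p‖ < 1 := by
        intro p hp
        rw [show a - (1 / (1 + ε)) • p = (1 / (1 + ε)) • (y - (p - z)) by
          rw [hz]; match_scalars <;> field_simp <;> ring, norm_smul, Real.norm_of_nonneg ht.le,
          div_mul_eq_mul_div, div_lt_one (by linarith), one_mul]
        have := norm_sub_le y (p - z)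
        rw [hy] at this
        linarith
      obtain ⟨p, ⟨hpB, -⟩, hp⟩ := hS.exists_good ha (isOpen_ball.inter (isOpen_cone a))
        (inter_subset_right (s := ball z (ε / 2)))
        ⟨z, mem_ball_self (half_pos hε), mem_cone_of_interior ht (by
          rw [ha]; exact hin z (by rw [sub_self, norm_zero]; linarith))⟩
      have hpz : ‖p - z‖ ≤ ε / 2 := (mem_ball_iff_norm.1 hpB).le
      have hσ : 1 / (1 + ε) ≤ exitLen a p := by
        by_contra hlt
        push Not at hlt
        exact absurd (exitLen_spec ha hp.1).2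
          (inside_chord ha hp.1 (hin p hpz).le (exitLen_spec ha hp.1).1 hlt).ne
      set y' := exitPt a p with hy'
      have hy'n : ‖y'‖ = 1 := (exitLen_spec ha hp.1).2
      have hpd : ‖p - (a - y)‖ ≤ 2 * ε := by
        have := norm_add_le (p - z) (ε • a)
        rw [norm_smul, ha, mul_one, Real.norm_of_nonneg hε.le] at this
        rw [show p - (a - y) = p - z + ε • a by rw [hz]; abel]
        linarith
      have hξ1 : ‖a - y‖ - 4 * ε ≤ Dn p (a - y) := by
        have h1 := (abs_le.1 (abs_Dn_sub_le p p (a - y))).2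
        rw [Dn_self] at h1
        have h2 := norm_sub_norm_le (a - y) p
        rw [norm_sub_rev (a - y) p] at h2
        linarith
      have hξb : ‖b‖ - τ / 8 - 4 * ε ≤ Dn p (-b) := by
        have h1 := hp.2.1.map_sub_smul (a - y) (a' - y) 1
        rw [one_smul, one_mul, show a - y - (a' - y) = -b by rw [ha']; abel] at h1
        have := Dn_le_norm p (a' - y)
        linarith
      set x := A.symm (T y') with hx
      have hxn : ‖x‖ = 1 := by rw [← hn, hx, A.apply_symm_apply, hS.norm_T hy'n]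
      have hw : ‖a' - x‖ = ‖imgDir T a p‖ := by
        rw [← hn, map_sub, hAa', hx, A.apply_symm_apply, imgDir]
      have hge : ‖imgDir T a p‖ + Dn p (-b) ≤ ‖a - x‖ := by
        rw [← hn (a - x), show A (a - x) = imgDir T a p + A (-b) by
          rw [map_sub, map_neg, hb', hx, A.apply_symm_apply, A.apply_symm_apply, imgDir, hTa]; abel]
        have h1 := Dn_le_norm (imgDir T a p) (imgDir T a p + A (-b))
        rwa [hp.2.2.map_add, Dn_self, hAη p hp, hS.Dn_src ha hp.1] at h1
      have hlen : ‖a - y‖ - 8 * ε ≤ ‖imgDir T a p‖ := by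
        have h1 : ‖imgDir T a p‖ = exitLen a p * ‖p‖ := by
          rw [imgDir, hS.isT.dist_map a y' (ha.trans hy'n.symm), hy', exitPt, sub_sub_cancel,
            norm_smul, Real.norm_of_nonneg (exitLen_spec ha hp.1).1.le]
        have h2 := norm_sub_norm_le (a - y) p
        rw [norm_sub_rev (a - y) p] at h2
        have h3 := mul_le_mul_of_nonneg_right hσ (norm_nonneg p)
        have h4 : (1 - ε) * ‖p‖ ≤ 1 / (1 + ε) * ‖p‖ := by
          refine mul_le_mul_of_nonneg_right ?_ (norm_nonneg p)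
          rw [le_div_iff₀ (by linarith)]
          nlinarith
        have h5 : ‖p‖ ≤ 4 := by
          have h6 := norm_le_norm_add_norm_sub' p (a - y)
          have h7 := norm_sub_le a y
          rw [ha, hy] at h7
          have h8 : ε ≤ 1 / 2 := min_le_right _ _
          linarith
        nlinarith [mul_le_mul_of_nonneg_left h5 hε.le]
      refine ⟨x, hxn, by linarith, ?_⟩
      push_cast
      linarith
  by_contra hne
  have hb0 : 0 < ‖b‖ := norm_pos_iff.2 fun h => hne (by
    rw [← A.apply_symm_apply β, ← hb', h, map_zero])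
  obtain ⟨n, hn'⟩ := exists_nat_gt (4 / ‖b‖)
  rw [div_lt_iff₀ hb0] at hn'
  have hn0 : 1 ≤ n := by
    rcases Nat.eq_zero_or_pos n with h | h
    · subst h; simp at hn'; linarith
    · exact h
  obtain ⟨y, hy, -, h2⟩ := hP n hn0 1 one_pos
  have h3 := norm_sub_le a y
  rw [ha, hy] at h3
  linarith

/-- A point with linear defects has none. -/
theorem defect_zero_of_linear (ha : ‖a‖ = 1)
    (hβ : ∀ z ∈ Good T a, defect T a z = Dn (imgDir T a z) β)
    (hb : ¬ Smooth a ∨ Dn (T a) β ≤ 1) : ∀ z ∈ Good T a, defect T a z = 0 := fun z hz => by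
  rw [hβ z hz, hS.shear_eq_zero ha hβ hb]
  simpa using hz.2.2.map_smul 0 (0 : Y)

/-- At a kink the derivative is a linear isometry. -/
theorem isometric_of_kink (ha : ‖a‖ = 1) (hns : ¬ Smooth a) :
    ∃ A : X ≃ₗ[ℝ] Y, (∀ u, dT T a u = A u) ∧ ∀ u, ‖A u‖ = ‖u‖ := by
  obtain ⟨C, hC⟩ := hS.ctrl
  simp only [Smooth, not_forall] at hns
  obtain ⟨u, hu⟩ := hns
  set s := Dn a u + Dn a (-u) with hs
  set β := s⁻¹ • (dT T a u + dT T a (-u)) with hβ
  have hdef : ∀ z ∈ Good T a, defect T a z = Dn (imgDir T a z) β := by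
    intro z hz
    rw [hβ, hz.2.2.map_smul, hz.2.2.map_add, hS.chord_identity ha hz, hS.chord_identity ha hz]
    have hsm : Smooth (srcVec a z) := by
      rw [hS.srcVec_eq ha]
      exact hz.2.1.smul_base (exitLen_spec ha hz.1).1
    have h0 := hsm u
    rw [eq_inv_mul_iff_mul_eq₀ hu]
    linear_combination -h0
  have hns : ¬ Smooth a := fun h => hu (h u)
  obtain ⟨A, hA, hAη⟩ := hS.exists_linear_part ha hdef
  refine ⟨A, fun v => ?_, hS.linear_part_norm ha hA hAη (Or.inl hns)⟩
  rw [hA, hS.shear_eq_zero ha hdef (Or.inl hns), smul_zero, add_zero]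

end Sys

end Vale.Agent.P084.Inf
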