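import Vale.Agent.P084.Inf.TwoSided
import Vale.Agent.P084.Inf.Shear
import Vale.Agent.P084.Inf.Face

/-!
At superquadratic points the derivative of the extension is isometric.
-/

namespace Vale.Agent.P084.Inf

open Filter Topology Set
open scoped BoundedContinuousFunction
open Sys (Good imgDir srcVec defect)

variable {X Y : Type*} [NormedAddCommGroup X] [NormedSpace ℝ X] [NormedAddCommGroup Y]
  [NormedSpace ℝ Y] {T : X → Y} {T' : Y → X}

lemma exists_ctrl [CompleteSpace X] [CompleteSpace Y] (hT : IsTingley T T') :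
    ∃ C, Ctrl T C := by
  obtain ⟨c', hc', hoff⟩ := exists_off_modulus hT (c := 1 / 2) (by norm_num)
  obtain ⟨C, hC, h⟩ := exists_sd_bound hT
    ⟨c', hc', fun x y hx hy hxy => hoff x y hx hy (by linarith)⟩
  exact ⟨C, ctrl_of_unit hT hC h⟩

lemma sys_of_tingley [CompleteSpace X] [CompleteSpace Y] (hT : IsTingley T T') : Sys T T' :=
  ⟨hT, exists_ctrl hT, exists_ctrl hT.symm, fun _ _ hx hy h => norm_add_map hT hx hy h,
    fun _ _ hx hy h => norm_add_map hT.symm hx hy h⟩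

/-- The midpoint estimate, passed to the limit. -/
lemma mid_lim (hT : IsTingley T T') {a : X} (ha : ‖a‖ = 1) (P f : ℕ →ᵇ X) (Q g : ℕ →ᵇ Y)
    (hf : ∀ n, ‖f n‖ = 1) (hg : ∀ n, g n = T (f n))
    (hdip : ‖Ultra.mk (.const ℕ (T a)) + Ultra.mk g‖ < 2)
    {s ε : ℕ → ℝ} (hs : Tendsto s uf (𝓝 0)) (hε : Tendsto ε uf (𝓝 0))
    (hdata : ∀ᶠ n in uf, ∃ (xp xm : X) (l : ℝ), ‖xp‖ = 1 ∧ ‖xm‖ = 1 ∧ 0 ≤ l ∧ l ≤ 1 ∧ 0 < s n ∧
      l • xp + (1 - l) • xm = a + s n • P n ∧
      l • T xp + (1 - l) • T xm = T a + s n • Q n ∧ ‖xp - xm‖ ^ 2 ≤ ε n * s n)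
    {ρ : ℝ} (hρ : 0 < ρ) :
    ‖Ultra.mk (.const ℕ a) - Ultra.mk f‖ + ‖Ultra.mk (.const ℕ (T a)) - Ultra.mk g‖
      ≤ ‖Ultra.mk (.const ℕ a) - Ultra.mk f - ρ • Ultra.mk P‖
        + ‖Ultra.mk (.const ℕ (T a)) - Ultra.mk g + ρ • Ultra.mk Q‖ := by
  rw [← map_add] at hdip
  rw [← map_smul, ← map_smul, ← map_sub, ← map_sub, ← map_sub, ← map_add]
  set D := min (2 - ‖Ultra.mk (BoundedContinuousFunction.const ℕ (T a) + g)‖) 1 with hD
  have hD0 : 0 < D := lt_min (by linarith) one_pos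
  set c' := D / 2 with hc'
  have hc0 : 0 < c' := half_pos hD0
  have hc1 : c' ≤ 1 := by
    have : D ≤ 1 := min_le_right _ _
    linarith
  have hdip' : ∀ᶠ n in uf, ‖T a + T (f n)‖ ≤ 2 - c' := by
    filter_upwards [(Ultra.tendsto_norm (BoundedContinuousFunction.const ℕ (T a) + g)).eventually
      (eventually_le_nhds (b := 2 - c') (by
        have : D ≤ 2 - ‖Ultra.mk (BoundedContinuousFunction.const ℕ (T a) + g)‖ := min_le_left _ _
        linarith))] with n hn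
    rw [← hg]
    simpa using hn
  refine le_of_forall_pos_le_add fun δ hδ => ?_
  set r := min (c' / 512) (δ * c' / 320) with hr
  have hr0 : 0 < r := lt_min (by positivity) (by positivity)
  have hr2 : 2 * r ≤ c' / 256 := by
    have : r ≤ c' / 512 := min_le_left _ _
    linarith
  have hr3 : 160 * r / c' ≤ δ / 2 := by
    have : r ≤ δ * c' / 320 := min_le_right _ _
    rw [div_le_iff₀ hc0]
    linarith
  have hsr : ∀ᶠ n in uf, s n * (‖Q‖ + 1) ≤ r ∧ s n ≤ ρ :=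
    ((hs.mul_const (‖Q‖ + 1)).eventually (eventually_le_nhds (by simpa using hr0))).and
      (hs.eventually (eventually_le_nhds hρ))
  have herr : ∀ᶠ n in uf, ρ * (128 * ε n / r) ≤ δ / 4 :=
    (((hε.const_mul 128).div_const r).const_mul ρ).eventually
      (eventually_le_nhds (by simp; linarith))
  have hlim := ((Ultra.tendsto_norm (BoundedContinuousFunction.const ℕ a - f - ρ • P)).add
    (Ultra.tendsto_norm (BoundedContinuousFunction.const ℕ (T a) - g + ρ • Q))).add_const δ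
  refine le_of_tendsto_of_tendsto ((Ultra.tendsto_norm (BoundedContinuousFunction.const ℕ a - f)).add
    (Ultra.tendsto_norm (BoundedContinuousFunction.const ℕ (T a) - g))) hlim ?_
  filter_upwards [hdata, hdip', hsr, herr] with n hn hd hs' he
  obtain ⟨xp, xm, l, hp, hm, h0, h1, hs0, hbar, hv, hee⟩ := hn
  have key := mid_lower hT (y := f n) ha (hf n) hp hm h0 h1 hs0 hρ hs'.2 hbar hv hc0 hc1 hd hr0
    hr2 (by
      have := mul_le_mul_of_nonneg_left (Q.norm_coe_le_norm n) hs0.le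
      linarith [hs'.1])
  have h5 : ρ * (128 * ‖xp - xm‖ ^ 2 / (r * s n)) ≤ ρ * (128 * ε n / r) := by
    refine mul_le_mul_of_nonneg_left ?_ hρ.le
    rw [div_le_div_iff₀ (by positivity) hr0]
    have := mul_le_mul_of_nonneg_right (mul_le_mul_of_nonneg_left hee (by norm_num : (0:ℝ) ≤ 128))
      hr0.le
    linarith
  simp only [BoundedContinuousFunction.sub_apply, BoundedContinuousFunction.add_apply,
    BoundedContinuousFunction.smul_apply, BoundedContinuousFunction.const_apply, hg n]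
  linarith

lemma norm_mk_const {E : Type*} [NormedAddCommGroup E] [NormedSpace ℝ E] (x : E) :
    ‖Ultra.mk (BoundedContinuousFunction.const ℕ x)‖ = ‖x‖ :=
  tendsto_nhds_unique (Ultra.tendsto_norm _) (by simp)

lemma Dn_nonneg_of {E : Type*} [NormedAddCommGroup E] [NormedSpace ℝ E] {z p : E}
    {F : Type*} [NormedAddCommGroup F] [NormedSpace ℝ F] {w q : F}
    (h : ∀ ρ : ℝ, 0 < ρ → ‖z‖ + ‖w‖ ≤ ‖z + ρ • p‖ + ‖w + ρ • q‖) : 0 ≤ Dn z p + Dn w q := by
  refine ge_of_tendsto ((tendsto_Dn z p).add (tendsto_Dn w q)) ?_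
  filter_upwards [self_mem_nhdsWithin] with t (ht : 0 < t)
  rw [← mul_add]
  exact mul_nonneg (inv_nonneg.2 ht.le) (by linarith [h t ht])

lemma defect_symm (hS : Sys T T') {a : X} (ha : ‖a‖ = 1) {w : Y} (hw : w ∈ Good T' (T a)) :
    defect T' (T a) w = -defect T a (imgDir T' (T a) w) := by
  have hz := hS.good_symm ha hw
  have h2 := hS.symm.imgDir_imgDir (hS.norm_T ha) hw.1
  rw [hS.isT.left] at h2
  simp only [defect]
  rw [h2, ← hS.symm.srcVec_eq (hS.norm_T ha) w, hS.isT.left, hS.Dn_src ha hz.1]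
  ring

/-- A linearised defect with small trace forces an isometric derivative. -/
lemma Sys.isometric_of_linear [CompleteSpace X] [CompleteSpace Y]
    [TopologicalSpace.SeparableSpace X] [TopologicalSpace.SeparableSpace Y] (hS : Sys T T')
    {a : X} (ha : ‖a‖ = 1) {β : Y} (hβ : ∀ z ∈ Good T a, defect T a z = Dn (imgDir T a z) β)
    (hb : Smooth a → Dn (T a) β ≤ 1) (v : X) : ‖dT T a v‖ = ‖v‖ := by
  by_cases hs : Smooth a
  · obtain ⟨C, hC⟩ := hS.ctrl
    obtain ⟨C', hC'⟩ := hS.ctrl'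
    have ha0 : a ≠ 0 := norm_ne_zero_iff.1 (by rw [ha]; exact one_ne_zero)
    have h0 := hS.defect_zero_of_linear ha hβ (Or.inr (hb hs))
    refine le_antisymm (hS.norm_dT_le_of_defect_zero ha hs h0 v) ?_
    have h1 := hS.symm.norm_dT_le_of_defect_zero (hS.norm_T ha) (smooth_map hS.isT hC ha0 hC' hs)
      (fun w hw => by rw [defect_symm hS ha hw, h0 _ (hS.good_symm ha hw), neg_zero]) (dT T a v)
    rwa [dT_left hS.isT hC ha0 hC'] at h1
  · obtain ⟨A, hA, hn⟩ := hS.isometric_of_kink ha hs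
    rw [hA, hn]

variable [CompleteSpace X] [CompleteSpace Y]

lemma norm_dT_unit (hT : IsTingley T T') {C : ℝ} (hC : Ctrl T C) {a : X} (ha : ‖a‖ = 1)
    {u : X} {t : ℕ → ℝ} (ht : ∀ n, 0 < t n) (ht0 : Tendsto t atTop (𝓝 0))
    (hsq : ∀ n : ℕ, ((n : ℝ) + 1) * t n ^ 2 < nd a (t n • u)) (v : X) : ‖dT T a v‖ = ‖v‖ := by
  have hC0 := hC.1
  have ha0 : a ≠ 0 := norm_ne_zero_iff.1 (by rw [ha]; exact one_ne_zero)
  set N : ℕ → ℝ := fun n => nd a (t n • u) with hN
  have hN0 : ∀ n, 0 < N n := fun n => lt_of_le_of_lt (by positivity) (hsq n)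
  let G : ℕ →ᵇ Y := .ofNormedAddCommGroupDiscrete (fun n => (N n)⁻¹ • sd T a (t n • u))
    (C * (1 + ‖u‖ ^ 2)) fun n => by
      rw [norm_smul, norm_inv, Real.norm_of_nonneg (hN0 n).le, inv_mul_le_iff₀ (hN0 n)]
      refine (hC.2 a (t n • u) ha0).trans ?_
      rw [ha, div_one, norm_smul, Real.norm_of_nonneg (ht n).le, mul_pow, mul_left_comm]
      refine mul_le_mul_of_nonneg_left ?_ hC0
      have h1 : t n ^ 2 ≤ N n := le_trans (le_mul_of_one_le_left (sq_nonneg _)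
        (by linarith [n.cast_nonneg (α := ℝ)])) (hsq n).le
      have := mul_le_mul_of_nonneg_right h1 (sq_nonneg ‖u‖)
      simp only [hN] at this ⊢
      linarith
  obtain ⟨S, S', hS, hSmk⟩ := exists_ultra hT
  set ah := Ultra.mk (BoundedContinuousFunction.const ℕ a) with hah
  set vh := Ultra.mk (BoundedContinuousFunction.const ℕ v) with hvh
  have hconst : ∀ x : X, S (Ultra.mk (.const ℕ x)) = Ultra.mk (.const ℕ (T x)) := fun x =>
    hSmk _ _ fun n => by simp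
  obtain ⟨X₀, Y₀, hsub, hX₀, hY₀, hsX, hsY, hXY, -, T₀, T₀', hT₀, hTc, -⟩ :=
    exists_separable_pair hS (s := {ah, vh, S' (Ultra.mk G)}) ((Set.toFinite _).countable)
  haveI := hsX
  haveI := hsY
  haveI : CompleteSpace X₀ := hX₀.completeSpace_coe
  haveI : CompleteSpace Y₀ := hY₀.completeSpace_coe
  have hah0 : ah ∈ X₀ := hsub (by simp)
  have hvh0 : vh ∈ X₀ := hsub (by simp)
  have hgh0 : Ultra.mk G ∈ Y₀ := by
    rw [← hS.right (Ultra.mk G)]
    exact hXY _ (hsub (by simp))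
  have hs₀ := sys_of_tingley hT₀
  set a₀ : X₀ := ⟨ah, hah0⟩ with ha₀
  set g₀ : Y₀ := ⟨Ultra.mk G, hgh0⟩ with hg₀
  have ha₀n : ‖a₀‖ = 1 := (norm_mk_const a).trans ha
  have hTa₀ : (T₀ a₀ : Ultra Y) = Ultra.mk (.const ℕ (T a)) := by rw [hTc]; exact hconst a
  have hhn : Tendsto (fun n => ‖t n • u‖) uf (𝓝 0) := by
    have := ((ht0.smul_const u).norm).mono_left Nat.hyperfilter_le_atTop
    simpa using this
  have haX : ((a₀ : X₀) : Ultra X) = Ultra.mk (.const ℕ a) := rfl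
  have hgY : ((g₀ : Y₀) : Ultra Y) = Ultra.mk G := rfl
  set s : ℕ → ℝ := fun n => N n / (2 + N n) with hsdef
  have hs : Tendsto s uf (𝓝 0) := by
    refine squeeze_zero (fun n => div_nonneg (hN0 n).le (by linarith [hN0 n])) (fun n => ?_) hhn
    rw [div_le_iff₀ (by linarith [hN0 n])]
    have := mul_nonneg (norm_nonneg (t n • u)) (hN0 n).le
    have := nd_le a (t n • u)
    linarith
  set ε : ℕ → ℝ := fun n => 64 * ‖u‖ ^ 2 / ((n : ℝ) + 1) with hεdef
  have hε : Tendsto ε uf (𝓝 0) := by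
    have h := (tendsto_const_div_atTop_nhds_zero_nat (64 * ‖u‖ ^ 2)).comp (tendsto_add_atTop_nat 1)
    refine (h.mono_left Nat.hyperfilter_le_atTop).congr fun n => ?_
    simp [ε]
  let P : ℕ →ᵇ X := -BoundedContinuousFunction.const ℕ a
  let Q : ℕ →ᵇ Y := G - BoundedContinuousFunction.const ℕ (T a)
  have hdata : ∀ᶠ n in uf, ∃ (xp xm : X) (l : ℝ), ‖xp‖ = 1 ∧ ‖xm‖ = 1 ∧ 0 ≤ l ∧ l ≤ 1 ∧
      0 < s n ∧ l • xp + (1 - l) • xm = a + s n • P n ∧
      l • T xp + (1 - l) • T xm = T a + s n • Q n ∧ ‖xp - xm‖ ^ 2 ≤ ε n * s n := by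
    filter_upwards [hhn.eventually (eventually_le_nhds (show (0 : ℝ) < 1 / 4 by norm_num))] with n hn
    obtain ⟨xp, xm, l, s', hp, hm, h0, h1, hs', hb, hv, he⟩ := radial_eq hT ha hn (hN0 n)
    subst hs'
    refine ⟨xp, xm, l, hp, hm, h0, h1, div_pos (hN0 n) (by linarith [hN0 n]), ?_, ?_, ?_⟩
    · simpa [P] using hb
    · simpa [Q, G] using hv
    · have h2 := pow_le_pow_left₀ (norm_nonneg _) he 2
      have h3 : N n ≤ 2 := by
        have := nd_le a (t n • u)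
        simp only [hN]
        linarith
      refine h2.trans ?_
      rw [norm_smul, Real.norm_of_nonneg (ht n).le, hεdef, hsdef]
      simp only
      rw [div_mul_div_comm, le_div_iff₀ (by have := hN0 n; positivity)]
      have h4 := mul_le_mul_of_nonneg_left (hsq n).le (sq_nonneg ‖u‖)
      have h5 : 0 ≤ ‖u‖ ^ 2 * t n ^ 2 * ((n : ℝ) + 1) := by positivity
      nlinarith
  have hβ : ∀ z ∈ Good T₀ a₀, defect T₀ a₀ z = Dn (imgDir T₀ a₀ z) g₀ := by
    intro z hz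
    set y₀ := exitPt a₀ z with hy₀
    have hy1 : ‖y₀‖ = 1 := (exitLen_spec ha₀n hz.1).2
    obtain ⟨f₁, hf₁⟩ := Ultra.exists_rep (y₀ : Ultra X)
    classical
    let f : ℕ →ᵇ X := .ofNormedAddCommGroupDiscrete
      (fun n => if f₁ n = 0 then a else ‖f₁ n‖⁻¹ • f₁ n) 1 fun n => by
        split
        · exact ha.le
        · next h => rw [norm_smul, norm_inv, norm_norm, inv_mul_cancel₀ (norm_ne_zero_iff.2 h)]
    have hf : ∀ n, ‖f n‖ = 1 := fun n => by
      simp only [f, BoundedContinuousFunction.coe_ofNormedAddCommGroupDiscrete]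
      split
      · exact ha
      · next h => rw [norm_smul, norm_inv, norm_norm, inv_mul_cancel₀ (norm_ne_zero_iff.2 h)]
    have hfe : Ultra.mk f = (y₀ : Ultra X) := by
      rw [← hf₁, Ultra.mk_eq]
      have h1 : Tendsto (fun n => ‖f₁ n‖) uf (𝓝 1) := by
        have h := Ultra.tendsto_norm f₁
        rwa [hf₁, show ‖(y₀ : Ultra X)‖ = 1 from hy1] at h
      refine squeeze_zero' (Eventually.of_forall fun n => norm_nonneg _) ?_
        (by simpa using (h1.sub_const 1).abs)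
      filter_upwards [h1.eventually (eventually_gt_nhds one_pos)] with n hn
      simp only [f, BoundedContinuousFunction.coe_ofNormedAddCommGroupDiscrete,
        if_neg (norm_pos_iff.1 hn)]
      rw [show ‖f₁ n‖⁻¹ • f₁ n - f₁ n = (‖f₁ n‖⁻¹ - 1) • f₁ n by module, norm_smul,
        Real.norm_eq_abs]
      have h2 := abs_mul (‖f₁ n‖⁻¹ - 1) ‖f₁ n‖
      rw [abs_of_pos hn, sub_mul, inv_mul_cancel₀ hn.ne', one_mul, abs_sub_comm] at h2
      exact h2.symm.le
    let g : ℕ →ᵇ Y := .ofNormedAddCommGroupDiscrete (fun n => T (f n)) 1 fun n => by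
      rw [hT.norm_map, hf]
    have hge : (T₀ y₀ : Ultra Y) = Ultra.mk g := by
      rw [hTc, ← hfe]
      exact hSmk f g fun n => rfl
    have hdY : ‖T₀ a₀ + T₀ y₀‖ < 2 := hs₀.dip_map ha₀n hy1 (exitPt_dip ha₀n hz.1)
    have hdX : ‖a₀ + y₀‖ < 2 := exitPt_dip ha₀n hz.1
    change ‖((T₀ a₀ + T₀ y₀ : Y₀) : Ultra Y)‖ < 2 at hdY
    change ‖((a₀ + y₀ : X₀) : Ultra X)‖ < 2 at hdX
    rw [Submodule.coe_add, hTa₀, hge] at hdY
    rw [Submodule.coe_add, ← hfe, show (a₀ : Ultra X) = ah from rfl, hah] at hdX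
    have hT'a : T' (T a) = a := hT.left a
    have hL : 0 ≤ Dn (srcVec a₀ z) a₀ + Dn (imgDir T₀ a₀ z) (g₀ - T₀ a₀) := Dn_nonneg_of fun ρ hρ => by
      have h := mid_lim hT ha P f Q g hf (fun n => rfl) hdY hs hε hdata hρ
      show ‖((srcVec a₀ z : X₀) : Ultra X)‖ + ‖((imgDir T₀ a₀ z : Y₀) : Ultra Y)‖
        ≤ ‖((srcVec a₀ z + ρ • a₀ : X₀) : Ultra X)‖
          + ‖((imgDir T₀ a₀ z + ρ • (g₀ - T₀ a₀) : Y₀) : Ultra Y)‖
      simp only [srcVec, imgDir, ← hy₀, Submodule.coe_add, Submodule.coe_sub, Submodule.coe_smul,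
        hTa₀, hge, ← hfe, haX, hgY]
      simp only [P, Q, map_neg, map_sub, smul_neg, sub_neg_eq_add] at h
      exact h
    have hU : 0 ≤ Dn (srcVec a₀ z) (-a₀) + Dn (imgDir T₀ a₀ z) (-(g₀ - T₀ a₀)) :=
      Dn_nonneg_of fun ρ hρ => by
      have hdata' : ∀ᶠ n in uf, ∃ (xp xm : Y) (l : ℝ), ‖xp‖ = 1 ∧ ‖xm‖ = 1 ∧ 0 ≤ l ∧ l ≤ 1 ∧
          0 < s n ∧ l • xp + (1 - l) • xm = T a + s n • Q n ∧
          l • T' xp + (1 - l) • T' xm = T' (T a) + s n • P n ∧ ‖xp - xm‖ ^ 2 ≤ ε n * s n := by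
        filter_upwards [hdata] with n hn
        obtain ⟨xp, xm, l, hp, hm, h0, h1, hs0, hb, hv, he⟩ := hn
        exact ⟨T xp, T xm, l, by rw [hT.norm_map, hp], by rw [hT.norm_map, hm], h0, h1, hs0, hv,
          by rw [hT.left, hT.left, hT.left, hb],
          by rwa [hT.dist_map _ _ (hp.trans hm.symm)]⟩
      have h := mid_lim hT.symm (a := T a) (by rw [hT.norm_map, ha]) Q g P f
        (fun n => by show ‖T (f n)‖ = 1; rw [hT.norm_map, hf])
        (fun n => by show f n = T' (T (f n)); rw [hT.left]) (by rw [hT'a]; exact hdX)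
        hs hε hdata' hρ
      rw [hT'a] at h
      show ‖((srcVec a₀ z : X₀) : Ultra X)‖ + ‖((imgDir T₀ a₀ z : Y₀) : Ultra Y)‖
        ≤ ‖((srcVec a₀ z + ρ • -a₀ : X₀) : Ultra X)‖
          + ‖((imgDir T₀ a₀ z + ρ • -(g₀ - T₀ a₀) : Y₀) : Ultra Y)‖
      simp only [srcVec, imgDir, ← hy₀, Submodule.coe_add, Submodule.coe_sub, Submodule.coe_smul,
        Submodule.coe_neg, hTa₀, hge, ← hfe, haX, hgY]
      simp only [P, Q, map_neg, map_sub, smul_neg] at h
      simp only [smul_neg, ← sub_eq_add_neg] at h ⊢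
      linarith
    have hzs : Smooth (srcVec a₀ z) := by
      rw [hs₀.srcVec_eq ha₀n]
      exact hz.2.1.smul_base (exitLen_spec ha₀n hz.1).1
    have e1 := hz.2.2.map_sub_smul g₀ (T₀ a₀) 1
    rw [one_smul, one_mul] at e1
    have e2 := hzs a₀
    have e3 := hz.2.2 (g₀ - T₀ a₀)
    simp only [defect]
    linarith
  have hb : Smooth a₀ → Dn (T₀ a₀) g₀ ≤ 1 := by
    intro hsm
    obtain ⟨C₁, hC₁⟩ := hs₀.ctrl
    obtain ⟨C₂, hC₂⟩ := hs₀.ctrl'
    have hsY' := smooth_map hT₀ hC₁ (norm_ne_zero_iff.1 (by rw [ha₀n]; exact one_ne_zero)) hC₂ hsm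
    have h1 : -1 ≤ Dn (T₀ a₀) (-g₀) := le_Dn _ _ fun ρ hρ => by
      rw [le_inv_mul_iff₀ hρ, hT₀.norm_map, ha₀n]
      suffices 1 - ρ ≤ ‖((T₀ a₀ + ρ • -g₀ : Y₀) : Ultra Y)‖ by
        change 1 - ρ ≤ ‖T₀ a₀ + ρ • -g₀‖ at this
        linarith
      rw [Submodule.coe_add, Submodule.coe_smul, Submodule.coe_neg, hTa₀, hg₀, smul_neg,
        ← sub_eq_add_neg, ← map_smul, ← map_sub]
      refine ge_of_tendsto' (Ultra.tendsto_norm _) fun n => ?_
      simp only [BoundedContinuousFunction.sub_apply, BoundedContinuousFunction.smul_apply,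
        BoundedContinuousFunction.const_apply, G,
        BoundedContinuousFunction.coe_ofNormedAddCommGroupDiscrete, smul_smul]
      have hlam : 0 < ρ * (N n)⁻¹ := mul_pos hρ (inv_pos.2 (hN0 n))
      set lam := ρ * (N n)⁻¹ with hlamdef
      have h2 := norm_add_le (lam • ((2 : ℝ) • T a + sd T a (t n • u)))
        (T a - lam • sd T a (t n • u))
      rw [show lam • ((2 : ℝ) • T a + sd T a (t n • u)) + (T a - lam • sd T a (t n • u))
        = (2 * lam + 1) • T a by module, norm_smul, norm_smul, hT.norm_map, ha, mul_one,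
        Real.norm_of_nonneg (by linarith), Real.norm_of_nonneg hlam.le] at h2
      have h3 : ‖(2 : ℝ) • T a + sd T a (t n • u)‖ ≤ 2 + N n := by
        rw [sd, add_sub_cancel]
        refine (norm_add_le _ _).trans (le_of_eq ?_)
        simp only [hN, nd, hT.norm_map, ha]
        ring
      have h4 := mul_le_mul_of_nonneg_left h3 hlam.le
      have h5 : lam * N n = ρ := by rw [hlamdef]; field_simp [(hN0 n).ne']
      linarith
    linarith [hsY' g₀]
  obtain ⟨C₁, hC₁⟩ := hs₀.ctrl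
  have key := hs₀.isometric_of_linear ha₀n hβ hb ⟨vh, hvh0⟩
  have e : ((dT T₀ a₀ ⟨vh, hvh0⟩ : Y₀) : Ultra Y) = Ultra.mk (.const ℕ (dT T a v)) := by
    have h1 := ((continuous_subtype_val).tendsto _).comp
      (tendsto_dT hT₀ hC₁ (norm_ne_zero_iff.1 (by rw [ha₀n]; exact one_ne_zero)) (⟨vh, hvh0⟩ : X₀))
    refine tendsto_nhds_unique h1 ?_
    rw [tendsto_iff_norm_sub_tendsto_zero]
    refine (tendsto_iff_norm_sub_tendsto_zero.1 (tendsto_dT hT hC ha0 v)).congr fun τ => ?_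
    simp only [Function.comp_apply, Submodule.coe_smul, Submodule.coe_sub, hTc, Submodule.coe_add,
      ha₀, hah, hvh]
    rw [← map_smul, ← map_add, show BoundedContinuousFunction.const ℕ a
      + τ • BoundedContinuousFunction.const ℕ v = BoundedContinuousFunction.const ℕ (a + τ • v) by
        ext n; simp, hconst, hconst, ← map_sub, ← map_smul, ← map_sub]
    rw [← norm_mk_const (τ⁻¹ • (T (a + τ • v) - T a) - dT T a v)]
    congr 2
  change ‖((dT T₀ a₀ ⟨vh, hvh0⟩ : Y₀) : Ultra Y)‖ = ‖vh‖ at key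
  rw [e, norm_mk_const, hvh, norm_mk_const] at key
  exact key

/-- At superquadratic points the derivative is isometric. -/
theorem norm_dT_of_superquadratic (hT : IsTingley T T') {C : ℝ} (hC : Ctrl T C) {a : X}
    (ha : a ≠ 0) {u : X}
    (hu : ∀ m : ℕ, ∀ r : ℝ, 0 < r → ∃ t : ℝ, 0 < t ∧ t < r ∧ (m : ℝ) * t ^ 2 < nd a (t • u))
    (v : X) : ‖dT T a v‖ = ‖v‖ := by
  have hr : 0 < ‖a‖ := norm_pos_iff.2 ha
  set b := ‖a‖⁻¹ • a with hb
  have hbn : ‖b‖ = 1 := by rw [hb, norm_smul, norm_inv, norm_norm, inv_mul_cancel₀ hr.ne']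
  have hb0 : b ≠ 0 := norm_ne_zero_iff.1 (by rw [hbn]; exact one_ne_zero)
  have hab : a = ‖a‖ • b := (smul_inv_smul₀ hr.ne' a).symm
  have e : dT T a v = dT T b v := by
    refine tendsto_nhds_unique (tendsto_dT hT hC ha v)
      (((tendsto_dT hT hC hb0 v).comp (tendsto_const_mul_nhdsGT (inv_pos.2 hr))).congr' ?_)
    filter_upwards [self_mem_nhdsWithin] with τ (hτ : 0 < τ)
    simp only [Function.comp_apply]
    have hTa : T a = ‖a‖ • T b := by rw [← hT.homog _ b hr, ← hab]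
    rw [show a + τ • v = ‖a‖ • (b + (τ * ‖a‖⁻¹) • v) by
      rw [smul_add, ← hab, smul_smul, mul_left_comm, mul_inv_cancel₀ hr.ne', mul_one],
      hT.homog _ _ hr, hTa, ← smul_sub, smul_smul]
    congr 1
    field_simp
  rw [e]
  have hex : ∀ n : ℕ, ∃ t : ℝ, 0 < t ∧ t < 1 / ((n : ℝ) + 1) ∧
      ((n : ℝ) + 1) * t ^ 2 < nd b (t • u) := by
    intro n
    obtain ⟨m, hm⟩ := exists_nat_ge (((n : ℝ) + 1) / ‖a‖)
    obtain ⟨t, ht, htr, hsq⟩ := hu m (‖a‖ / ((n : ℝ) + 1)) (by positivity)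
    refine ⟨t / ‖a‖, by positivity, ?_, ?_⟩
    · rw [div_lt_iff₀ hr, div_mul_eq_mul_div, one_mul]
      exact htr
    · rw [hab, nd_smul_base b _ hr, smul_smul, inv_mul_eq_div] at hsq
      have h1 := mul_le_mul_of_nonneg_right hm (sq_nonneg t)
      have h2 : ((n : ℝ) + 1) * (t / ‖a‖) ^ 2 * ‖a‖ = ((n : ℝ) + 1) / ‖a‖ * t ^ 2 := by field_simp
      nlinarith
  choose t ht htr hsq using hex
  exact norm_dT_unit hT hC hbn ht (squeeze_zero (fun n => (ht n).le) (fun n => (htr n).le)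
    tendsto_one_div_add_atTop_nhds_zero_nat) hsq v

end Vale.Agent.P084.Inf
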