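import Mathlib.Analysis.Calculus.MeanValue
import Mathlib.Analysis.Normed.Affine.MazurUlam
import Vale.Agent.P084.Inf.Superquad
import Vale.Agent.P084.Inf.Residual

/-!
Spaces whose norm is nowhere `C^{1,1}` have the Mazur-Ulam property.
-/

namespace Vale.Agent.P084.Inf

open Filter Topology Set Metric

variable {X Y : Type*} [NormedAddCommGroup X] [NormedSpace ℝ X] [NormedAddCommGroup Y]
  [NormedSpace ℝ Y] [CompleteSpace Y] {T : X → Y} {T' : Y → X}

/-- The right derivative along a segment inherits bounds from the rational points. -/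
lemma norm_dT_le_of_rat (hT : IsTingley T T') {C : ℝ} (hC : Ctrl T C) {p d : X}
    (h0 : ∀ t ∈ Icc (0 : ℝ) 1, p + t • d ≠ 0)
    (hq : ∀ q : ℚ, (q : ℝ) ∈ Ioo (0 : ℝ) 1 → ‖dT T (p + (q : ℝ) • d) d‖ ≤ ‖d‖)
    {t : ℝ} (ht : t ∈ Ico (0 : ℝ) 1) : ‖dT T (p + t • d) d‖ ≤ ‖d‖ := by
  set a := p + t • d with ha_def
  have ha : a ≠ 0 := h0 t (Ico_subset_Icc_self ht)
  have hC0 := hC.1
  have key : ∀ᶠ s in 𝓝[>] (0 : ℝ), ‖s⁻¹ • (T (a + s • d) - T a)‖
      ≤ ‖d‖ + C * (s⁻¹ * (‖a + s • d‖ - ‖a‖) - Dn a d + s * (2 * ‖d‖ ^ 2 / ‖a‖)) := by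
    have e1 : ∀ᶠ s in 𝓝[>] (0 : ℝ), t + s < 1 :=
      (((continuous_const.add continuous_id).tendsto' 0 t (add_zero t)).mono_left
        nhdsWithin_le_nhds).eventually (eventually_lt_nhds ht.2)
    have e2 : ∀ᶠ s in 𝓝[>] (0 : ℝ), s * (4 * ‖d‖) ≤ ‖a‖ :=
      (((continuous_id.mul continuous_const).tendsto' 0 0 (zero_mul _)).mono_left
        nhdsWithin_le_nhds).eventually (eventually_le_nhds (norm_pos_iff.2 ha))
    filter_upwards [e1, e2, self_mem_nhdsWithin] with s h1 h2 (hs : 0 < s)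
    have hex : ∀ n : ℕ, ∃ q : ℚ, t < q ∧ (q : ℝ) < t + s / ((n : ℝ) + 2) := fun n =>
      exists_rat_btwn (by linarith [show 0 < s / ((n : ℝ) + 2) by positivity])
    choose q hq1 hq2 using hex
    have hqlim : Tendsto (fun n => (q n : ℝ)) atTop (𝓝 t) := by
      refine tendsto_of_tendsto_of_tendsto_of_le_of_le tendsto_const_nhds ?_ (fun n => (hq1 n).le)
        (fun n => (hq2 n).le)
      have : Tendsto (fun n : ℕ => s / ((n : ℝ) + 2)) atTop (𝓝 0) := by
        refine ((tendsto_const_div_atTop_nhds_zero_nat s).comp (tendsto_add_atTop_nat 2)).congr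
          fun n => ?_
        simp
      simpa using this.const_add t
    have hstep : ∀ n, ‖T (a + s • d) - T (p + (q n : ℝ) • d)‖ ≤ (t + s - q n) * ‖d‖
        + C * (‖a + s • d‖ - ‖p + (q n : ℝ) • d‖ - (t + s - q n) * Dn a d
          + 2 * s ^ 2 * ‖d‖ ^ 2 / ‖a‖) := by
      intro n
      have hn2 : s / ((n : ℝ) + 2) ≤ s := div_le_self hs.le (by linarith [n.cast_nonneg (α := ℝ)])
      have hl : 0 < (q n : ℝ) - t := by linarith [hq1 n]
      have hr : 0 ≤ t + s - q n := by linarith [hq2 n]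
      set b := p + (q n : ℝ) • d with hb_def
      have hbI : (q n : ℝ) ∈ Ioo (0 : ℝ) 1 := ⟨lt_of_le_of_lt ht.1 (hq1 n), by linarith [hq2 n]⟩
      have hb0 : b ≠ 0 := h0 _ (Ioo_subset_Icc_self hbI)
      have hba : b = a + ((q n : ℝ) - t) • d := by rw [hb_def, ha_def]; module
      have hbn : ‖a‖ ≤ 2 * ‖b‖ ∧ (t + s - q n) * ‖d‖ ≤ ‖b‖ / 2 := by
        have h3 := norm_sub_norm_le a (-(((q n : ℝ) - t) • d))
        rw [sub_neg_eq_add, ← hba, norm_neg, norm_smul, Real.norm_of_nonneg hl.le] at h3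
        have h4 := mul_le_mul_of_nonneg_right (show (q n : ℝ) - t ≤ s by linarith [hq2 n])
          (norm_nonneg d)
        have h5 := mul_le_mul_of_nonneg_right (show t + s - (q n : ℝ) ≤ s by linarith)
          (norm_nonneg d)
        constructor <;> linarith
      have hu : ‖(t + s - (q n : ℝ)) • d‖ ≤ ‖b‖ / 2 := by
        rw [norm_smul, Real.norm_of_nonneg hr]; exact hbn.2
      have h6 := norm_sub_dT_le hT hC hb0 hu
      rw [dT_smul hT hC hb0 d hr, show b + (t + s - (q n : ℝ)) • d = a + s • d by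
        rw [hb_def, ha_def]; module] at h6
      have hmono : Dn a d ≤ Dn b d := by
        have h7 := Dn_le_quot a d hl
        rw [← hba] at h7
        have h8 := Dn_le_quot b (-d) hl
        rw [show b + ((q n : ℝ) - t) • -d = a by rw [hba]; module] at h8
        have h9 := Dn_add_neg_nonneg b d
        linarith
      have hgap : gap b ((t + s - (q n : ℝ)) • d)
          ≤ ‖a + s • d‖ - ‖b‖ - (t + s - q n) * Dn a d := by
        rw [gap, Dn_smul b d hr, show b + (t + s - (q n : ℝ)) • d = a + s • d by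
          rw [hb_def, ha_def]; module]
        linarith [mul_le_mul_of_nonneg_left hmono hr]
      have hsq : ‖(t + s - (q n : ℝ)) • d‖ ^ 2 / ‖b‖ ≤ 2 * s ^ 2 * ‖d‖ ^ 2 / ‖a‖ := by
        rw [norm_smul, Real.norm_of_nonneg hr, mul_pow,
          div_le_div_iff₀ (norm_pos_iff.2 hb0) (norm_pos_iff.2 ha)]
        have h10 : (t + s - (q n : ℝ)) ^ 2 * ‖d‖ ^ 2 ≤ s ^ 2 * ‖d‖ ^ 2 :=
          mul_le_mul_of_nonneg_right (pow_le_pow_left₀ hr (by linarith) 2) (sq_nonneg _)
        calc _ ≤ s ^ 2 * ‖d‖ ^ 2 * (2 * ‖b‖) := mul_le_mul h10 hbn.1 (norm_nonneg a) (by positivity)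
          _ = _ := by ring
      have h11 := norm_le_norm_add_norm_sub' (T (a + s • d) - T b) ((t + s - (q n : ℝ)) • dT T b d)
      have h12 := mul_le_mul_of_nonneg_left (hq (q n) hbI) hr
      rw [norm_smul, Real.norm_of_nonneg hr] at h11
      have h13 := mul_le_mul_of_nonneg_left (add_le_add hgap hsq) hC0
      linarith
    have hTc := hT.lipschitz.continuous
    have hcl : ∀ {F : ℝ → ℝ}, Continuous F → Tendsto (fun n => F (q n)) atTop (𝓝 (F t)) :=
      fun hF => (hF.tendsto t).comp hqlim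
    have hlim := le_of_tendsto_of_tendsto'
      (hcl (F := fun r => ‖T (a + s • d) - T (p + r • d)‖) (by fun_prop))
      (hcl (F := fun r => (t + s - r) * ‖d‖
        + C * (‖a + s • d‖ - ‖p + r • d‖ - (t + s - r) * Dn a d + 2 * s ^ 2 * ‖d‖ ^ 2 / ‖a‖))
        (by fun_prop)) hstep
    simp only [← ha_def] at hlim
    rw [norm_smul, norm_inv, Real.norm_of_nonneg hs.le, inv_mul_le_iff₀ hs]
    refine hlim.trans (le_of_eq ?_)
    field_simp
    ring
  have hR : Tendsto (fun s => ‖d‖ + C * (s⁻¹ * (‖a + s • d‖ - ‖a‖) - Dn a d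
      + s * (2 * ‖d‖ ^ 2 / ‖a‖))) (𝓝[>] (0 : ℝ)) (𝓝 (‖d‖ + C * (Dn a d - Dn a d + 0))) := by
    refine ((((tendsto_Dn a d).sub_const _).add ?_).const_mul C).const_add ‖d‖
    exact ((continuous_id.mul continuous_const).tendsto' 0 0 (zero_mul _)).mono_left
      nhdsWithin_le_nhds
  have := le_of_tendsto_of_tendsto (tendsto_dT hT hC ha d).norm hR key
  simpa using this

/-- A map whose derivative does not expand on a residual set is a contraction. -/
lemma norm_sub_le_of_residual [CompleteSpace X] (hT : IsTingley T T') {C : ℝ} (hC : Ctrl T C)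
    {A : ℕ → Set X} (hAo : ∀ m, IsOpen (A m)) (hAd : ∀ m, Dense (A m))
    (hA : ∀ a, a ≠ 0 → (∀ m, a ∈ A m) → ∀ v, ‖dT T a v‖ ≤ ‖v‖) (x y : X) :
    ‖T x - T y‖ ≤ ‖x - y‖ := by
  by_cases h0 : ∃ t ∈ Icc (0 : ℝ) 1, x + t • (y - x) = 0
  · obtain ⟨t, ht, h⟩ := h0
    have e1 : x = t • (x - y) := by
      rw [← sub_eq_zero, ← h]; module
    have e2 : y = (t - 1) • (x - y) := by
      rw [← sub_eq_zero, ← h]; module
    have n1 : ‖x‖ = t * ‖x - y‖ := by
      conv_lhs => rw [e1, norm_smul, Real.norm_of_nonneg ht.1]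
    have n2 : ‖y‖ = (1 - t) * ‖x - y‖ := by
      conv_lhs => rw [e2, norm_smul, Real.norm_of_nonpos (by linarith [ht.2]), neg_sub]
    refine (norm_sub_le _ _).trans (le_of_eq ?_)
    rw [hT.norm_map, hT.norm_map, n1, n2]
    ring
  push Not at h0
  set d := y - x with hd
  obtain ⟨t₀, ht₀, hmin⟩ := isCompact_Icc.exists_isMinOn (nonempty_Icc.2 (zero_le_one (α := ℝ)))
    (f := fun t : ℝ => ‖x + t • d‖) (by fun_prop)
  have hμ : 0 < ‖x + t₀ • d‖ := norm_pos_iff.2 (h0 t₀ ht₀)
  have hdense := dense_iInter_of_isOpen (f := fun i : ℕ × ℚ =>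
    Homeomorph.addLeft (x + (i.2 : ℝ) • d) ⁻¹' A i.1)
    (fun i => (hAo i.1).preimage (Homeomorph.addLeft _).continuous)
    (fun i => (hAd i.1).preimage (Homeomorph.addLeft _).isOpenMap)
  obtain ⟨z, hz, hz0⟩ := mem_closure_iff_seq_limit.1 (hdense (0 : X))
  have hTc := hT.lipschitz.continuous
  have hlim : Tendsto (fun n => ‖T (x + z n + d) - T (x + z n)‖) atTop (𝓝 ‖T y - T x‖) := by
    have hF : Continuous fun w => ‖T (x + w + d) - T (x + w)‖ := by fun_prop
    have := (hF.tendsto 0).comp hz0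
    rwa [add_zero, show x + d = y by rw [hd]; abel] at this
  rw [norm_sub_rev, norm_sub_rev x]
  refine le_of_tendsto hlim ?_
  filter_upwards [hz0.norm.eventually (eventually_lt_nhds (b := ‖x + t₀ • d‖) (by simpa using hμ))]
    with n hn
  have hne : ∀ t ∈ Icc (0 : ℝ) 1, x + z n + t • d ≠ 0 := by
    intro t ht h
    have h1 : ‖x + t • d‖ = ‖z n‖ := by
      rw [← norm_neg (z n)]
      congr 1
      rw [← sub_eq_zero, ← h]; abel
    have h2 : ‖x + t₀ • d‖ ≤ ‖x + t • d‖ := hmin ht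
    linarith
  have hrat : ∀ q : ℚ, (q : ℝ) ∈ Ioo (0 : ℝ) 1 → ‖dT T (x + z n + (q : ℝ) • d) d‖ ≤ ‖d‖ :=
    fun q hq => hA _ (hne _ (Ioo_subset_Icc_self hq)) (fun m => by
      have := mem_iInter.1 (hz n) (m, q)
      simp only [Set.mem_preimage, Homeomorph.coe_addLeft] at this
      rwa [show x + (q : ℝ) • d + z n = x + z n + (q : ℝ) • d by abel] at this) d
  have hmvt := norm_image_sub_le_of_norm_deriv_right_le_segment
    (f := fun t : ℝ => T (x + z n + t • d)) (f' := fun t => dT T (x + z n + t • d) d)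
    (a := 0) (b := 1) (C := ‖d‖) (by fun_prop)
    (fun t ht => by
      rw [hasDerivWithinAt_iff_tendsto_slope, Ici_sdiff_left]
      have hsub : Tendsto (fun r : ℝ => r - t) (𝓝[>] t) (𝓝[>] 0) :=
        tendsto_nhdsWithin_of_tendsto_nhds_of_eventually_within _
          (((continuous_id.sub continuous_const).tendsto' t 0 (sub_self t)).mono_left
            nhdsWithin_le_nhds)
          (eventually_nhdsWithin_of_forall fun r (hr : t < r) => show (0 : ℝ) < r - t from sub_pos.2 hr)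
      refine ((tendsto_dT hT hC (hne t (Ico_subset_Icc_self ht)) d).comp hsub).congr fun r => ?_
      rw [slope_def_module, Function.comp_apply,
        show x + z n + t • d + (r - t) • d = x + z n + r • d by module])
    (fun t ht => norm_dT_le_of_rat hT hC hne hrat ht) 1 (by simp)
  simpa using hmvt

/-- A space whose norm is nowhere `C^{1,1}` has the Mazur-Ulam property. -/
theorem mazurUlam_nowhereC11 [CompleteSpace X] (hX : NowhereC11 X)
    (f : sphere (0 : X) 1 → sphere (0 : Y) 1) (hf : Isometry f) (hs : Function.Surjective f) :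
    ∃ U : X ≃ₗᵢ[ℝ] Y, ∀ x : sphere (0 : X) 1, U x = (f x : Y) := by
  obtain ⟨T, T', hT, hTf⟩ := exists_isTingley f hf hs
  obtain ⟨C, hC⟩ := exists_ctrl hT
  obtain ⟨C', hC'⟩ := exists_ctrl hT.symm
  obtain ⟨A, hAo, hAd, hA⟩ := exists_superQuad_residual hX
  have hiso : ∀ a, a ≠ 0 → (∀ m, a ∈ A m) → ∀ v, ‖dT T a v‖ = ‖v‖ := fun a ha hm v => by
    obtain ⟨u, hu⟩ := hA a ha hm
    exact norm_dT_of_superquadratic hT hC ha hu v
  have h1 := norm_sub_le_of_residual hT hC hAo hAd fun a ha hm v => (hiso a ha hm v).le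
  let e : Y ≃ₜ X :=
    { toFun := T', invFun := T, left_inv := hT.right, right_inv := hT.left,
      continuous_toFun := hT.symm.lipschitz.continuous
      continuous_invFun := hT.lipschitz.continuous }
  have h2 := norm_sub_le_of_residual hT.symm hC' (A := fun m => e ⁻¹' A m)
    (fun m => (hAo m).preimage e.continuous) (fun m => (hAd m).preimage e.isOpenMap)
    fun b hb hm w => by
      have ha : T' b ≠ 0 := hT.symm.map_ne_zero hb
      have h := dT_left hT.symm hC' hb hC w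
      rw [← hiso (T' b) ha hm (dT T' b w), h]
  have hT0 := hT.map_zero
  let I : X ≃ᵢ Y :=
    { toFun := T, invFun := T', left_inv := hT.left, right_inv := hT.right,
      isometry_toFun := Isometry.of_dist_eq fun x y => by
        rw [dist_eq_norm, dist_eq_norm]
        refine le_antisymm (h1 x y) ?_
        have := h2 (T x) (T y)
        rwa [hT.left, hT.left] at this }
  refine ⟨I.toRealLinearIsometryEquivOfMapZero hT0, fun x => ?_⟩
  rw [IsometryEquiv.coe_toRealLinearIsometryEquivOfMapZero]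
  exact hTf x

end Vale.Agent.P084.Inf
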