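import Vale.Agent.P084.Inf.SecondBound

/-!
Two-sided chord estimates for the displacement of a midpoint.
-/

namespace Vale.Agent.P084.Inf

variable {X Y : Type*} [NormedAddCommGroup X] [NormedSpace ℝ X] [NormedAddCommGroup Y]
  [NormedSpace ℝ Y] {T : X → Y} {T' : Y → X}

/-- The radial pair of a short vector, with its exact displacements. -/
lemma radial_eq (hT : IsTingley T T') {a h : X} (ha : ‖a‖ = 1) (hh : ‖h‖ ≤ 1 / 4)
    (hn : 0 < nd a h) :
    ∃ (xp xm : X) (l s : ℝ), ‖xp‖ = 1 ∧ ‖xm‖ = 1 ∧ 0 ≤ l ∧ l ≤ 1 ∧ s = nd a h / (2 + nd a h) ∧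
      l • xp + (1 - l) • xm = a + s • (-a) ∧
      l • T xp + (1 - l) • T xm = T a + s • ((nd a h)⁻¹ • sd T a h - T a) ∧
      ‖xp - xm‖ ≤ 4 * ‖h‖ := by
  set n := nd a h with hndef
  set pp := ‖a + h‖ with hpp
  set pm := ‖a - h‖ with hpm
  have b1 := norm_sub_norm_le a (-h)
  have b2 := norm_sub_norm_le a h
  rw [sub_neg_eq_add, norm_neg, ha] at b1
  rw [ha] at b2
  have b3 := norm_add_le a h
  have b4 := norm_sub_le a h
  rw [ha] at b3 b4
  have hpp0 : 0 < pp := by linarith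
  have hpm0 : 0 < pm := by linarith
  have hS : pp + pm = 2 + n := by simp only [hndef, hpp, hpm, nd, ha]; ring
  have hS0 : (0 : ℝ) < 2 + n := by linarith
  have h1l : 1 - pp / (2 + n) = pm / (2 + n) := by field_simp; linarith
  set xp := pp⁻¹ • (a + h) with hxp
  set xm := pm⁻¹ • (a - h) with hxm
  have ep : a + h = pp • xp := (smul_inv_smul₀ hpp0.ne' _).symm
  have em : a - h = pm • xm := (smul_inv_smul₀ hpm0.ne' _).symm
  have hxpn : ‖xp‖ = 1 := by
    rw [hxp, norm_smul, norm_inv, Real.norm_of_nonneg hpp0.le, inv_mul_cancel₀ hpp0.ne']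
  have hxmn : ‖xm‖ = 1 := by
    rw [hxm, norm_smul, norm_inv, Real.norm_of_nonneg hpm0.le, inv_mul_cancel₀ hpm0.ne']
  refine ⟨xp, xm, pp / (2 + n), n / (2 + n), hxpn, hxmn, by positivity,
    (div_le_one hS0).2 (by linarith), rfl, ?_, ?_, ?_⟩
  · have e : pp • xp + pm • xm = (2 : ℝ) • a := by rw [← ep, ← em]; module
    have e2 : (2 + n)⁻¹ • (pp • xp + pm • xm) = (2 + n)⁻¹ • ((2 : ℝ) • a) := by rw [e]
    rw [h1l]
    refine Eq.trans ?_ (e2.trans ?_)
    · match_scalars <;> field_simp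
    · match_scalars <;> field_simp <;> ring
  · have e : pp • T xp + pm • T xm = sd T a h + (2 : ℝ) • T a := by
      rw [sd, ep, em, hT.homog _ _ hpp0, hT.homog _ _ hpm0]
      abel
    have e2 : (2 + n)⁻¹ • (pp • T xp + pm • T xm) = (2 + n)⁻¹ • (sd T a h + (2 : ℝ) • T a) := by
      rw [e]
    rw [h1l]
    refine Eq.trans ?_ (e2.trans ?_)
    · match_scalars <;> field_simp
    · match_scalars <;> field_simp <;> ring
  · have h1 : ‖xp - a‖ ≤ 2 * ‖h‖ := by
      have := norm_sub_le_two hxpn ep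
        (by rw [add_sub_cancel_left, abs_le]; constructor <;> linarith)
      rwa [add_sub_cancel_left] at this
    have h2 : ‖xm - a‖ ≤ 2 * ‖h‖ := by
      have := norm_sub_le_two hxmn em
        (by rw [sub_sub_cancel_left, norm_neg, abs_le]; constructor <;> linarith)
      rwa [sub_sub_cancel_left, norm_neg] at this
    have := norm_sub_le_norm_sub_add_norm_sub xp a xm
    rw [norm_sub_rev a xm] at this
    linarith

lemma convex_slope (w q : X) {s ρ : ℝ} (hs : 0 ≤ s) (hρ : 0 < ρ) (hsρ : s ≤ ρ) :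
    ρ * (‖w + s • q‖ - ‖w‖) ≤ s * (‖w + ρ • q‖ - ‖w‖) ∧
      -(s * (‖w - ρ • q‖ - ‖w‖)) ≤ ρ * (‖w + s • q‖ - ‖w‖) := by
  constructor
  · have h := norm_add_le ((ρ - s) • w) (s • (w + ρ • q))
    rw [show (ρ - s) • w + s • (w + ρ • q) = ρ • (w + s • q) by module, norm_smul, norm_smul,
      norm_smul, Real.norm_of_nonneg hρ.le, Real.norm_of_nonneg (by linarith),
      Real.norm_of_nonneg hs] at h
    linarith
  · have h := norm_add_le (ρ • (w + s • q)) (s • (w - ρ • q))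
    rw [show ρ • (w + s • q) + s • (w - ρ • q) = (ρ + s) • w by module, norm_smul, norm_smul,
      norm_smul, Real.norm_of_nonneg hρ.le, Real.norm_of_nonneg (by linarith : 0 ≤ ρ + s),
      Real.norm_of_nonneg hs] at h
    linarith

/-- A midpoint whose image moves by `s • q` while it moves by `s • p`, seen by a chord. -/
lemma mid_lower (hT : IsTingley T T') {a xp xm p y : X} {q : Y} {l s ρ r c' : ℝ} (ha : ‖a‖ = 1)
    (hy : ‖y‖ = 1) (hp : ‖xp‖ = 1) (hm : ‖xm‖ = 1) (h0 : 0 ≤ l) (h1 : l ≤ 1) (hs : 0 < s)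
    (hρ : 0 < ρ) (hsρ : s ≤ ρ)
    (hbar : l • xp + (1 - l) • xm = a + s • p)
    (hv : l • T xp + (1 - l) • T xm = T a + s • q)
    (hc' : 0 < c') (hc'1 : c' ≤ 1) (hdip : ‖T a + T y‖ ≤ 2 - c')
    (hr : 0 < r) (hrc : 2 * r ≤ c' / 256) (hsq : s * ‖q‖ ≤ r) :
    ‖a - y‖ + ‖T a - T y‖ ≤ ‖a - y - ρ • p‖ + ‖T a - T y + ρ • q‖
      + ρ * (128 * ‖xp - xm‖ ^ 2 / (r * s)) + 160 * r / c' := by
  set Q := T a with hQ
  have hQ1 : ‖Q‖ = 1 := by rw [hQ, hT.norm_map, ha]
  have hR1 : ‖T y‖ = 1 := by rw [hT.norm_map, hy]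
  set w := Q - T y with hw
  obtain ⟨d, hdr, hdn⟩ := exists_shift w ((4 : ℝ) • (T xp - T xm)) hr
  have hsq' : ‖s • q‖ ≤ r := by rwa [norm_smul, Real.norm_of_nonneg hs.le]
  have hg1 : |‖Q + s • q - (1 : ℝ) • (w + d)‖ - 1| ≤ 2 * r := by
    have h := abs_norm_sub_norm_le (Q + s • q - (1 : ℝ) • (w + d)) (T y)
    rw [hR1, show Q + s • q - (1 : ℝ) • (w + d) - T y = s • q - d by rw [hw]; module] at h
    exact h.trans ((norm_sub_le _ _).trans (by linarith))
  have hgh : ‖Q + s • q - (1 / 2 : ℝ) • (w + d)‖ ≤ 1 - c' / 4 := by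
    rw [show Q + s • q - (1 / 2 : ℝ) • (w + d)
      = (1 / 2 : ℝ) • (Q + T y) + (s • q - (1 / 2 : ℝ) • d) by rw [hw]; module]
    refine (norm_add_le _ _).trans ?_
    rw [norm_smul, Real.norm_of_nonneg (by norm_num : (0 : ℝ) ≤ 1 / 2)]
    have h := norm_sub_le (s • q) ((1 / 2 : ℝ) • d)
    rw [norm_smul (1 / 2 : ℝ), Real.norm_of_nonneg (by norm_num : (0 : ℝ) ≤ 1 / 2)] at h
    linarith
  obtain ⟨σ, hσ, hσn⟩ := exists_crossing (Q + s • q) (w + d) (by linarith : 0 ≤ 2 * r) hc' hrc hg1 hgh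
  set ε := 4 * (2 * r) / c' with hεdef
  have hε : ε ≤ 1 / 64 := by rw [hεdef, div_le_iff₀ hc']; linarith
  have hεc : ε * c' = 8 * r := by rw [hεdef, div_mul_cancel₀ _ hc'.ne']; ring
  have hrε : r ≤ ε := by
    rw [hεdef, le_div_iff₀ hc']
    nlinarith
  obtain ⟨hσl, hσu⟩ := abs_le.1 hσ
  set y' := T' (Q + s • q - σ • (w + d)) with hy'
  have hy'n : ‖y'‖ = 1 := by rw [hy', hT.symm.norm_map, hσn]
  have hTy' : T y' = Q + s • q - σ • (w + d) := hT.right _
  have hwn : ‖w‖ ≤ 2 := by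
    refine (norm_sub_le _ _).trans ?_
    rw [hQ1, hR1]; norm_num
  have hD : ‖y' - y‖ ≤ 5 * ε := by
    rw [← hT.dist_map y' y (hy'n.trans hy.symm), hTy',
      show Q + s • q - σ • (w + d) - T y = (1 - σ) • w + (s • q - σ • d) by rw [hw]; module]
    refine (norm_add_le _ _).trans ?_
    have e1 : ‖(1 - σ) • w‖ ≤ ε * 2 := by
      rw [norm_smul, Real.norm_eq_abs]
      exact mul_le_mul hσ hwn (norm_nonneg _) (le_trans (abs_nonneg _) hσ)
    have e2 : ‖σ • d‖ ≤ 2 * r := by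
      rw [norm_smul, Real.norm_of_nonneg (by linarith)]
      exact mul_le_mul (by linarith) hdr (norm_nonneg _) (by norm_num)
    have e3 := norm_sub_le (s • q) (σ • d)
    linarith
  have key := midpoint_le hT (xp := xp) (xm := xm) (y := y') (hp.trans hy'n.symm)
    (hm.trans hy'n.symm) h0 h1
  rw [hbar, hv, hTy'] at key
  rw [show Q + s • q - (Q + s • q - σ • (w + d)) = σ • (w + d) by abel] at key
  have hnd := nd_scaled_le (w + d) (T xp - T xm) (σ := σ) (M := 2) (by linarith) (by linarith) hdn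
  rw [norm_smul (4 : ℝ), hT.dist_map _ _ (hp.trans hm.symm), Real.norm_ofNat] at hnd
  set w' := Q - T y' with hw'
  set z' := a - y' with hz'
  have ez : a + s • p - y' = z' + s • p := by rw [hz']; abel
  have ew : σ • (w + d) = w' + s • q := by rw [hw', hTy']; abel
  rw [ez, ew] at key
  rw [ew] at hnd
  have heq : ‖w'‖ = ‖z'‖ := by rw [hw', hQ, hT.dist_map a y' (ha.trans hy'n.symm)]
  have c1 := (convex_slope w' q hs.le hρ hsρ).1
  have c2 := (convex_slope z' p hs.le hρ hsρ).2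
  set B := 2 * (4 * (4 * ‖xp - xm‖) ^ 2 / r) with hB
  have hB' : ρ * B = s * (ρ * (128 * ‖xp - xm‖ ^ 2 / (r * s))) := by
    rw [hB]; field_simp; ring
  have main : ‖z'‖ + ‖w'‖ ≤ ‖z' - ρ • p‖ + ‖w' + ρ • q‖ + ρ * (128 * ‖xp - xm‖ ^ 2 / (r * s)) := by
    refine le_of_mul_le_mul_left ?_ hs
    have k := mul_le_mul_of_nonneg_left (key.trans (add_le_add le_rfl hnd)) hρ.le
    linarith [congrArg (ρ * ·) heq]
  have dz : ‖z' - (a - y)‖ ≤ 5 * ε := by
    rwa [hz', show a - y' - (a - y) = -(y' - y) by abel, norm_neg]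
  have dw : ‖w' - w‖ ≤ 5 * ε := by
    rwa [hw', hw, show Q - T y' - (Q - T y) = -(T y' - T y) by abel, norm_neg,
      hT.dist_map y' y (hy'n.trans hy.symm)]
  have f1 := abs_le.1 ((abs_norm_sub_norm_le z' (a - y)).trans dz)
  have f2 := abs_le.1 ((abs_norm_sub_norm_le w' w).trans dw)
  have f3 := abs_le.1 ((abs_norm_sub_norm_le (z' - ρ • p) (a - y - ρ • p)).trans
    ((le_of_eq (by congr 1; abel)).trans dz))
  have f4 := abs_le.1 ((abs_norm_sub_norm_le (w' + ρ • q) (w + ρ • q)).trans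
    ((le_of_eq (by congr 1; abel)).trans dw))
  have h80 : 160 * r / c' = 20 * ε := by rw [hεdef]; ring
  have h80' : 0 ≤ ε := le_trans hr.le hrε
  linarith

end Vale.Agent.P084.Inf
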